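import Mathlib

/-!
The energy estimate in an abstract Hilbert space, and an averaging inequality in `L²`.
-/

open MeasureTheory Set Filter Topology

namespace Vale.Agent.P099

noncomputable section

lemma almost_convex (x : ℤ → ℝ) (c : ℝ) (h : ∀ n, 2 * x n ≤ x (n - 1) + x (n + 1) + c) (n : ℤ)
    (k : ℕ) : 2 * x n - k ^ 2 * c ≤ x (n + k) + x (n - k) := by
  have h1 : ∀ k : ℕ, -(2 * k + 1) * c ≤
      (x (n + (k + 1 : ℕ)) + x (n - (k + 1 : ℕ))) - (x (n + k) + x (n - k)) := by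
    intro k
    induction k with
    | zero => have := h n; simp; linarith
    | succ k ih =>
      have a1 := h (n + (k + 1 : ℕ))
      have a2 := h (n - (k + 1 : ℕ))
      push_cast at *
      rw [show n + ((k : ℤ) + 1) - 1 = n + k by ring, add_assoc n] at a1
      rw [show n - ((k : ℤ) + 1) + 1 = n - k by ring, sub_sub] at a2
      linarith
  induction k with
  | zero => simp; linarith
  | succ k ih => have := h1 k; push_cast at *; linarith

lemma le_of_sq_sum {u : ℤ → ℝ} {c : ℝ} (hc : 0 ≤ c) (h : ∀ s : Finset ℤ, ∑ n ∈ s, u n ^ 2 ≤ c ^ 2)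
    (n : ℤ) : u n ≤ c := by
  have := h {n}
  rw [Finset.sum_singleton] at this
  exact (abs_le_of_sq_le_sq' this hc).2

lemma tendsto_of_sq_sum {u : ℤ → ℝ} {c : ℝ} (h : ∀ s : Finset ℤ, ∑ n ∈ s, u n ^ 2 ≤ c)
    (n : ℤ) : Tendsto (fun m : ℕ => u (n + m)) atTop (𝓝 0) := by
  have hs : Summable (fun m : ℕ => u (n + m) ^ 2) := by
    apply summable_of_sum_le (fun m => sq_nonneg _) (c := c)
    intro s
    have := h (s.map ⟨fun m : ℕ => n + m, fun a b hab => by simpa using hab⟩)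
    rwa [Finset.sum_map] at this
  have := hs.tendsto_atTop_zero
  have h2 := this.sqrt
  simp only [Real.sqrt_sq_eq_abs, Real.sqrt_zero] at h2
  exact tendsto_zero_iff_abs_tendsto_zero _ |>.2 h2

theorem energy_estimate {H : Type*} [NormedAddCommGroup H] [InnerProductSpace ℂ H]
    (B g h a b : ℤ → H) (β γ η : ℝ) (hβ : 0 ≤ β) (hγ : 0 ≤ γ) (hη : 0 ≤ η)
    (ha : ∀ n, a n = (g (n + 1) + h (n + 1)) - Complex.I • B (n + 1))
    (hb : ∀ n, b (n + 1) = (g n + h n) + Complex.I • B n)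
    (P1 : ∀ n, ‖b n‖ = ‖a n‖)
    (P2 : ∀ n, (inner ℂ (b (n + 1)) (h n)).re = (inner ℂ (a n) (h (n + 1))).re)
    (sB : ∀ s : Finset ℤ, ∑ n ∈ s, ‖B n‖ ^ 2 ≤ β ^ 2)
    (sg : ∀ s : Finset ℤ, ∑ n ∈ s, ‖g n‖ ^ 2 ≤ γ ^ 2)
    (sh : ∀ s : Finset ℤ, ∑ n ∈ s, ‖h n‖ ^ 2 ≤ η ^ 2) (N : ℕ) (hN : 0 < N) (n : ℤ) :
    ‖a n‖ ^ 2 ≤ 4 * (γ ^ 2 + η ^ 2) / N + (1 + N ^ 2) * (4 * (γ + η) * γ + 8 * β * γ) := by
  let : InnerProductSpace ℝ H := InnerProductSpace.rclikeToReal ℂ H
  have hre : ∀ u v : H, inner ℝ u v = (inner ℂ u v).re := fun u v => rfl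
  simp only [← hre] at P2
  set p : ℤ → H := fun n => Complex.I • B n with hp
  have np : ∀ n, ‖p n‖ = ‖B n‖ := by intro n; simp [hp, norm_smul]
  have ha' : ∀ n, a (n - 1) = (g n + h n) - p n := by
    intro n; rw [ha, sub_add_cancel]
  set x : ℤ → ℝ := fun n => ‖a n‖ ^ 2 with hx
  set bt : ℤ → ℝ := fun n => 2 * inner ℝ (a (n - 1)) (h n) with hbt
  set E : ℤ → ℝ := fun n => x (n - 1) + x n - bt n with hE
  have bt1 : ∀ n, bt (n + 1) = 2 * inner ℝ (b (n + 1)) (h n) := by
    intro n; simp only [hbt, add_sub_cancel_right, P2]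
  have xb : ∀ n, x (n + 1) = ‖b (n + 1)‖ ^ 2 := by intro n; simp only [hx, P1]
  have step : ∀ n, E n - E (n + 1) = -4 * inner ℝ (g n) (p n) := by
    intro n
    simp only [hE, add_sub_cancel_right]
    rw [bt1, xb]
    simp only [hbt, hx]
    rw [ha', hb]
    change ‖g n + h n - p n‖ ^ 2 + ‖a n‖ ^ 2 - 2 * inner ℝ (g n + h n - p n) (h n) -
      (‖a n‖ ^ 2 + ‖g n + h n + p n‖ ^ 2 - 2 * inner ℝ (g n + h n + p n) (h n)) = _
    rw [norm_sub_sq_real, norm_add_sq_real (g n + h n)]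
    simp only [inner_add_left, inner_sub_left, real_inner_comm (h n) (p n)]
    ring
  have hBn := le_of_sq_sum hβ sB
  have hgn := le_of_sq_sum hγ sg
  have hhn := le_of_sq_sum hη sh
  have tele : ∀ n, ∀ M : ℕ, |E n - E (n + M)| ≤ 4 * (β * γ) := by
    intro n M
    have h1 : E n - E (n + M) = ∑ k ∈ Finset.range M, -4 * inner ℝ (g (n + k)) (p (n + k)) := by
      induction M with
      | zero => simp
      | succ M ih =>
        rw [Finset.sum_range_succ, ← ih, ← step]
        push_cast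
        rw [add_assoc]; ring
    rw [h1]
    refine (Finset.abs_sum_le_sum_abs _ _).trans ?_
    have h2 : ∀ k ∈ Finset.range M, |-4 * inner ℝ (g (n + k)) (p (n + k))| ≤
        4 * (‖B (n + k)‖ * ‖g (n + k)‖) := by
      intro k _
      rw [abs_mul, ← np, mul_comm ‖p _‖]
      have := abs_real_inner_le_norm (g (n + k)) (p (n + k))
      norm_num
      exact this
    refine (Finset.sum_le_sum h2).trans ?_
    rw [← Finset.mul_sum]
    have h3 := Finset.sum_mul_sq_le_sq_mul_sq (Finset.range M) (fun k => ‖B (n + k)‖)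
      (fun k => ‖g (n + k)‖)
    let emb : ℕ ↪ ℤ := ⟨fun m : ℕ => n + m, fun a b hab => by simpa using hab⟩
    have h4 := sB ((Finset.range M).map emb)
    have h5 := sg ((Finset.range M).map emb)
    rw [Finset.sum_map] at h4 h5
    have h6 : (∑ k ∈ Finset.range M, ‖B (n + k)‖ * ‖g (n + k)‖) ^ 2 ≤ (β * γ) ^ 2 := by
      refine h3.trans ?_
      rw [mul_pow]
      exact mul_le_mul h4 h5 (Finset.sum_nonneg fun _ _ => sq_nonneg _) (sq_nonneg _)
    have := (abs_le_of_sq_le_sq' h6 (mul_nonneg hβ hγ)).2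
    linarith
  have ta : ∀ n, Tendsto (fun m : ℕ => ‖a (n + m)‖) atTop (𝓝 0) := by
    intro n
    have t1 := tendsto_of_sq_sum sB (n + 1)
    have t2 := tendsto_of_sq_sum sg (n + 1)
    have t3 := tendsto_of_sq_sum sh (n + 1)
    have t4 := (t2.add t3).add t1
    simp only [add_zero] at t4
    refine squeeze_zero (fun _ => norm_nonneg _) (fun m => ?_) t4
    rw [ha, show n + (m : ℤ) + 1 = n + 1 + m by ring]
    refine (norm_sub_le _ _).trans (add_le_add (norm_add_le _ _) (np _).le)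
  have Ebd : ∀ n, |E n| ≤ 4 * (β * γ) := by
    intro n
    have t1 := ta (n - 1)
    have t2 := ta n
    have t3 : Tendsto (fun m : ℕ => inner ℝ (a (n - 1 + m)) (h (n + m))) atTop (𝓝 0) := by
      have t4 := t1.mul_const η
      rw [zero_mul] at t4
      refine squeeze_zero_norm (fun m => ?_) t4
      exact (abs_real_inner_le_norm _ _).trans (mul_le_mul_of_nonneg_left (hhn _) (norm_nonneg _))
    have t5 : Tendsto (fun m : ℕ => E (n + m)) atTop (𝓝 0) := by
      have := ((t1.pow 2).add (t2.pow 2)).sub (t3.const_mul 2)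
      simp only [ne_eq, OfNat.ofNat_ne_zero, not_false_eq_true, zero_pow, add_zero, mul_zero,
        sub_zero] at this
      refine this.congr fun m => ?_
      simp only [hE, hx, hbt]
      rw [show n + (m : ℤ) - 1 = n - 1 + m by ring]
    have t6 : Tendsto (fun m : ℕ => |E n - E (n + m)|) atTop (𝓝 |E n - 0|) :=
      (tendsto_const_nhds.sub t5).abs
    rw [sub_zero] at t6
    exact le_of_tendsto' t6 (tele n)
  set c := 4 * (γ + η) * γ + 8 * β * γ with hc
  have hc0 : 0 ≤ c := by positivity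
  have key : ∀ n, x (n - 1) + 2 * x n + x (n + 1) ≤ 4 * ‖g n + h n‖ ^ 2 + c := by
    intro n
    have e1 := (abs_le.1 (Ebd n)).2
    have e2 := (abs_le.1 (Ebd (n + 1))).2
    simp only [hE, add_sub_cancel_right] at e1 e2
    have e3 : bt n + bt (n + 1) = 4 * ‖g n + h n‖ ^ 2 - 4 * inner ℝ (g n + h n) (g n) := by
      rw [bt1]
      simp only [hbt]
      rw [ha', hb, ← real_inner_self_eq_norm_sq]
      change 2 * inner ℝ (g n + h n - p n) (h n) + 2 * inner ℝ (g n + h n + p n) (h n) = _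
      simp only [inner_add_left, inner_sub_left, inner_add_right]
      ring
    have e4 : |inner ℝ (g n + h n) (g n)| ≤ (γ + η) * γ :=
      (abs_real_inner_le_norm _ _).trans (mul_le_mul ((norm_add_le _ _).trans
        (add_le_add (hgn n) (hhn n))) (hgn n) (norm_nonneg _) (by positivity))
    have := (abs_le.1 e4).1
    nlinarith
  have par : ∀ n, 2 * ‖g n + h n‖ ^ 2 ≤ x (n - 1) + x (n + 1) := by
    intro n
    rw [xb]
    simp only [hx]
    rw [ha', hb]
    change _ ≤ ‖g n + h n - p n‖ ^ 2 + ‖g n + h n + p n‖ ^ 2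
    rw [norm_sub_sq_real, norm_add_sq_real (g n + h n)]
    nlinarith [sq_nonneg ‖p n‖]
  have x0 : ∀ n, 0 ≤ x n := fun n => sq_nonneg _
  have conv : ∀ n, 2 * x n ≤ x (n - 1) + x (n + 1) + c := by
    intro n; linarith [key n, par n]
  have xA : ∀ n, x n ≤ 4 * (‖g n‖ ^ 2 + ‖h n‖ ^ 2) + c / 2 := by
    intro n
    have h1 := key n
    have h2 : ‖g n + h n‖ ^ 2 ≤ 2 * (‖g n‖ ^ 2 + ‖h n‖ ^ 2) := by
      have := norm_add_le (g n) (h n)
      have h3 : ‖g n + h n‖ ^ 2 ≤ (‖g n‖ + ‖h n‖) ^ 2 := by gcongr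
      nlinarith [sq_nonneg (‖g n‖ - ‖h n‖)]
    linarith [x0 (n - 1), x0 (n + 1)]
  have hsum : ∀ f : ℕ → ℤ, Function.Injective f →
      ∑ k ∈ Finset.range N, x (f k) ≤ 4 * (γ ^ 2 + η ^ 2) + N * (c / 2) := by
    intro f hf
    refine (Finset.sum_le_sum fun k _ => xA (f k)).trans ?_
    have h4 := sh ((Finset.range N).map ⟨f, hf⟩)
    have h5 := sg ((Finset.range N).map ⟨f, hf⟩)
    rw [Finset.sum_map] at h4 h5
    rw [Finset.sum_add_distrib, ← Finset.mul_sum, Finset.sum_add_distrib, Finset.sum_const,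
      Finset.card_range, nsmul_eq_mul]
    simp only [Function.Embedding.coeFn_mk] at h4 h5
    linarith
  have s1 := hsum (fun k => n + k) (fun a b hab => by simpa using hab)
  have s2 := hsum (fun k => n - k) (fun a b hab => by simpa using hab)
  have s3 : ∑ k ∈ Finset.range N, (2 * x n - N ^ 2 * c) ≤
      ∑ k ∈ Finset.range N, (x (n + k) + x (n - k)) := by
    refine Finset.sum_le_sum fun k hk => le_trans ?_ (almost_convex x c conv n k)
    have : (k : ℝ) ≤ N := by exact_mod_cast (Finset.mem_range.1 hk).le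
    have : (k : ℝ) ^ 2 ≤ N ^ 2 := by gcongr
    nlinarith
  rw [Finset.sum_const, Finset.card_range, nsmul_eq_mul, Finset.sum_add_distrib] at s3
  have hN' : (0 : ℝ) < N := by exact_mod_cast hN
  have s4 : N * x n ≤ 4 * (γ ^ 2 + η ^ 2) + N * ((1 + N ^ 2) * c) := by
    have : 0 ≤ N * ((1 + N ^ 2) * c) := by positivity
    nlinarith
  change x n ≤ _
  rw [div_add' _ _ _ hN'.ne', le_div_iff₀ hN']
  nlinarith

lemma weighted_cs {A : Type*} [MeasurableSpace A] (μ : Measure A) {k g : A → ℝ}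
    (hk : Integrable k μ) (hg : AEStronglyMeasurable g μ) {C : ℝ} (hC : ∀ a, |g a| ≤ C) :
    (∫ a, |k a| * g a ∂μ) ^ 2 ≤ (∫ a, |k a| ∂μ) * ∫ a, |k a| * g a ^ 2 ∂μ := by
  have i0 := hk.abs
  have i1 : Integrable (fun a => |k a| * g a) μ := i0.mul_bdd hg (Eventually.of_forall hC)
  have i2 : Integrable (fun a => |k a| * g a ^ 2) μ := by
    have := i1.mul_bdd hg (Eventually.of_forall hC)
    refine this.congr (Eventually.of_forall fun a => ?_)
    simp only; ring
  have := discrim_le_zero (a := ∫ a, |k a| ∂μ) (b := -2 * ∫ a, |k a| * g a ∂μ)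
    (c := ∫ a, |k a| * g a ^ 2 ∂μ) (fun t => by
      have i3 : Integrable (fun a => |k a| * (t * t) + -2 * (|k a| * g a) * t) μ :=
        (i0.mul_const _).add ((i1.const_mul _).mul_const _)
      rw [← integral_mul_const, ← integral_const_mul, ← integral_mul_const,
        ← integral_add (i0.mul_const _) ((i1.const_mul _).mul_const _), ← integral_add i3 i2]
      apply integral_nonneg
      intro a
      simp only [Pi.zero_apply]
      nlinarith [mul_nonneg (abs_nonneg (k a)) (sq_nonneg (t - g a))])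
  rw [discrim] at this
  nlinarith

theorem L2avg {Y A : Type*} [MeasurableSpace Y] [MeasurableSpace A] (ν : Measure Y)
    [IsFiniteMeasure ν] (μ : Measure A) [SFinite μ] {k : A → ℝ} (hk : Integrable k μ)
    {Ψ : Y → A → ℂ} (hΨ : Measurable (fun q : Y × A => Ψ q.1 q.2)) {C : ℝ}
    (hC : ∀ y a, ‖Ψ y a‖ ≤ C) {c : ℝ} (hc : ∀ a, k a ≠ 0 → ∫ y, ‖Ψ y a‖ ^ 2 ∂ν ≤ c) :
    ∫ y, ‖∫ a, (k a : ℂ) * Ψ y a ∂μ‖ ^ 2 ∂ν ≤ (∫ a, |k a| ∂μ) ^ 2 * c := by
  have hI : 0 ≤ ∫ a, |k a| ∂μ := integral_nonneg fun a => abs_nonneg _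
  have hm : Measurable (fun q : Y × A => ‖Ψ q.1 q.2‖ ^ 2) := hΨ.norm.pow_const 2
  have hint : Integrable (fun q : Y × A => |k q.2| * ‖Ψ q.1 q.2‖ ^ 2) (ν.prod μ) := by
    have h1 : Integrable (fun q : Y × A => |k q.2|) (ν.prod μ) := by
      simpa using (integrable_const (1 : ℝ) (μ := ν)).mul_prod hk.abs
    refine h1.mul_bdd (c := C ^ 2) hm.aestronglyMeasurable (Eventually.of_forall fun q => ?_)
    rw [Real.norm_eq_abs, abs_of_nonneg (sq_nonneg _)]
    exact pow_le_pow_left₀ (norm_nonneg _) (hC _ _) 2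
  calc _ ≤ ∫ y, (∫ a, |k a| ∂μ) * ∫ a, |k a| * ‖Ψ y a‖ ^ 2 ∂μ ∂ν := by
        apply integral_mono_of_nonneg (Eventually.of_forall fun y => sq_nonneg _)
          (hint.integral_prod_left.const_mul _)
        refine Eventually.of_forall fun y => ?_
        have hy : Measurable (fun a => ‖Ψ y a‖) := (hΨ.comp measurable_prodMk_left).norm
        refine le_trans ?_ (weighted_cs μ hk hy.aestronglyMeasurable (C := C)
          (fun a => by rw [abs_norm]; exact hC y a))
        apply pow_le_pow_left₀ (norm_nonneg _)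
        refine (norm_integral_le_integral_norm _).trans (le_of_eq ?_)
        simp
    _ = (∫ a, |k a| ∂μ) * ∫ a, |k a| * ∫ y, ‖Ψ y a‖ ^ 2 ∂ν ∂μ := by
        rw [integral_const_mul, integral_integral_swap hint]
        simp_rw [integral_const_mul]
    _ ≤ (∫ a, |k a| ∂μ) * ∫ a, |k a| * c ∂μ := by
        apply mul_le_mul_of_nonneg_left _ hI
        apply integral_mono_of_nonneg (Eventually.of_forall fun a =>
          mul_nonneg (abs_nonneg _) (integral_nonneg fun y => sq_nonneg _)) (hk.abs.mul_const _)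
        refine Eventually.of_forall fun a => ?_
        by_cases h : k a = 0
        · simp [h]
        · exact mul_le_mul_of_nonneg_left (hc a h) (abs_nonneg _)
    _ = _ := by rw [integral_mul_const]; ring

end

end Vale.Agent.P099
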