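import Vale.Agent.P099.Trans

/-!
The core theorem: a bounded function that respects the reflections and whose shift along the
flow is compensated by a measure preserving map of the parameter depends on the parameter only.
-/

open MeasureTheory Set Filter Topology

namespace Vale.Agent.P099

noncomputable section

variable {Ω : Type*} [MeasurableSpace Ω]

lemma exists_small (C : ℝ) {τ : ℝ} (hτ : 0 < τ) : ∃ u : ℝ, 0 < u ∧ u ≤ 1 ∧ C * u ≤ τ := by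
  refine ⟨min 1 (τ / (|C| + 1)), by positivity, min_le_left _ _, ?_⟩
  have h1 : min 1 (τ / (|C| + 1)) ≤ τ / (|C| + 1) := min_le_right _ _
  have h2 : 0 < min 1 (τ / (|C| + 1)) := by positivity
  rw [le_div_iff₀ (by positivity)] at h1
  nlinarith [le_abs_self C]

lemma B0.n0 {W : Ω → ZZ → ℂ} (hW : B0 W) : N0 (fun (l : TT × Ω) x => W l.2 (l.1, x)) :=
  ⟨hW.1.comp (g := fun q : Ω × ZZ => W q.1 q.2)
    (f := fun q : (TT × Ω) × ℂ => (q.1.2, (q.1.1, q.2))) (by fun_prop), 1, fun _ _ => hW.2 _ _⟩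

namespace Tri

variable (T : Tri) (ν : Measure Ω) [IsFiniteMeasure ν]

lemma E2_int {f : TT × Ω → ℂ → ℂ} (hf : N0 f) :
    Integrable (fun y : Ω × ZZ => ‖f (y.2.1, y.1) y.2.2‖ ^ 2) (ν.prod T.nu) := by
  obtain ⟨C, hC⟩ := hf.2
  exact sq_int _ (hf.1.comp (g := fun q : (TT × Ω) × ℂ => f q.1 q.2)
      (f := fun y : Ω × ZZ => ((y.2.1, y.1), y.2.2)) (by fun_prop)) fun y => hC _ _

lemma E2_mul_le {f g : TT × Ω → ℂ → ℂ} (hf : ∀ l x, ‖f l x‖ ≤ 1) (hg : N0 g) :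
    T.E2 ν (fun l x => f l x * g l x) ≤ T.E2 ν g := by
  refine integral_mono_of_nonneg (Eventually.of_forall fun y => sq_nonneg _) (T.E2_int ν hg)
    (Eventually.of_forall fun y => ?_)
  simp only [norm_mul]
  exact pow_le_pow_left₀ (by positivity) (mul_le_of_le_one_left (norm_nonneg _) (hf _ _)) 2

lemma E2_mul_le' {f g : TT × Ω → ℂ → ℂ} (hf : ∀ l x, ‖f l x‖ ≤ 1) (hg : N0 g) :
    T.E2 ν (fun l x => g l x * f l x) ≤ T.E2 ν g := by
  simpa only [mul_comm] using T.E2_mul_le ν hf hg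

lemma sq_add_le {Y : Type*} [MeasurableSpace Y] (μ : Measure Y) {u v : Y → ℂ}
    (hu : Integrable (fun y => ‖u y‖ ^ 2) μ) (hv : Integrable (fun y => ‖v y‖ ^ 2) μ) :
    ∫ y, ‖u y + v y‖ ^ 2 ∂μ ≤ 2 * ∫ y, ‖u y‖ ^ 2 ∂μ + 2 * ∫ y, ‖v y‖ ^ 2 ∂μ := by
  rw [← integral_const_mul, ← integral_const_mul, ← integral_add (hu.const_mul _) (hv.const_mul _)]
  refine integral_mono_of_nonneg (Eventually.of_forall fun y => sq_nonneg _)
    ((hu.const_mul _).add (hv.const_mul _)) (Eventually.of_forall fun y => ?_)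
  have h := pow_le_pow_left₀ (norm_nonneg _) (norm_add_le (u y) (v y)) 2
  simp only
  nlinarith [sq_nonneg (‖u y‖ - ‖v y‖)]

lemma E2_add_le {f g : TT × Ω → ℂ → ℂ} (hf : N0 f) (hg : N0 g) :
    T.E2 ν (fun l x => f l x + g l x) ≤ 2 * T.E2 ν f + 2 * T.E2 ν g :=
  sq_add_le _ (T.E2_int ν hf) (T.E2_int ν hg)

lemma E2_le_const {f : TT × Ω → ℂ → ℂ} {C : ℝ} (hf : ∀ l x, ‖f l x‖ ≤ C) :
    T.E2 ν f ≤ (C * ((ν.prod T.nu).real univ + 1)) ^ 2 := by
  have h1 : T.E2 ν f ≤ ∫ _, C ^ 2 ∂(ν.prod T.nu) :=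
    integral_mono_of_nonneg (Eventually.of_forall fun y => sq_nonneg _) (integrable_const _)
      (Eventually.of_forall fun y => pow_le_pow_left₀ (norm_nonneg _) (hf _ _) 2)
  rw [integral_const, smul_eq_mul] at h1
  have h2 : 0 ≤ (ν.prod T.nu).real univ := measureReal_nonneg
  rw [mul_pow]
  nlinarith [mul_nonneg (sq_nonneg C) (sq_nonneg ((ν.prod T.nu).real univ)),
    mul_nonneg (sq_nonneg C) h2, sq_nonneg C]

lemma int_snd (G H : ZZ → ℝ) : ∫ y : Ω × ZZ, ‖(G y.2 : ℂ) - H y.2‖ ^ 2 ∂(ν.prod T.nu) =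
    ν.real univ * ∫ z, (G z - H z) ^ 2 ∂T.nu := by
  rw [← smul_eq_mul, ← integral_fun_snd]
  congr 1; funext y
  rw [← Complex.ofReal_sub, Complex.norm_real, Real.norm_eq_abs, sq_abs]

/-- properties of the smooth approximations -/
def Good (f : TT × Ω → ℂ → ℂ) : Prop :=
  Nice 2 f ∧ (∀ l x, (starRingEnd ℂ) (f l x) = f l x) ∧
    ∀ a θ ω, ∀ r ∈ Ioo (0 : ℝ) 1, f (T.rt a θ, ω) (T.gam a r) = f (θ, ω) (T.gam a r)

/-- the cutoff as a function with a dummy parameter -/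
def XX (Ω : Type*) (K : ℕ) (r0 δ : ℝ) : Ω → ZZ → ℂ := fun _ z => (T.chi K r0 δ z : ℂ)

lemma XX_B0 (K : ℕ) (r0 δ : ℝ) : B0 (T.XX Ω K r0 δ) :=
  ⟨(Complex.measurable_ofReal.comp (T.measurable_chi K r0 δ)).comp measurable_snd, fun _ z => by
    rw [XX, Complex.norm_real, Real.norm_eq_abs]; exact T.abs_chi_le K r0 δ z⟩

/-- the parameters of the approximation -/
structure Par (c1 κ ε δ r0 u : ℝ) (K : ℕ) (α β : ℝ → ℝ) : Prop where
  hc1 : 0 ≤ c1
  hκ : 0 < κ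
  hκ1 : κ ≤ 1
  hα : Bump κ α
  a1 : ∫ t, |α t| = 1
  a2 : ∫ t, α t = 1
  a3 : ∫ t, |Dm α t| = c1 / κ
  hβ : Bump (ε * δ) β
  b0 : ∀ t, β (-t) = β t
  b1 : ∫ t, |β t| = 1
  b2 : ∫ t, β t = 1
  b3 : ∫ t, |Dm β t| = c1 / (ε * δ)
  hK : 0 < K
  hδ : 0 < δ
  hε : 0 < ε
  h4 : 4 * ε ≤ r0
  hδε : δ * (1 + 3 * T.D) ≤ ε
  hε1 : ε ≤ 1
  hu : 0 < u
  hu1 : u ≤ 1
  hKu : ν.real univ * (108 / K) ≤ u ^ 2

variable {T ν} {c1 κ ε δ r0 u : ℝ} {K : ℕ} {α β : ℝ → ℝ} {W : Ω → ZZ → ℂ}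

omit [IsFiniteMeasure ν] in
lemma Par.n1 (p : T.Par ν c1 κ ε δ r0 u K α β) {Ψ : Ω → ZZ → ℂ} (hΨ : B0 Ψ) (l : TT × Ω) (x : ℂ) :
    ‖MM α β Ψ l x‖ ≤ 1 := by
  simpa [p.a1, p.b1] using norm_MM_le p.hα p.hβ hΨ l x

omit [IsFiniteMeasure ν] in
lemma Par.sym (p : T.Par ν c1 κ ε δ r0 u K α β)
    (H1 : ∀ ω a z, z ∈ T.E a → W ω (T.refl a z) = W ω z) (α' : ℝ → ℝ) (a : Fin 3) (θ : TT) (ω : Ω)
    (r : ℝ) (hr : r ∈ Ioo (0 : ℝ) 1) :
    MM α β (T.XX Ω K r0 δ) (T.rt a θ, ω) (T.gam a r) * MM α' β W (T.rt a θ, ω) (T.gam a r) =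
      MM α β (T.XX Ω K r0 δ) (θ, ω) (T.gam a r) * MM α' β W (θ, ω) (T.gam a r) := by
  have X1 : ∀ ω a z, z ∈ T.E a → T.XX Ω K r0 δ ω (T.refl a z) = T.XX Ω K r0 δ ω z :=
    fun ω a z hz => by simp only [XX, T.chi_refl K r0 δ hz]
  by_cases hc : ε * δ < |T.h a (θ, T.gam a r)| ∧ ε * δ < |T.h (a + 1) (θ, T.gam a r)|
  · rw [MM_refl T p.hβ p.b0 X1 a θ ω hr hc.1 hc.2, MM_refl T p.hβ p.b0 H1 a θ ω hr hc.1 hc.2]
  · have z0 : ∀ θ', T.eta (θ', T.gam a r) ≤ ε * δ →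
        MM α β (T.XX Ω K r0 δ) (θ', ω) (T.gam a r) = 0 := by
      intro θ' he
      refine MM_zero p.hα p.hβ _ _ fun t s ht hs => ?_
      simp only [XX]
      rw [T.chi_zero_near K p.hδ p.hε p.h4 p.hδε (T.gam_mem_K a hr.1.le hr.2.le) he
        (ht.trans p.hκ1) hs]
      simp
    have hz : (T.rt a θ, T.gam a r) = T.refl a (θ, T.gam a r) := by simp [Tri.refl, T.rp_gam]
    rw [not_and_or, not_lt, not_lt] at hc
    rw [z0 θ, z0 (T.rt a θ), zero_mul, zero_mul]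
    · rcases hc with hc | hc
      · refine (T.eta_le a _).trans ?_
        rwa [hz, h_refl, abs_neg]
      · refine (T.eta_le (a + 1) _).trans ?_
        rwa [hz, h_refl1, abs_neg]
    · rcases hc with hc | hc
      · exact (T.eta_le a _).trans hc
      · exact (T.eta_le (a + 1) _).trans hc

lemma Par.anti (p : T.Par ν c1 κ ε δ r0 u K α β) (hW : B0 W)
    (H3 : ∀ t : ℝ, ∃ ψ : Ω → Ω, MeasurePreserving ψ ν ν ∧ ∀ ω z, W ω (sh t z) = W (ψ ω) z)
    (θ θ' : TT) (x : ℂ) :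
    ∫ ω, MM α β (T.XX Ω K r0 δ) (θ, ω) x * MM α β W (θ, ω) x *
      dz (fun x => MM α β (T.XX Ω K r0 δ) (θ', ω) x * MM (Dm α) β W (θ', ω) x) x ∂ν =
    - ∫ ω, MM α β (T.XX Ω K r0 δ) (θ, ω) x * MM (Dm α) β W (θ, ω) x *
      dz (fun x => MM α β (T.XX Ω K r0 δ) (θ', ω) x * MM α β W (θ', ω) x) x ∂ν := by
  have hα := p.hα
  have hβ := p.hβ
  have dX := (Nice_MM (T.XX_B0 (Ω := Ω) K r0 δ) 1 hα hβ).diff
  have dW := (Nice_MM hW 1 hα hβ).diff
  have dW1 := (Nice_MM hW 1 hα.dm hβ).diff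
  have int : ∀ {α β α' β' : ℝ → ℝ}, Bump κ α → Bump (ε * δ) β → Bump κ α' → Bump (ε * δ) β' →
      Integrable (fun ω => MM α β W (θ, ω) x * MM α' β' W (θ', ω) x) ν := by
    intro α β α' β' hα hβ hα' hβ'
    have := ((N0_MM hα hβ hW).comp (measurable_prodMk_left (x := θ))).mul
      ((N0_MM hα' hβ' hW).comp (measurable_prodMk_left (x := θ')))
    obtain ⟨C, hC⟩ := this.2
    exact Integrable.of_bound (this.meas' x).aestronglyMeasurable C
      (Eventually.of_forall fun ω => hC ω x)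
  rcases isEmpty_or_nonempty Ω with hΩ | ⟨⟨ω0⟩⟩
  · rw [Measure.eq_zero_of_isEmpty ν]; simp
  have c0 : ∀ θ ω, MM α β (T.XX Ω K r0 δ) (θ, ω) = MM α β (T.XX Ω K r0 δ) (θ, ω0) :=
    fun _ _ => rfl
  generalize T.XX Ω K r0 δ = X at *
  have p1 : ∀ ω, MM α β X (θ, ω) x * MM α β W (θ, ω) x *
      dz (fun x => MM α β X (θ', ω) x * MM (Dm α) β W (θ', ω) x) x =
      MM α β X (θ, ω0) x * dz (MM α β X (θ', ω0)) x *
        (MM α β W (θ, ω) x * MM (Dm α) β W (θ', ω) x) +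
      (MM α β X (θ, ω0) x * MM α β X (θ', ω0) x * (starRingEnd ℂ) (ee θ') *
        (MM α β W (θ, ω) x * MM (Dm (Dm α)) β W (θ', ω) x) -
      MM α β X (θ, ω0) x * MM α β X (θ', ω0) x * (starRingEnd ℂ) (ee θ') * Complex.I *
        (MM α β W (θ, ω) x * MM (Dm α) (Dm β) W (θ', ω) x)) := by
    intro ω
    rw [dz_mul (dX _ x) (dW1 _ x), dz_MM hα.dm hβ hW, c0 θ ω, c0 θ' ω]; ring
  have p2 : ∀ ω, MM α β X (θ, ω) x * MM (Dm α) β W (θ, ω) x *
      dz (fun x => MM α β X (θ', ω) x * MM α β W (θ', ω) x) x =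
      MM α β X (θ, ω0) x * dz (MM α β X (θ', ω0)) x *
        (MM (Dm α) β W (θ, ω) x * MM α β W (θ', ω) x) +
      (MM α β X (θ, ω0) x * MM α β X (θ', ω0) x * (starRingEnd ℂ) (ee θ') *
        (MM (Dm α) β W (θ, ω) x * MM (Dm α) β W (θ', ω) x) -
      MM α β X (θ, ω0) x * MM α β X (θ', ω0) x * (starRingEnd ℂ) (ee θ') * Complex.I *
        (MM (Dm α) β W (θ, ω) x * MM α (Dm β) W (θ', ω) x)) := by
    intro ω
    rw [dz_mul (dX _ x) (dW _ x), dz_MM hα hβ hW, c0 θ ω, c0 θ' ω]; ring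
  simp only [p1, p2]
  have j1 : ∀ {F G H : Ω → ℂ}, Integrable F ν → Integrable G ν → Integrable H ν → ∀ a b c : ℂ,
      ∫ ω, (a * F ω + (b * G ω - c * H ω)) ∂ν =
        a * ∫ ω, F ω ∂ν + (b * ∫ ω, G ω ∂ν - c * ∫ ω, H ω ∂ν) := by
    intro F G H hF hG hH a b c
    have i : Integrable (fun ω => b * G ω - c * H ω) ν := (hG.const_mul b).sub (hH.const_mul c)
    rw [integral_add (hF.const_mul a) i, integral_sub (hG.const_mul b) (hH.const_mul c),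
      integral_const_mul, integral_const_mul, integral_const_mul]
  rw [j1 (int hα hβ hα.dm hβ) (int hα hβ hα.dm.dm hβ) (int hα hβ hα.dm hβ.dm),
    j1 (int hα.dm hβ hα hβ) (int hα.dm hβ hα.dm hβ) (int hα.dm hβ hα hβ.dm),
    MM_anti ν hα hβ hα hβ hW H3, MM_anti ν hα hβ hα.dm hβ hW H3, MM_anti ν hα hβ hα hβ.dm hW H3]
  ring

lemma Par.eg (p : T.Par ν c1 κ ε δ r0 u K α β) (hW : B0 W) :
    T.E2 ν (fun l x => MM (Dm α) β (T.XX Ω K r0 δ) l x * MM α β W l x) ≤ (c1 / κ * δ * u) ^ 2 := by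
  have hX := T.XX_B0 (Ω := Ω) K r0 δ
  refine (T.E2_mul_le' ν (p.n1 hW) (N0_MM p.hα.dm p.hβ hX)).trans ?_
  have hm : Measurable (fun q : (Ω × ZZ) × (ℝ × ℝ) =>
      T.XX Ω K r0 δ q.1.1 (sh (q.2.2 * Complex.I) q.1.2)) :=
    hX.meas_sh (by fun_prop) (by fun_prop) (by fun_prop)
  have := MM_L2 (ν.prod T.nu) p.hα.dm p.hβ hX
    (Θ := fun y a => T.XX Ω K r0 δ y.1 (sh (a.2 * Complex.I) y.2)) hm (fun y a => hX.2 _ _)
    (u := fun _ => 0)
    (fun y => int_left p.hα.integral_dm fun s => T.XX Ω K r0 δ y.1 (sh (s * Complex.I) y.2))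
    (c := δ ^ 2 * u ^ 2) (fun t s ht hs => by
      refine (T.int_snd ν (fun z => T.chi K r0 δ (sh (t + s * Complex.I) z))
        (fun z => T.chi K r0 δ (sh (s * Complex.I) z))).trans_le ?_
      have := mul_le_mul_of_nonneg_left (T.osc_X p.hK p.hδ p.hε p.h4 p.hδε (ht.trans p.hκ1) hs)
        (measureReal_nonneg (μ := ν) (s := univ))
      linarith [mul_le_mul_of_nonneg_left p.hKu (sq_nonneg δ)])
  simp only [sub_zero, p.a3, p.b1] at this
  refine this.trans (le_of_eq ?_)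
  ring

lemma Par.eh (p : T.Par ν c1 κ ε δ r0 u K α β) (hW : B0 W) :
    T.E2 ν (fun l x => MM α β (T.XX Ω K r0 δ) l x * MM (Dm α) β W l x) ≤
      (c1 / κ * ((ν.prod T.nu).real univ + 1)) ^ 2 := by
  refine T.E2_le_const ν fun l x => ?_
  rw [norm_mul]
  have := norm_MM_le p.hα.dm p.hβ hW l x
  rw [p.a3, p.b1, mul_one] at this
  exact (mul_le_of_le_one_left (norm_nonneg _) (p.n1 (T.XX_B0 K r0 δ) l x)).trans this

lemma Par.eB (p : T.Par ν c1 κ ε δ r0 u K α β) (hW : B0 W)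
    (t2 : ∀ t s : ℝ, |t| ≤ κ → |s| ≤ ε * δ →
      ∫ y, ‖W y.1 (sh (t + s * Complex.I) y.2) - W y.1 (sh t y.2)‖ ^ 2 ∂(ν.prod T.nu) ≤ ε ^ 2) :
    T.E2 ν (fun l x => MM α (Dm β) (T.XX Ω K r0 δ) l x * MM α β W l x +
      MM α β (T.XX Ω K r0 δ) l x * MM α (Dm β) W l x) ≤ (4 * c1 / δ) ^ 2 := by
  have hX := T.XX_B0 (Ω := Ω) K r0 δ
  have hα := p.hα
  have hβ := p.hβ
  have hm : Measurable (fun q : (Ω × ZZ) × (ℝ × ℝ) => W q.1.1 (sh q.2.1 q.1.2)) :=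
    hW.meas_sh (by fun_prop) (by fun_prop) (by fun_prop)
  have e1 := MM_L2 (ν.prod T.nu) hα hβ.dm hX (Θ := fun y _ => T.XX Ω K r0 δ y.1 y.2)
    (hX.1.comp measurable_fst) (fun y a => hX.2 _ _) (u := fun _ => 0)
    (fun y => int_right hβ.integral_dm fun _ => T.XX Ω K r0 δ y.1 y.2)
    (c := (2 * ε) ^ 2 * u ^ 2) (fun t s ht hs => by
      refine (T.int_snd ν (fun z => T.chi K r0 δ (sh (t + s * Complex.I) z))
        (fun z => T.chi K r0 δ z)).trans_le ?_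
      have := mul_le_mul_of_nonneg_left (T.osc_Y p.hK p.hδ p.hε p.h4 p.hδε (ht.trans p.hκ1) hs)
        (measureReal_nonneg (μ := ν) (s := univ))
      linarith [mul_le_mul_of_nonneg_left p.hKu (sq_nonneg (2 * ε))])
  have e2 := MM_L2 (ν.prod T.nu) hα hβ.dm hW (Θ := fun y a => W y.1 (sh a.1 y.2)) hm
    (fun y a => hW.2 _ _) (u := fun _ => 0)
    (fun y => int_right hβ.integral_dm fun t => W y.1 (sh t y.2)) (c := ε ^ 2) t2
  simp only [sub_zero, p.a1, p.b3, one_mul] at e1 e2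
  have e3 := T.E2_add_le ν ((N0_MM hα hβ.dm hX).mul (N0_MM hα hβ hW))
    ((N0_MM hα hβ hX).mul (N0_MM hα hβ.dm hW))
  have e4 := (T.E2_mul_le' ν (p.n1 hW) (N0_MM hα hβ.dm hX)).trans e1
  have e5 := (T.E2_mul_le ν (p.n1 hX) (N0_MM hα hβ.dm hW)).trans e2
  have hδ := p.hδ
  have hε := p.hε
  have e6 : (c1 / (ε * δ)) ^ 2 * ((2 * ε) ^ 2 * u ^ 2) = 4 * ((c1 / δ) ^ 2 * u ^ 2) := by
    field_simp; ring
  have e7 : (c1 / (ε * δ)) ^ 2 * ε ^ 2 = (c1 / δ) ^ 2 := by field_simp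
  have e8 : (4 * c1 / δ) ^ 2 = 16 * (c1 / δ) ^ 2 := by ring
  have e9 : (c1 / δ) ^ 2 * u ^ 2 ≤ (c1 / δ) ^ 2 :=
    mul_le_of_le_one_right (sq_nonneg _) (pow_le_one₀ p.hu.le p.hu1)
  have := sq_nonneg (c1 / δ)
  linarith

lemma Par.eW (p : T.Par ν c1 κ ε δ r0 u K α β) (hW : B0 W) {τ1 : ℝ}
    (t1 : ∀ t s : ℝ, |t| ≤ κ → |s| ≤ ε * δ →
      ∫ y, ‖W y.1 (sh (t + s * Complex.I) y.2) - W y.1 y.2‖ ^ 2 ∂(ν.prod T.nu) ≤ τ1) :
    T.E2 ν (fun l x => MM α β (T.XX Ω K r0 δ) l x * MM α β W l x - W l.2 (l.1, x)) ≤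
      2 * τ1 + 2 * (2 * (4 * u ^ 2) + 2 * (ν.real univ * (12 * (2 * (8 ^ K * r0)) ^ 2))) := by
  have hX := T.XX_B0 (Ω := Ω) K r0 δ
  have hα := p.hα
  have hβ := p.hβ
  have hm : 0 ≤ ν.real univ := measureReal_nonneg
  have e1 := MM_L2 (ν.prod T.nu) hα hβ hW (Θ := fun y _ => W y.1 y.2)
    (hW.1.comp measurable_fst) (fun y a => hW.2 _ _) (u := fun y => W y.1 y.2)
    (fun y => by rw [int_const, p.a2, p.b2]; simp) (c := τ1) t1
  have e2 := MM_L2 (ν.prod T.nu) hα hβ hX (Θ := fun _ _ => 1) measurable_const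
    (fun y a => by simp) (u := fun _ => 1) (fun y => by rw [int_const, p.a2, p.b2]; simp)
    (c := 2 * (4 * u ^ 2) + 2 * (ν.real univ * (12 * (2 * (8 ^ K * r0)) ^ 2)))
    (fun t s ht hs => by
      have i1 := sq_int (ν.prod T.nu)
        (F := fun y => T.XX Ω K r0 δ y.1 (sh (t + s * Complex.I) y.2) - T.XX Ω K r0 δ y.1 y.2)
        ((hX.meas_sh measurable_fst measurable_snd measurable_const).sub hX.1) (C := 1 + 1)
        fun y => (norm_sub_le _ _).trans (add_le_add (hX.2 _ _) (hX.2 _ _))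
      have i2 := sq_int (ν.prod T.nu) (F := fun y => T.XX Ω K r0 δ y.1 y.2 - ((1 : ℝ) : ℂ))
        (hX.1.sub measurable_const) (C := 1 + 1)
        fun y => (norm_sub_le _ _).trans (add_le_add (hX.2 _ _) (by simp))
      have q := sq_add_le _ i1 i2
      simp only [XX] at q ⊢
      rw [T.int_snd ν (fun z => T.chi K r0 δ (sh (t + s * Complex.I) z))
          (fun z => T.chi K r0 δ z), T.int_snd ν (fun z => T.chi K r0 δ z) (fun _ => 1)] at q
      simp only [sub_add_sub_cancel, Complex.ofReal_one] at q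
      have q1 := mul_le_mul_of_nonneg_left
        (T.osc_Y p.hK p.hδ p.hε p.h4 p.hδε (ht.trans p.hκ1) hs) hm
      have q2 := mul_le_mul_of_nonneg_left
        (T.one_sub_chi (r0 := r0) p.hK p.hδ (by linarith [p.hε, p.h4])) hm
      have q3 := mul_le_mul_of_nonneg_left p.hKu (sq_nonneg (2 * ε))
      have q4 : ε ^ 2 * u ^ 2 ≤ u ^ 2 :=
        mul_le_of_le_one_left (sq_nonneg _) (pow_le_one₀ p.hε.le p.hε1)
      linarith)
  simp only [p.a1, p.b1, one_mul, one_pow] at e1 e2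
  have k1 := (N0_MM hα hβ hW).sub hW.n0
  have k2 := (N0_MM hα hβ hX).sub (N0.const' 1)
  have e3 := T.E2_add_le ν ((N0_MM hα hβ hX).mul k1) (k2.mul hW.n0)
  have e4 := (T.E2_mul_le ν (p.n1 hX) k1).trans e1
  have e5 := (T.E2_mul_le' ν (f := fun l x => W l.2 (l.1, x)) (fun _ _ => hW.2 _ _) k2).trans e2
  refine le_trans (le_of_eq ?_) (e3.trans (by linarith))
  congr 1; funext l x; ring

lemma num_est {c δ u η b N : ℝ} (hc : 0 ≤ c) (hδ : 0 < δ) (hδ1 : δ ≤ 1) (hu : 0 < u) (hu1 : u ≤ 1)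
    (hη : c ≤ η) (hN : 0 ≤ N) :
    2 * (4 * ((c * δ * u) ^ 2 + η ^ 2) / N +
      (1 + N ^ 2) * (4 * (c * δ * u + η) * (c * δ * u) + 8 * (4 * b / δ) * (c * δ * u))) ≤
    2 * (8 * η ^ 2 / N + (1 + N ^ 2) * (8 * η * c + 32 * b * c) * u) := by
  have g0 : 0 ≤ c * δ * u := by positivity
  have g1 : c * δ * u ≤ c * u := mul_le_mul_of_nonneg_right (mul_le_of_le_one_right hc hδ1) hu.le
  have g2 : c * δ * u ≤ η := (g1.trans (mul_le_of_le_one_right hc hu1)).trans hη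
  have g3 : 8 * (4 * b / δ) * (c * δ * u) = 32 * b * c * u := by field_simp; ring
  have g4 : 4 * ((c * δ * u) ^ 2 + η ^ 2) / N ≤ 8 * η ^ 2 / N := by
    apply div_le_div_of_nonneg_right _ hN
    linarith [pow_le_pow_left₀ g0 g2 2]
  have g5 : 4 * (c * δ * u + η) * (c * δ * u) ≤ 8 * η * c * u := by
    have := mul_le_mul (show c * δ * u + η ≤ 2 * η by linarith) g1 g0 (by linarith)
    linarith
  rw [g3]
  have g6 := mul_le_mul_of_nonneg_left (add_le_add_left g5 (32 * b * c * u))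
    (show (0 : ℝ) ≤ 1 + N ^ 2 by positivity)
  linarith

omit [IsFiniteMeasure ν] in
lemma Par.good (p : T.Par ν c1 κ ε δ r0 u K α β) (hW : B0 W)
    (rW : ∀ ω z, (starRingEnd ℂ) (W ω z) = W ω z)
    (H1 : ∀ ω a z, z ∈ T.E a → W ω (T.refl a z) = W ω z) :
    T.Good (fun l x => MM α β (T.XX Ω K r0 δ) l x * MM α β W l x) :=
  ⟨(Nice_MM (T.XX_B0 K r0 δ) 2 p.hα p.hβ).mul (Nice_MM hW 2 p.hα p.hβ),
    fun l x => by rw [map_mul, MM_real (Ψ := T.XX Ω K r0 δ) (fun _ _ => Complex.conj_ofReal _), MM_real rW],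
    p.sym H1 α⟩

lemma Par.modes (p : T.Par ν c1 κ ε δ r0 u K α β) (hW : B0 W)
    (rW : ∀ ω z, (starRingEnd ℂ) (W ω z) = W ω z)
    (H1 : ∀ ω a z, z ∈ T.E a → W ω (T.refl a z) = W ω z)
    (H3 : ∀ t : ℝ, ∃ ψ : Ω → Ω, MeasurePreserving ψ ν ν ∧ ∀ ω z, W ω (sh t z) = W (ψ ω) z)
    (t2 : ∀ t s : ℝ, |t| ≤ κ → |s| ≤ ε * δ →
      ∫ y, ‖W y.1 (sh (t + s * Complex.I) y.2) - W y.1 (sh t y.2)‖ ^ 2 ∂(ν.prod T.nu) ≤ ε ^ 2)
    {N : ℕ} (hN : 0 < N) (n : ℤ) :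
    T.nrm ν (fun ω => dz (md n (fun l x => MM α β (T.XX Ω K r0 δ) l x * MM α β W l x) ω)) +
      T.nrm ν (fun ω => dzb (md n (fun l x => MM α β (T.XX Ω K r0 δ) l x * MM α β W l x) ω)) ≤
      2 * (8 * (c1 / κ * ((ν.prod T.nu).real univ + 1)) ^ 2 / N + (1 + N ^ 2) *
        (8 * (c1 / κ * ((ν.prod T.nu).real univ + 1)) * (c1 / κ) + 32 * c1 * (c1 / κ)) * u) := by
  have hX := T.XX_B0 (Ω := Ω) K r0 δ
  have hα := p.hα
  have hβ := p.hβ
  have dX := (Nice_MM hX 1 hα hβ).diff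
  have dW := (Nice_MM hW 1 hα hβ).diff
  have good := p.good hW rW H1
  have hM : 0 ≤ (ν.prod T.nu).real univ := measureReal_nonneg
  have hck : 0 ≤ c1 / κ := div_nonneg p.hc1 p.hκ.le
  have hδ := p.hδ
  have hu := p.hu
  have hc1 := p.hc1
  have key := T.mode_estimate ν good.1 ((Nice_MM hX 1 hα hβ).mul (Nice_MM hW 1 hα.dm hβ))
    ((N0_MM hα.dm hβ hX).mul (N0_MM hα hβ hW))
    (((N0_MM hα hβ.dm hX).mul (N0_MM hα hβ hW)).add ((N0_MM hα hβ hX).mul (N0_MM hα hβ.dm hW)))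
    (fun l x => by
      rw [dz_mul (dX l x) (dW l x), dz_MM hα hβ hX, dz_MM hα hβ hW]; ring)
    (fun l x => by
      rw [dzb_mul (dX l x) (dW l x), dzb_MM hα hβ hX, dzb_MM hα hβ hW]; ring)
    good.2.1 (fun l x => by
      rw [map_mul, MM_real (Ψ := T.XX Ω K r0 δ) (fun _ _ => Complex.conj_ofReal _), MM_real rW])
    (p.sym H1 α) (p.sym H1 (Dm α)) (p.anti hW H3) (by positivity) (by positivity) (by positivity)
    (p.eB hW t2) (p.eg hW) (p.eh hW) N hN n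
  refine key.trans (num_est hck hδ ?_ hu p.hu1 (le_mul_of_one_le_right hck (by linarith))
    (Nat.cast_nonneg _))
  nlinarith [p.hδε, p.hε1, T.D_nonneg]

variable (T ν)

lemma approx (hW : B0 W) (rW : ∀ ω z, (starRingEnd ℂ) (W ω z) = W ω z)
    (H1 : ∀ ω a z, z ∈ T.E a → W ω (T.refl a z) = W ω z)
    (H3 : ∀ t : ℝ, ∃ ψ : Ω → Ω, MeasurePreserving ψ ν ν ∧ ∀ ω z, W ω (sh t z) = W (ψ ω) z)
    {τ : ℝ} (hτ : 0 < τ) : ∃ f : TT × Ω → ℂ → ℂ, T.Good f ∧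
      (∀ n, T.nrm ν (fun ω => dz (md n f ω)) + T.nrm ν (fun ω => dzb (md n f ω)) ≤ τ) ∧
      T.E2 ν (fun l x => f l x - W l.2 (l.1, x)) ≤ τ := by
  obtain ⟨c1, hc1, hb⟩ := exists_bump
  obtain ⟨ρ1, hρ1, tc1⟩ := T.trans_cont ν hW (τ := τ / 4) (by positivity)
  obtain ⟨κ, hκ, hκ1, hκ2⟩ := exists_small 1 (half_pos hρ1)
  obtain ⟨α, hα, -, a1, a2, a3⟩ := hb κ hκ
  set η := c1 / κ * ((ν.prod T.nu).real univ + 1) with hη
  obtain ⟨N, hN⟩ := exists_nat_gt (32 * η ^ 2 / τ)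
  have hN0 : (0 : ℝ) < N := lt_of_le_of_lt (by positivity) hN
  obtain ⟨u1, hu1, hu11, hu12⟩ := exists_small
    ((1 + N ^ 2) * (8 * η * (c1 / κ) + 32 * c1 * (c1 / κ))) (τ := τ / 4) (by positivity)
  obtain ⟨u2, hu2, -, hu22⟩ := exists_small 16 (τ := τ / 4) (by positivity)
  set u := min u1 u2 with hu
  have u0 : 0 < u := lt_min hu1 hu2
  have ule1 : u ≤ u1 := min_le_left _ _
  have ule2 : u ≤ u2 := min_le_right _ _
  have hm : 0 ≤ ν.real univ := measureReal_nonneg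
  obtain ⟨K, hK⟩ := exists_nat_gt (ν.real univ * 108 / u ^ 2)
  have hK0 : (0 : ℝ) < K := lt_of_le_of_lt (by positivity) hK
  obtain ⟨r0, hr0, hr1, hr2⟩ := exists_small (ν.real univ * (192 * (8 ^ K) ^ 2)) (τ := τ / 4)
    (by positivity)
  obtain ⟨ρ2, hρ2, tc2⟩ := T.trans_cont ν hW (τ := (r0 / 4) ^ 2) (by positivity)
  obtain ⟨δ, hδ, hδ1, hδ2⟩ := exists_small (1 + 3 * T.D)
    (τ := min (r0 / 4) (min ρ2 (ρ1 / 2))) (by positivity)
  rw [le_min_iff, le_min_iff] at hδ2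
  obtain ⟨β, hβ, b0, b1, b2, b3⟩ := hb (r0 / 4 * δ) (by positivity)
  have hD := T.D_nonneg
  have d1 : r0 / 4 * δ ≤ (1 + 3 * T.D) * δ := mul_le_mul_of_nonneg_right (by linarith) hδ.le
  have p : T.Par ν c1 κ (r0 / 4) δ r0 u K α β :=
    ⟨hc1, hκ, hκ1, hα, a1, a2, a3, hβ, b0, b1, b2, b3, by exact_mod_cast hK0, hδ, by positivity,
      by linarith, by linarith [hδ2.1], by linarith, u0, ule1.trans hu11, by
        rw [div_lt_iff₀ (by positivity)] at hK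
        rw [← mul_div_assoc, div_le_iff₀ hK0]; linarith⟩
  refine ⟨_, p.good hW rW H1, fun n => ?_, ?_⟩
  · refine (p.modes hW rW H1 H3 (fun t s ht hs => tc2 t (s * Complex.I) ?_ ?_)
      (N := N) (by exact_mod_cast hN0) n).trans ?_
    · rw [Complex.norm_real, Real.norm_eq_abs]; linarith
    · rw [norm_mul, Complex.norm_real, Real.norm_eq_abs, Complex.norm_I]; linarith [hδ2.2.1]
    · rw [← hη]
      have e1 : 8 * η ^ 2 / N ≤ τ / 4 := by
        rw [div_lt_iff₀ hτ] at hN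
        rw [div_le_iff₀ hN0]; linarith
      have e2 := mul_le_mul_of_nonneg_left ule1
        (show 0 ≤ (1 + N ^ 2) * (8 * η * (c1 / κ) + 32 * c1 * (c1 / κ)) by
          have : 0 ≤ (ν.prod T.nu).real univ := measureReal_nonneg
          positivity)
      linarith
  · refine (p.eW hW (τ1 := τ / 4) fun t s ht hs => ?_).trans ?_
    · have := tc1 0 (t + s * Complex.I) (by simp) ((norm_add_le _ _).trans (by
        rw [norm_mul, Complex.norm_real, Complex.norm_real, Real.norm_eq_abs, Real.norm_eq_abs,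
          Complex.norm_I]
        linarith [hδ2.2.2]))
      simpa only [zero_add, sh_zero] using this
    · have e1 : u ^ 2 ≤ u2 := by nlinarith
      have e2 : r0 ^ 2 ≤ r0 := by nlinarith
      have e3 := mul_le_mul_of_nonneg_left e2
        (show 0 ≤ ν.real univ * (192 * (8 ^ K) ^ 2) by positivity)
      linarith

lemma eq_zero_of_le {x C : ℝ} (hx : 0 ≤ x) (h : ∀ τ, 0 < τ → x ≤ C * τ) : x = 0 := by
  refine le_antisymm (le_of_forall_pos_le_add fun ε hε => ?_) hx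
  obtain ⟨u, hu, -, h2⟩ := exists_small C hε
  linarith [h u hu]

lemma nrm_add_le {F G : Ω → ℂ → ℂ} (hF : N0 F) (hG : N0 G) :
    T.nrm ν (fun ω x => F ω x + G ω x) ≤ 2 * T.nrm ν F + 2 * T.nrm ν G :=
  sq_add_le _ (T.N0_sq_int ν hF) (T.N0_sq_int ν hG)

omit [IsFiniteMeasure ν] in
lemma nrm_neg (F : Ω → ℂ → ℂ) : T.nrm ν (fun ω x => - F ω x) = T.nrm ν F := by simp [nrm]

lemma mv_le {G : Ω → ℂ → ℂ} (hG : N0 G) (v : ℂ) :
    ∫ q, ‖G q.1 (q.2 + v) - G q.1 q.2‖ ^ 2 ∂T.mv ν v ≤ 4 * T.nrm ν G := by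
  obtain ⟨C, hC⟩ := hG.2
  have i1 := sq_int (T.mv ν v) (F := fun q => G q.1 (q.2 + v))
    (hG.1.comp (g := fun q : Ω × ℂ => G q.1 q.2) (f := fun q : Ω × ℂ => (q.1, q.2 + v))
      (by fun_prop)) fun q => hC _ _
  have i2 := sq_int (T.mv ν v) (F := fun q => - G q.1 q.2) hG.1.neg (C := C)
    fun q => by simpa using hC _ _
  have h := sq_add_le _ i1 i2
  have h1 := T.shift_le ν hG v zero_le_one le_rfl
  have h0 := T.shift_le ν hG v le_rfl zero_le_one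
  simp only [Complex.ofReal_one, one_mul, Complex.ofReal_zero, zero_mul, add_zero, norm_neg,
    ← sub_eq_add_neg] at h h1 h0
  linarith

theorem core (hirr : ∃ a b, ∀ n : ℤ, n ≠ 0 →
      (fourier n (T.sg a + T.sg a) : ℂ) ≠ fourier n (T.sg b + T.sg b))
    (hW : B0 W) (rW : ∀ ω z, (starRingEnd ℂ) (W ω z) = W ω z)
    (H1 : ∀ ω a z, z ∈ T.E a → W ω (T.refl a z) = W ω z)
    (H3 : ∀ t : ℝ, ∃ ψ : Ω → Ω, MeasurePreserving ψ ν ν ∧ ∀ ω z, W ω (sh t z) = W (ψ ω) z) :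
    ∃ V : Ω → ℂ, ∀ᵐ y ∂(ν.prod T.nu), W y.1 y.2 = V y.1 := by
  obtain ⟨a, b, hab⟩ := hirr
  set w : TT × Ω → ℂ → ℂ := fun l x => W l.2 (l.1, x) with hw
  have nw : N0 w := hW.n0
  have split : ∀ {f : TT × Ω → ℂ → ℂ}, N0 f → ∀ n ω x,
      md n w ω x = md n f ω x + - md n (fun l x => f l x - w l x) ω x := by
    intro f hf n ω x
    rw [md_sub hf nw]; ring
  have m1 : ∀ n : ℤ, n ≠ 0 → T.nrm ν (md n w) = 0 := by
    intro n hn
    have hc : 0 < ‖(fourier (-n) (T.sg a + T.sg a) : ℂ) - fourier (-n) (T.sg b + T.sg b)‖ ^ 2 :=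
      pow_pos (norm_pos_iff.2 (sub_ne_zero.2 (hab (-n) (neg_ne_zero.2 hn)))) 2
    refine eq_zero_of_le (T.nrm_nonneg ν _) (C := 2 * (32 * T.D ^ 2 /
      ‖(fourier (-n) (T.sg a + T.sg a) : ℂ) - fourier (-n) (T.sg b + T.sg b)‖ ^ 2) + 2)
      fun τ hτ => ?_
    obtain ⟨f, ⟨hf, rf, sf⟩, e1, e2⟩ := T.approx ν hW rW H1 H3 hτ
    have nF := Nice_md hf.mono n
    have nd := N0_md (hf.n0.sub nw) n
    have e3 := T.nrm_add_le ν nF.n0 (G := fun ω x => - md n (fun l x => f l x - w l x) ω x)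
      (by simpa using (N0.const' (-1)).mul nd)
    rw [nrm_neg] at e3
    have e4 := (T.nrm_md_le ν (hf.n0.sub nw) n).trans e2
    have e5 : ‖(fourier (-n) (T.sg a + T.sg a) : ℂ) - fourier (-n) (T.sg b + T.sg b)‖ ^ 2 *
        T.nrm ν (md n f) ≤ 32 * T.D ^ 2 *
          (T.nrm ν (fun ω => dz (md n f ω)) + T.nrm ν (fun ω => dzb (md n f ω))) := by
      have i0 := T.N0_sq_int ν nF.n0
      have i1 := T.N0_sq_int ν nF.Dz.n0
      have i2 := T.N0_sq_int ν nF.Dzb.n0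
      have i3 : Integrable (fun q : Ω × ℂ => ‖dz (md n f q.1) q.2‖ ^ 2 + ‖dzb (md n f q.1) q.2‖ ^ 2)
        (T.mm ν) := i1.add i2
      unfold nrm
      rw [← integral_add i1 i2]
      unfold mm at i0 i3 ⊢
      rw [integral_prod _ i0, integral_prod _ i3, ← integral_const_mul, ← integral_const_mul]
      refine integral_mono (i0.integral_prod_left.const_mul _) (i3.integral_prod_left.const_mul _)
        fun ω => ?_
      exact T.poincare_two nF ω a b _ _ (norm_fourier _ _) (norm_fourier _ _)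
        (fun r hr => md_boundary T a n ω _ (fun θ => rf _ _) fun θ => sf a θ ω r hr)
        (fun r hr => md_boundary T b n ω _ (fun θ => rf _ _) fun θ => sf b θ ω r hr)
    have e6 : T.nrm ν (md n f) ≤ 32 * T.D ^ 2 /
        ‖(fourier (-n) (T.sg a + T.sg a) : ℂ) - fourier (-n) (T.sg b + T.sg b)‖ ^ 2 * τ := by
      rw [div_mul_eq_mul_div, le_div_iff₀ hc]
      linarith [mul_le_mul_of_nonneg_left (e1 n) (show 0 ≤ 32 * T.D ^ 2 by positivity)]
    have e7 : md n w = fun ω x => md n f ω x + - md n (fun l x => f l x - w l x) ω x := by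
      funext ω x; exact split hf.n0 n ω x
    rw [e7]
    linarith
  have n0 := N0_md nw 0
  have m0 := T.const_of_shift ν n0 fun v => by
    refine eq_zero_of_le (integral_nonneg fun _ => sq_nonneg _) (C := 2 * ‖v‖ ^ 2 + 8)
      fun τ hτ => ?_
    obtain ⟨f, ⟨hf, -, -⟩, e1, e2⟩ := T.approx ν hW rW H1 H3 hτ
    have nF := Nice_md hf.mono 0
    have nd := N0_md (hf.n0.sub nw) 0
    have e3 := (T.shift_poincare ν nF v).trans
      (mul_le_mul_of_nonneg_left (e1 0) (sq_nonneg _))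
    have e4 := (T.nrm_md_le ν (hf.n0.sub nw) 0).trans e2
    have e5 := T.mv_le ν nd v
    have int : ∀ {G : Ω → ℂ → ℂ}, N0 G →
        Integrable (fun q : Ω × ℂ => ‖G q.1 (q.2 + v) - G q.1 q.2‖ ^ 2) (T.mv ν v) := by
      intro G hG
      obtain ⟨C, hC⟩ := hG.2
      exact sq_int _ ((hG.1.comp (g := fun q : Ω × ℂ => G q.1 q.2)
        (f := fun q : Ω × ℂ => (q.1, q.2 + v)) (by fun_prop)).sub hG.1) (C := C + C)
        fun q => (norm_sub_le _ _).trans (add_le_add (hC _ _) (hC _ _))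
    have e6 := sq_add_le (T.mv ν v) (int nF.n0)
      (v := fun q => -(md 0 (fun l x => f l x - w l x) q.1 (q.2 + v) -
        md 0 (fun l x => f l x - w l x) q.1 q.2)) (by simpa only [norm_neg] using int nd)
    simp only [norm_neg] at e6
    refine le_trans (le_of_eq ?_) (e6.trans (by linarith))
    congr 1; funext q
    rw [split hf.n0, split hf.n0 0 q.1 q.2]
    congr 2; ring
  set V : Ω → ℂ := fun ω => (volume.real T.Q : ℂ)⁻¹ * ∫ x in T.Q, md 0 w ω x with hV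
  have nV : N0 (fun (l : TT × Ω) (_ : ℂ) => V l.2) := by
    obtain ⟨C, hC⟩ := n0.2
    refine N0.const (C := ‖(volume.real T.Q : ℂ)⁻¹‖ * (C * (volume.restrict T.Q).real univ))
      ((measurable_const.mul (n0.1.stronglyMeasurable.integral_prod_right'
        (ν := volume.restrict T.Q)).measurable).comp measurable_snd) fun l => ?_
    rw [hV, norm_mul]
    exact mul_le_mul_of_nonneg_left (norm_integral_le_of_norm_le_const
      (Eventually.of_forall fun x => hC _ _)) (norm_nonneg _)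
  have key := T.E2_zero_of_modes ν (nw.sub nV) fun n => by
    have e : ∀ ω x, md n (fun l x => w l x - V l.2) ω x =
        md n w ω x - (∫ θ : TT, fourier (-n) θ) * V ω := by
      intro ω x
      rw [md_sub nw nV]
      congr 1
      exact integral_mul_const (V ω) fun θ : TT => (fourier (-n) θ : ℂ)
    by_cases hn : n = 0
    · subst hn
      unfold nrm
      rw [← integral_zero _ ℝ (μ := T.mm ν)]
      apply integral_congr_ae
      filter_upwards [m0] with q hq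
      rw [e, hq]; simp [hV]
    · have z : ∫ θ : TT, (fourier (-n) θ : ℂ) = 0 := by
        have := fourierCoeff_fourier (T := 1) (0 : ℤ)
        have h2 := congrFun this n
        simpa [fourierCoeff, haar_eq, hn] using h2
      rw [← m1 n hn]
      congr 1; funext ω x
      rw [e, z]; simp
  refine ⟨V, ?_⟩
  have := (integral_eq_zero_iff_of_nonneg (fun y => sq_nonneg _) (T.E2_int ν (nw.sub nV))).1 key
  filter_upwards [this] with y hy
  simpa [sub_eq_zero, hw] using hy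

end Tri

end

end Vale.Agent.P099
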