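import Vale.Agent.P099.Fold

/-!
The renormalised distance to the vertices and the logarithmic cutoff.
-/

open MeasureTheory Set Filter Topology

namespace Vale.Agent.P099

noncomputable section

def ramp (x : ℝ) : ℝ := max 0 (min 1 (x - 1))

lemma ramp_nonneg (x : ℝ) : 0 ≤ ramp x := le_max_left _ _
lemma ramp_le_one (x : ℝ) : ramp x ≤ 1 := max_le zero_le_one (min_le_left _ _)
lemma ramp_zero {x : ℝ} (h : x ≤ 1) : ramp x = 0 :=
  max_eq_left ((min_le_right _ _).trans (by linarith))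
lemma ramp_one {x : ℝ} (h : 2 ≤ x) : ramp x = 1 := by
  unfold ramp; rw [min_eq_left (by linarith), max_eq_right zero_le_one]
lemma ramp_lip (x y : ℝ) : |ramp x - ramp y| ≤ |x - y| := by
  unfold ramp
  refine (abs_max_sub_max_le_max _ _ _ _).trans (max_le (by simp) ?_)
  refine (abs_min_sub_min_le_max _ _ _ _).trans (max_le (by simp) ?_)
  simp
lemma continuous_ramp : Continuous ramp := by unfold ramp; fun_prop

def chi0 (K : ℕ) (r0 x : ℝ) : ℝ := (∑ k ∈ Finset.range K, ramp (x / (8 ^ k * r0))) / K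
def Lam2 (K : ℕ) (r0 x : ℝ) : ℝ :=
  (∑ k ∈ Finset.range K, if x < 3 * (8 ^ k * r0) then 1 / (8 ^ k * r0) ^ 2 else 0) / K ^ 2

lemma continuous_chi0 (K : ℕ) (r0 : ℝ) : Continuous (chi0 K r0) := by
  unfold chi0
  exact (continuous_finsetSum _ fun k _ => continuous_ramp.comp (by fun_prop)).div_const _

lemma chi0_nonneg (K : ℕ) (r0 x : ℝ) : 0 ≤ chi0 K r0 x :=
  div_nonneg (Finset.sum_nonneg fun _ _ => ramp_nonneg _) (Nat.cast_nonneg _)

lemma chi0_le_one (K : ℕ) (r0 x : ℝ) : chi0 K r0 x ≤ 1 := by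
  unfold chi0
  apply div_le_one_of_le₀ _ (Nat.cast_nonneg _)
  calc _ ≤ ∑ k ∈ Finset.range K, (1 : ℝ) := Finset.sum_le_sum fun _ _ => ramp_le_one _
    _ = K := by simp

lemma chi0_zero (K : ℕ) {r0 x : ℝ} (h0 : 0 < r0) (h : x ≤ r0) : chi0 K r0 x = 0 := by
  unfold chi0
  rw [Finset.sum_eq_zero, zero_div]
  intro k _
  apply ramp_zero
  have : (1 : ℝ) ≤ 8 ^ k := one_le_pow₀ (by norm_num)
  rw [div_le_one (by positivity)]
  nlinarith

lemma chi0_one {K : ℕ} (hK : 0 < K) {r0 x : ℝ} (h0 : 0 < r0) (h : 2 * (8 ^ K * r0) ≤ x) :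
    chi0 K r0 x = 1 := by
  unfold chi0
  rw [Finset.sum_congr rfl (g := fun _ => (1 : ℝ))]
  · simp [hK.ne']
  intro k hk
  apply ramp_one
  have : (8 : ℝ) ^ k ≤ 8 ^ K := pow_le_pow_right₀ (by norm_num) (Finset.mem_range.1 hk).le
  rw [le_div_iff₀ (by positivity)]
  nlinarith

lemma chi0_osc (K : ℕ) {r0 x x1 x2 : ℝ} (h0 : 0 < r0) (h1 : |x1 - x| ≤ r0 / 2)
    (h2 : |x2 - x| ≤ r0 / 2) :
    (chi0 K r0 x1 - chi0 K r0 x2) ^ 2 ≤ (x1 - x2) ^ 2 * Lam2 K r0 x := by
  unfold chi0 Lam2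
  rw [← sub_div, ← Finset.sum_sub_distrib, div_pow, ← mul_div_assoc]
  apply div_le_div_of_nonneg_right _ (by positivity)
  set u : ℕ → ℝ := fun k => ramp (x1 / (8 ^ k * r0)) - ramp (x2 / (8 ^ k * r0)) with hu
  rw [abs_le] at h1 h2
  have hact : ∀ k, u k ≠ 0 → 8 ^ k * r0 / 2 < x ∧ x < 3 * (8 ^ k * r0) := by
    intro k hk
    have h8 : (1 : ℝ) ≤ 8 ^ k := one_le_pow₀ (by norm_num)
    have hr : r0 ≤ 8 ^ k * r0 := by nlinarith
    have hp : 0 < 8 ^ k * r0 := by positivity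
    constructor
    · by_contra hc
      push Not at hc
      apply hk
      simp only [hu]
      rw [ramp_zero, ramp_zero, sub_self]
      · rw [div_le_one hp]; linarith
      · rw [div_le_one hp]; linarith
    · by_contra hc
      push Not at hc
      apply hk
      simp only [hu]
      rw [ramp_one, ramp_one, sub_self]
      · rw [le_div_iff₀ hp]; linarith
      · rw [le_div_iff₀ hp]; linarith
  have hdis : ∀ k l, k < l → u k * u l = 0 := by
    intro k l hkl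
    by_contra hc
    have a1 := hact k (left_ne_zero_of_mul hc)
    have a2 := hact l (right_ne_zero_of_mul hc)
    have : (8 : ℝ) ^ (k + 1) ≤ 8 ^ l := pow_le_pow_right₀ (by norm_num) hkl
    rw [pow_succ] at this
    have hp : (0 : ℝ) < 8 ^ k := by positivity
    nlinarith [a1.2, a2.1]
  have hsq : (∑ k ∈ Finset.range K, u k) ^ 2 = ∑ k ∈ Finset.range K, u k ^ 2 := by
    rw [sq, Finset.sum_mul_sum]
    refine Finset.sum_congr rfl fun k hk => ?_
    rw [Finset.sum_eq_single k, sq]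
    · intro l _ hl
      rcases lt_or_gt_of_ne hl with h | h
      · rw [mul_comm]; exact hdis _ _ h
      · exact hdis _ _ h
    · intro h; exact absurd hk h
  rw [hsq, Finset.mul_sum]
  refine Finset.sum_le_sum fun k _ => ?_
  by_cases hk : u k = 0
  · rw [hk, zero_pow two_ne_zero]; split_ifs <;> positivity
  · rw [if_pos (hact k hk).2]
    have hp : 0 < 8 ^ k * r0 := by positivity
    have := ramp_lip (x1 / (8 ^ k * r0)) (x2 / (8 ^ k * r0))
    rw [← sub_div] at this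
    have h3 : u k ^ 2 ≤ ((x1 - x2) / (8 ^ k * r0)) ^ 2 := sq_le_sq.2 this
    rw [div_pow] at h3
    rw [mul_one_div]; exact h3

lemma measurable_Lam2 (K : ℕ) (r0 : ℝ) : Measurable (Lam2 K r0) := by
  unfold Lam2
  refine (Finset.measurable_sum _ fun k _ => ?_).div_const _
  exact Measurable.ite (measurableSet_lt measurable_id measurable_const) measurable_const
    measurable_const

namespace Tri

variable (T : Tri)

def nu : Measure ZZ := volume.restrict T.Dp

lemma nu_eq : T.nu = (volume : Measure TT).prod (volume.restrict T.Q) := T.restrict_Dp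

instance : IsFiniteMeasure (volume.restrict T.Q) :=
  ⟨by rw [Measure.restrict_apply_univ]; exact T.volume_Q_lt_top⟩

instance : IsFiniteMeasure T.nu := by rw [nu_eq]; infer_instance

def eta (z : ZZ) : ℝ := min |T.h 0 z| (min |T.h 1 z| |T.h 2 z|)
def NN (δ : ℝ) (z : ZZ) : ℝ := max (δ * |T.xi z|) (T.eta z / δ)
def dd (δ : ℝ) (z : ZZ) : ℝ := ⨅ i : ℤ, T.NN δ ((T.sig ^ i) z)
def dG (δ : ℝ) : ZZ → ℝ := T.G.indicator (T.dd δ)

lemma eta_le (c : Fin 3) (z : ZZ) : T.eta z ≤ |T.h c z| := by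
  unfold eta
  fin_cases c
  · exact min_le_left _ _
  · exact (min_le_right _ _).trans (min_le_left _ _)
  · exact (min_le_right _ _).trans (min_le_right _ _)

lemma exists_eta (z : ZZ) : ∃ c, T.eta z = |T.h c z| := by
  unfold eta
  rcases min_choice |T.h 0 z| (min |T.h 1 z| |T.h 2 z|) with h | h
  · exact ⟨0, h⟩
  · rcases min_choice |T.h 1 z| |T.h 2 z| with h2 | h2
    · exact ⟨1, h.trans h2⟩
    · exact ⟨2, h.trans h2⟩

lemma eta_nonneg (z : ZZ) : 0 ≤ T.eta z := by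
  obtain ⟨c, hc⟩ := T.exists_eta z; rw [hc]; positivity

lemma eta_sh (b : ℂ) (z : ZZ) : T.eta (sh b z) ≤ T.eta z + |b.im| := by
  obtain ⟨c, hc⟩ := T.exists_eta z
  refine (T.eta_le c _).trans ?_
  rw [h_sh, hc]
  exact abs_sub _ _

lemma continuous_eta : Continuous T.eta := by unfold eta; fun_prop
lemma continuous_NN (δ : ℝ) : Continuous (T.NN δ) := by
  have := T.continuous_eta
  unfold NN; fun_prop

lemma measurable_dd (δ : ℝ) : Measurable (T.dd δ) :=
  Measurable.iInf fun i => (T.continuous_NN δ).measurable.comp (T.measurable_zpow i)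
lemma measurable_dG (δ : ℝ) : Measurable (T.dG δ) :=
  (T.measurable_dd δ).indicator T.measurableSet_G

variable {T}

lemma NN_nonneg {δ : ℝ} (hδ : 0 < δ) (z : ZZ) : 0 ≤ T.NN δ z :=
  le_max_of_le_left (by positivity)

lemma dd_le {δ : ℝ} (hδ : 0 < δ) (z : ZZ) (i : ℤ) : T.dd δ z ≤ T.NN δ ((T.sig ^ i) z) :=
  ciInf_le ⟨0, by rintro _ ⟨j, rfl⟩; exact NN_nonneg hδ _⟩ i

lemma dd_nonneg {δ : ℝ} (hδ : 0 < δ) (z : ZZ) : 0 ≤ T.dd δ z :=
  le_ciInf fun _ => NN_nonneg hδ _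

lemma dd_le_add {δ : ℝ} {z : ZZ} {x c : ℝ} (h : ∀ i : ℤ, x ≤ T.NN δ ((T.sig ^ i) z) + c) :
    x ≤ T.dd δ z + c := by
  have : x - c ≤ T.dd δ z := le_ciInf fun i => by linarith [h i]
  linarith

lemma dd_sig {δ : ℝ} (z : ZZ) : T.dd δ (T.sig z) = T.dd δ z := by
  unfold dd
  rw [← (Equiv.addRight (1 : ℤ)).iInf_comp (g := fun i : ℤ => T.NN δ ((T.sig ^ i) z))]
  congr 1
  funext i
  simp only [Equiv.coe_addRight]
  rw [zpow_add']; simp

lemma dG_of_mem {δ : ℝ} {z : ZZ} (hz : z ∈ T.G) : T.dG δ z = T.dd δ z := indicator_of_mem hz _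
lemma dG_of_not {δ : ℝ} {z : ZZ} (hz : z ∉ T.G) : T.dG δ z = 0 := indicator_of_notMem hz _

lemma dG_refl {δ : ℝ} {a : Fin 3} {z : ZZ} (hz : z ∈ T.E a) : T.dG δ (T.refl a z) = T.dG δ z := by
  by_cases hG : z ∈ T.G
  · rw [dG_of_mem hG, dG_of_mem ((refl_mem_G_iff hz).2 hG), ← sig_eq_refl hz hG, dd_sig]
  · rw [dG_of_not hG, dG_of_not (fun h => hG ((refl_mem_G_iff hz).1 h))]

lemma dG_le_NN {δ : ℝ} (hδ : 0 < δ) (z : ZZ) : T.dG δ z ≤ T.NN δ z := by
  by_cases hG : z ∈ T.G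
  · rw [dG_of_mem hG]; simpa using dd_le (T := T) hδ z 0
  · rw [dG_of_not hG]; exact NN_nonneg hδ z

lemma dd_sh {δ : ℝ} (hδ : 0 < δ) (t : ℝ) (z : ZZ) : T.dd δ (sh t z) ≤ T.dd δ z + δ * |t| := by
  apply dd_le_add
  intro i
  refine (dd_le hδ _ i).trans ?_
  rw [zpow_sh]
  generalize (T.sig ^ i) z = y
  unfold NN
  have h1 := T.eta_sh t y
  simp only [Complex.ofReal_im, abs_zero, add_zero] at h1
  have h2 : |T.xi (sh t y)| ≤ |T.xi y| + |t| := by
    rw [xi_sh, Complex.ofReal_re]; exact abs_sub _ _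
  apply max_le
  · have := le_max_left (δ * |T.xi y|) (T.eta y / δ)
    nlinarith
  · have := le_max_right (δ * |T.xi y|) (T.eta y / δ)
    have h3 : T.eta (sh t y) / δ ≤ T.eta y / δ := by gcongr
    have : 0 ≤ δ * |t| := by positivity
    linarith

lemma dG_sh {δ : ℝ} (hδ : 0 < δ) (t : ℝ) (z : ZZ) : |T.dG δ (sh t z) - T.dG δ z| ≤ δ * |t| := by
  by_cases hG : z ∈ T.G
  · rw [dG_of_mem hG, dG_of_mem ((sh_mem_G t z).2 hG), abs_le]
    have h1 := dd_sh (T := T) hδ t z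
    have h2 := dd_sh (T := T) hδ (-t) (sh t z)
    rw [sh_add] at h2
    simp only [Complex.ofReal_neg, neg_add_cancel, sh_zero, abs_neg] at h2
    constructor <;> linarith
  · rw [dG_of_not hG, dG_of_not (fun h => hG ((sh_mem_G t z).1 h))]
    simp only [sub_self, abs_zero]; positivity

/-- two phase points on parallel lines at distance `|s|`, side by side -/
def Rel (s : ℝ) (z z' : ZZ) : Prop := ∃ r : ℝ, |r| = |s| ∧ z' = sh (r * Complex.I) z

lemma sign_keep {s : ℝ} {z z' : ZZ} (h : Rel s z z') (he : |s| < T.eta z') (c : Fin 3) :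
    (T.h c z < 0 → T.h c z' < 0) ∧ (0 < T.h c z → 0 < T.h c z') := by
  obtain ⟨r, hr, rfl⟩ := h
  have h1 := he.trans_le (T.eta_le c _)
  rw [h_sh] at h1 ⊢
  simp only [Complex.mul_im, Complex.ofReal_re, Complex.I_im, mul_one, Complex.ofReal_im,
    Complex.I_re, mul_zero, add_zero] at h1 ⊢
  rw [← hr] at h1
  constructor
  · intro h2
    by_contra hc; push Not at hc
    rw [abs_of_nonneg hc] at h1
    linarith [neg_abs_le r]
  · intro h2
    by_contra hc; push Not at hc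
    rw [abs_of_nonpos hc] at h1
    linarith [le_abs_self r]

lemma Rel_refl {s : ℝ} {z z' : ZZ} (h : Rel s z z') (a : Fin 3) :
    Rel s (T.refl a z) (T.refl a z') := by
  obtain ⟨r, hr, rfl⟩ := h
  refine ⟨-r, by rw [abs_neg, hr], ?_⟩
  rw [refl_sh]; simp

lemma Rel_sig {s : ℝ} {z z' : ZZ} (hz : z ∈ T.G) (hz' : z' ∈ T.G) (h : Rel s z z')
    (he : |s| < T.eta z') : Rel s (T.sig z) (T.sig z') := by
  have h1 := (G_L0 hz).1
  have h2 : z' ∈ T.E (T.ex z) := ⟨(sign_keep h he _).1 h1.1, (sign_keep h he _).2 h1.2⟩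
  rw [sig_eq_refl h1 hz, sig_eq_refl h2 hz']
  exact Rel_refl h _

lemma Rel_siginv {s : ℝ} {z z' : ZZ} (hz : z ∈ T.G) (hz' : z' ∈ T.G) (h : Rel s z z')
    (he : |s| < T.eta z') : Rel s (T.sig⁻¹ z) (T.sig⁻¹ z') := by
  have h1 := (G_L0 hz).2
  have h2 : z' ∈ T.N (T.en z) := ⟨(sign_keep h he _).1 h1.1, (sign_keep h he _).2 h1.2⟩
  rw [siginv_of_mem hz, siginv_of_mem hz', S'_eq h1, S'_eq h2]
  exact Rel_refl h _

lemma Rel_chain {s : ℝ} {z z' : ZZ} (hz : z ∈ T.G) (hz' : z' ∈ T.G) (h : Rel s z z') (i : ℤ) :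
    Rel s ((T.sig ^ i) z) ((T.sig ^ i) z') ∨ ∃ j : ℤ, ((0 ≤ j ∧ j ≤ i) ∨ (i ≤ j ∧ j ≤ 0)) ∧
      Rel s ((T.sig ^ j) z) ((T.sig ^ j) z') ∧ T.eta ((T.sig ^ j) z') ≤ |s| := by
  induction i using Int.induction_on with
  | zero => left; simpa using h
  | succ n ih =>
    rcases ih with ih | ⟨j, hj, h2⟩
    · by_cases he : |s| < T.eta ((T.sig ^ (n : ℤ)) z')
      · left
        rw [zpow_succ', zpow_succ']
        exact Rel_sig ((zpow_mem_G _).2 hz) ((zpow_mem_G _).2 hz') ih he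
      · right; exact ⟨n, by omega, ih, not_lt.1 he⟩
    · right; exact ⟨j, by omega, h2⟩
  | pred n ih =>
    rcases ih with ih | ⟨j, hj, h2⟩
    · by_cases he : |s| < T.eta ((T.sig ^ (-n : ℤ)) z')
      · left
        rw [zpow_pred', zpow_pred']
        exact Rel_siginv ((zpow_mem_G _).2 hz) ((zpow_mem_G _).2 hz') ih he
      · right; exact ⟨-n, by omega, ih, not_lt.1 he⟩
    · right; exact ⟨j, by omega, h2⟩

lemma xi_between {z : ZZ} (hz : z ∈ T.G) {i j : ℤ} (hj : (0 ≤ j ∧ j ≤ i) ∨ (i ≤ j ∧ j ≤ 0)) :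
    |T.xi ((T.sig ^ j) z)| ≤ |T.xi z| + |T.xi ((T.sig ^ i) z)| + 2 * T.D := by
  have hb : ∀ n : ℤ, |T.xi ((T.sig ^ n) z) - T.tt n z| ≤ T.D := fun n =>
    T.abs_xi_sub_Tc (Or.inl (G_L0 ((zpow_mem_G n).2 hz)).1)
  have hm := (tt_strictMono hz).monotone
  have b0 := abs_le.1 (hb 0)
  have bi := abs_le.1 (hb i)
  have bj := abs_le.1 (hb j)
  simp only [zpow_zero, Equiv.Perm.coe_one, id] at b0
  have a1 := le_abs_self (T.xi z)
  have a2 := neg_abs_le (T.xi z)
  have a3 := le_abs_self (T.xi ((T.sig ^ i) z))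
  have a4 := neg_abs_le (T.xi ((T.sig ^ i) z))
  have a5 := abs_nonneg (T.xi z)
  have a6 := abs_nonneg (T.xi ((T.sig ^ i) z))
  rw [abs_le]
  rcases hj with ⟨h1, h2⟩ | ⟨h1, h2⟩
  · have := hm h1; have := hm h2
    constructor <;> linarith
  · have := hm h1; have := hm h2
    constructor <;> linarith

lemma xi_Rel {s : ℝ} {z z' : ZZ} (h : Rel s z z') : T.xi z' = T.xi z := by
  obtain ⟨r, _, rfl⟩ := h
  rw [xi_sh]; simp

lemma dd_Rel {δ : ℝ} (hδ : 0 < δ) {s : ℝ} {z z' : ZZ} (hz : z ∈ T.G) (hz' : z' ∈ T.G)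
    (h : Rel s z z') (hx : |T.xi z| ≤ T.D) : T.dd δ z' ≤ T.dd δ z + (|s| / δ + 3 * δ * T.D) := by
  apply dd_le_add
  intro i
  have hD := T.D_nonneg
  have p1 : 0 ≤ |s| / δ := by positivity
  have p2 : 0 ≤ δ * T.D := by positivity
  have m1 := le_max_left (δ * |T.xi ((T.sig ^ i) z)|) (T.eta ((T.sig ^ i) z) / δ)
  have m2 := le_max_right (δ * |T.xi ((T.sig ^ i) z)|) (T.eta ((T.sig ^ i) z) / δ)
  rcases Rel_chain hz hz' h i with h1 | ⟨j, hj, h1, h2⟩
  · refine (dd_le hδ _ i).trans ?_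
    unfold NN
    rw [xi_Rel h1]
    apply max_le
    · linarith
    · obtain ⟨r, hr, h1⟩ := h1
      have h3 := T.eta_sh (r * Complex.I) ((T.sig ^ i) z)
      rw [← h1] at h3
      simp only [Complex.mul_im, Complex.ofReal_re, Complex.I_im, mul_one, Complex.ofReal_im,
        Complex.I_re, mul_zero, add_zero, hr] at h3
      have : T.eta ((T.sig ^ i) z') / δ ≤ (T.eta ((T.sig ^ i) z) + |s|) / δ := by gcongr
      rw [add_div] at this
      linarith
  · refine (dd_le hδ _ j).trans ?_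
    unfold NN
    rw [xi_Rel h1]
    have h3 := xi_between hz hj
    have h0 : 0 ≤ δ * |T.xi ((T.sig ^ i) z)| := by positivity
    apply max_le
    · nlinarith
    · have : T.eta ((T.sig ^ j) z') / δ ≤ |s| / δ := by gcongr
      linarith

lemma G_sub_L {z : ZZ} (hz : z ∈ T.G) : z ∈ T.L := ⟨_, _, (G_L0 hz).1.1, (G_L0 hz).1.2⟩

lemma dG_shift {δ : ℝ} (hδ : 0 < δ) {z : ZZ} (hz : z ∈ T.Dp) (t s : ℝ)
    (h : sh (t + s * Complex.I) z ∈ T.G ∨ sh (t + s * Complex.I) z ∉ T.L) :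
    |T.dG δ (sh (t + s * Complex.I) z) - T.dG δ z| ≤ δ * |t| + (|s| / δ + 3 * δ * T.D) := by
  have hx : |T.xi z| ≤ T.D := T.abs_xi_le (T.Dp_sub_K hz)
  have hD := T.D_nonneg
  have p1 : 0 ≤ |s| / δ := by positivity
  have p2 : 0 ≤ δ * T.D := by positivity
  have p3 : 0 ≤ δ * |t| := by positivity
  by_cases hG : sh (t + s * Complex.I) z ∈ T.G
  · rw [← sh_add] at hG ⊢
    have hG' := (sh_mem_G _ _).1 hG
    have h1 := dG_sh (T := T) hδ t (sh (s * Complex.I) z)
    have r1 : Rel s z (sh (s * Complex.I) z) := ⟨s, rfl, rfl⟩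
    have r2 : Rel s (sh (s * Complex.I) z) z :=
      ⟨-s, abs_neg s, by rw [sh_add]; simp [sh_zero]⟩
    have h2 := dd_Rel hδ hz.1 hG' r1 hx
    have h3 := dd_Rel hδ hG' hz.1 r2 (by rwa [xi_Rel r1])
    rw [dG_of_mem hG'] at h1
    rw [dG_of_mem hz.1, abs_le] at *
    constructor <;> linarith [h1.1, h1.2]
  · have hL := h.resolve_left hG
    rw [dG_of_not hG, zero_sub, abs_neg, dG_of_mem hz.1, abs_of_nonneg (dd_nonneg hδ z)]
    have h1 := dd_le (T := T) hδ z 0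
    simp only [zpow_zero, Equiv.Perm.coe_one, id] at h1
    refine h1.trans (max_le (by nlinarith) ?_)
    have he : T.eta z ≤ |s| := by
      have hE := (G_L0 hz.1).1
      simp only [L, mem_ofPred_eq, not_exists, not_and, not_lt, h_sh] at hL
      simp only [Complex.add_im, Complex.ofReal_im, Complex.mul_im, Complex.ofReal_re, Complex.I_im,
        mul_one, Complex.I_re, mul_zero, add_zero, zero_add] at hL
      by_cases hc : T.h (T.ex z) z - s < 0
      · have := hL _ (T.ex z + 1) hc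
        refine (T.eta_le (T.ex z + 1) z).trans ?_
        rw [abs_of_pos hE.2]
        linarith [le_abs_self s]
      · refine (T.eta_le (T.ex z) z).trans ?_
        rw [abs_of_neg hE.1]
        linarith [neg_abs_le s]
    have : T.eta z / δ ≤ |s| / δ := by gcongr
    linarith

variable (T)

lemma nu_dG_lt {δ r : ℝ} (hδ : 0 < δ) (hr : 0 < r) :
    T.nu {z | T.dG δ z < r} ≤ ENNReal.ofReal (12 * r ^ 2) := by
  have hB : MeasurableSet {z | T.NN δ z < r} :=
    measurableSet_lt (T.continuous_NN δ).measurable measurable_const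
  have hD := T.measurableSet_Dp
  rw [nu, Measure.restrict_apply (measurableSet_lt (T.measurable_dG δ) measurable_const)]
  calc volume ({z | T.dG δ z < r} ∩ T.Dp)
      ≤ volume (⋃ i : ℤ, T.Dp ∩ (T.sig ^ i) ⁻¹' {z | T.NN δ z < r}) := by
        apply measure_mono
        rintro z ⟨h1, h2⟩
        simp only [mem_ofPred_eq, dG_of_mem h2.1] at h1
        obtain ⟨i, hi⟩ := exists_lt_of_ciInf_lt h1
        exact mem_iUnion.2 ⟨i, h2, hi⟩
    _ ≤ ∑' i : ℤ, volume (T.Dp ∩ (T.sig ^ i) ⁻¹' {z | T.NN δ z < r}) := measure_iUnion_le _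
    _ = ∑' i : ℤ, volume ((T.sig ^ (-i)) ⁻¹' T.Dp ∩ {z | T.NN δ z < r}) := by
        congr 1
        funext i
        rw [← (T.mp_zpow (-i)).measure_preimage
          (hD.inter (T.measurable_zpow i hB)).nullMeasurableSet]
        congr 1
        ext z
        simp only [mem_preimage, mem_inter_iff, ← zpow_add', add_neg_cancel, zpow_zero,
          Equiv.Perm.coe_one, id]
    _ = volume (⋃ i : ℤ, (T.sig ^ (-i)) ⁻¹' T.Dp ∩ {z | T.NN δ z < r}) := by
        rw [measure_iUnion]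
        · intro m n hmn
          refine disjoint_left.2 fun z h1 h2 => hmn ?_
          have a1 : (T.sig ^ (-m)) z ∈ T.Dp := h1.1
          have a2 : (T.sig ^ (-n)) z ∈ T.Dp := h2.1
          exact neg_injective (Dp_unique a1 a2)
        · intro i; exact (T.measurable_zpow _ hD).inter hB
    _ ≤ volume (⋃ c : Fin 3,
          {z : ZZ | T.xi z ∈ Ioo (-(r / δ)) (r / δ) ∧ T.h c z ∈ Ioo (-(r * δ)) (r * δ)}) := by
        apply measure_mono
        intro z hz
        obtain ⟨i, -, hi⟩ := mem_iUnion.1 hz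
        simp only [mem_ofPred_eq, NN, max_lt_iff] at hi
        obtain ⟨c, hc⟩ := T.exists_eta z
        refine mem_iUnion.2 ⟨c, ?_, ?_⟩
        · rw [mem_Ioo, ← abs_lt, lt_div_iff₀ hδ]; linarith [hi.1]
        · rw [mem_Ioo, ← abs_lt, ← hc, ← div_lt_iff₀ hδ]; exact hi.2
    _ ≤ ∑' c : Fin 3, volume
          {z : ZZ | T.xi z ∈ Ioo (-(r / δ)) (r / δ) ∧ T.h c z ∈ Ioo (-(r * δ)) (r * δ)} :=
        measure_iUnion_le _
    _ = ENNReal.ofReal (12 * r ^ 2) := by
        simp_rw [T.volume_frame _ _ _ measurableSet_Ioo measurableSet_Ioo, Real.volume_Ioo]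
        rw [tsum_fintype, Finset.sum_const, Finset.card_univ, Fintype.card_fin,
          ← ENNReal.ofReal_mul (by have : 0 < r / δ := by positivity
                                   linarith), nsmul_eq_mul]
        have : ((3 : ℕ) : ENNReal) = ENNReal.ofReal 3 := by simp
        rw [this, ← ENNReal.ofReal_mul (by norm_num)]
        congr 1
        field_simp
        ring

lemma nu_real_dG_lt {δ r : ℝ} (hδ : 0 < δ) (hr : 0 < r) :
    T.nu.real {z | T.dG δ z < r} ≤ 12 * r ^ 2 :=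
  ENNReal.toReal_le_of_le_ofReal (by positivity) (T.nu_dG_lt hδ hr)

lemma integrable_Lam2 (K : ℕ) (r0 δ : ℝ) : Integrable (fun z => Lam2 K r0 (T.dG δ z)) T.nu := by
  unfold Lam2
  refine (integrable_finsetSum _ fun k _ => ?_).div_const _
  exact (integrable_const (1 / (8 ^ k * r0) ^ 2)).indicator
    (s := {z | T.dG δ z < 3 * (8 ^ k * r0)})
    (measurableSet_lt (T.measurable_dG δ) measurable_const)

lemma integral_Lam2 {K : ℕ} (hK : 0 < K) {r0 δ : ℝ} (h0 : 0 < r0) (hδ : 0 < δ) :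
    ∫ z, Lam2 K r0 (T.dG δ z) ∂T.nu ≤ 108 / K := by
  unfold Lam2
  rw [integral_div, integral_finsetSum]
  · have : ∀ k ∈ Finset.range K, ∫ z, (if T.dG δ z < 3 * (8 ^ k * r0) then 1 / (8 ^ k * r0) ^ 2
        else 0) ∂T.nu ≤ 108 := by
      intro k _
      have hp : 0 < 8 ^ k * r0 := by positivity
      have h1 := integral_indicator_const (μ := T.nu) (1 / (8 ^ k * r0) ^ 2 : ℝ)
        (s := {z | T.dG δ z < 3 * (8 ^ k * r0)})
        (measurableSet_lt (T.measurable_dG δ) measurable_const)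
      have h2 := T.nu_real_dG_lt (r := 3 * (8 ^ k * r0)) hδ (by positivity)
      refine (le_of_eq h1).trans ?_
      rw [smul_eq_mul, mul_one_div, div_le_iff₀ (by positivity)]
      nlinarith
    have h3 := Finset.sum_le_sum this
    rw [Finset.sum_const, Finset.card_range, nsmul_eq_mul] at h3
    have hK' : (0 : ℝ) < K := by exact_mod_cast hK
    rw [div_le_div_iff₀ (by positivity) hK']
    nlinarith
  · intro k _
    exact (integrable_const (1 / (8 ^ k * r0) ^ 2)).indicator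
      (s := {z | T.dG δ z < 3 * (8 ^ k * r0)})
      (measurableSet_lt (T.measurable_dG δ) measurable_const)

/-- the cutoff on the phase space -/
def chi (K : ℕ) (r0 δ : ℝ) (z : ZZ) : ℝ := chi0 K r0 (T.dG δ z)

lemma measurable_chi (K : ℕ) (r0 δ : ℝ) : Measurable (T.chi K r0 δ) :=
  (continuous_chi0 K r0).measurable.comp (T.measurable_dG δ)

lemma abs_chi_le (K : ℕ) (r0 δ : ℝ) (z : ZZ) : |T.chi K r0 δ z| ≤ 1 := by
  rw [chi, abs_of_nonneg (chi0_nonneg _ _ _)]; exact chi0_le_one _ _ _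

lemma ae_shift (t s : ℝ) : ∀ᵐ z ∂T.nu, z ∈ T.Dp ∧
    (sh (t + s * Complex.I) z ∈ T.G ∨ sh (t + s * Complex.I) z ∉ T.L) := by
  refine (ae_restrict_mem T.measurableSet_Dp).and (ae_restrict_of_ae ?_)
  exact (mp_sh _).quasiMeasurePreserving.ae T.ae_G_or

lemma osc_bound {K : ℕ} (hK : 0 < K) {r0 δ ε : ℝ} (hδ : 0 < δ) (hε : 0 < ε) (h4 : 4 * ε ≤ r0)
    (hδε : δ * (1 + 3 * T.D) ≤ ε) {t s t' s' m : ℝ} (ht : |t| ≤ 1) (hs : |s| ≤ ε * δ)
    (ht' : |t'| ≤ 1) (hs' : |s'| ≤ ε * δ)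
    (hm : ∀ᵐ z ∂T.nu,
      |T.dG δ (sh (t + s * Complex.I) z) - T.dG δ (sh (t' + s' * Complex.I) z)| ≤ m) :
    ∫ z, (T.chi K r0 δ (sh (t + s * Complex.I) z) - T.chi K r0 δ (sh (t' + s' * Complex.I) z)) ^ 2
      ∂T.nu ≤ m ^ 2 * (108 / K) := by
  have h0 : 0 < r0 := by linarith
  have key : ∀ {t s : ℝ}, |t| ≤ 1 → |s| ≤ ε * δ → δ * |t| + (|s| / δ + 3 * δ * T.D) ≤ r0 / 2 := by
    intro t s ht hs
    have : |s| / δ ≤ ε := by rw [div_le_iff₀ hδ]; exact hs
    nlinarith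
  calc _ ≤ ∫ z, m ^ 2 * Lam2 K r0 (T.dG δ z) ∂T.nu := by
        apply integral_mono_of_nonneg (Eventually.of_forall fun z => sq_nonneg _)
          ((T.integrable_Lam2 K r0 δ).const_mul _)
        filter_upwards [hm, T.ae_shift t s, T.ae_shift t' s'] with z h1 h2 h3
        have a1 := (dG_shift hδ h2.1 t s h2.2).trans (key ht hs)
        have a2 := (dG_shift hδ h3.1 t' s' h3.2).trans (key ht' hs')
        refine (chi0_osc K h0 a1 a2).trans ?_
        have hL : 0 ≤ Lam2 K r0 (T.dG δ z) := by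
          unfold Lam2
          refine div_nonneg (Finset.sum_nonneg fun k _ => ?_) (by positivity)
          split_ifs <;> positivity
        apply mul_le_mul_of_nonneg_right _ hL
        exact sq_le_sq' (abs_le.1 h1).1 (abs_le.1 h1).2
    _ ≤ m ^ 2 * (108 / K) := by
        rw [integral_const_mul]
        exact mul_le_mul_of_nonneg_left (T.integral_Lam2 hK h0 hδ) (sq_nonneg _)

lemma osc_X {K : ℕ} (hK : 0 < K) {r0 δ ε : ℝ} (hδ : 0 < δ) (hε : 0 < ε) (h4 : 4 * ε ≤ r0)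
    (hδε : δ * (1 + 3 * T.D) ≤ ε) {t s : ℝ} (ht : |t| ≤ 1) (hs : |s| ≤ ε * δ) :
    ∫ z, (T.chi K r0 δ (sh (t + s * Complex.I) z) - T.chi K r0 δ (sh (s * Complex.I) z)) ^ 2
      ∂T.nu ≤ δ ^ 2 * (108 / K) := by
  have := T.osc_bound hK hδ hε h4 hδε ht hs (t' := 0) (by simp) hs (m := δ)
    (Eventually.of_forall fun z => by
      have h1 := dG_sh (T := T) hδ t (sh (s * Complex.I) z)
      rw [sh_add] at h1
      simp only [Complex.ofReal_zero, zero_add]
      nlinarith)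
  simpa using this

lemma osc_Y {K : ℕ} (hK : 0 < K) {r0 δ ε : ℝ} (hδ : 0 < δ) (hε : 0 < ε) (h4 : 4 * ε ≤ r0)
    (hδε : δ * (1 + 3 * T.D) ≤ ε) {t s : ℝ} (ht : |t| ≤ 1) (hs : |s| ≤ ε * δ) :
    ∫ z, (T.chi K r0 δ (sh (t + s * Complex.I) z) - T.chi K r0 δ z) ^ 2
      ∂T.nu ≤ (2 * ε) ^ 2 * (108 / K) := by
  have := T.osc_bound hK hδ hε h4 hδε ht hs (t' := 0) (s' := 0) (by simp)
    (by simp only [abs_zero]; positivity) (m := 2 * ε) (by
      filter_upwards [T.ae_shift t s] with z h2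
      have a1 := dG_shift hδ h2.1 t s h2.2
      have : |s| / δ ≤ ε := by rw [div_le_iff₀ hδ]; exact hs
      simp only [Complex.ofReal_zero, zero_mul, add_zero, sh_zero]
      nlinarith)
  simpa [sh_zero] using this

lemma one_sub_chi {K : ℕ} (hK : 0 < K) {r0 δ : ℝ} (hδ : 0 < δ) (h0 : 0 < r0) :
    ∫ z, (T.chi K r0 δ z - 1) ^ 2 ∂T.nu ≤ 12 * (2 * (8 ^ K * r0)) ^ 2 := by
  have hm : MeasurableSet {z | T.dG δ z < 2 * (8 ^ K * r0)} :=
    measurableSet_lt (T.measurable_dG δ) measurable_const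
  refine le_trans ?_ (T.nu_real_dG_lt (r := 2 * (8 ^ K * r0)) hδ (by positivity))
  rw [← integral_indicator_one hm]
  apply integral_mono_of_nonneg (Eventually.of_forall fun z => sq_nonneg _)
    ((integrable_const (1 : ℝ)).indicator hm)
  refine Eventually.of_forall fun z => ?_
  by_cases hz : T.dG δ z < 2 * (8 ^ K * r0)
  · have h1 := chi0_nonneg K r0 (T.dG δ z)
    have h2 := chi0_le_one K r0 (T.dG δ z)
    simp only [indicator, mem_ofPred_eq, hz, if_true, chi]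
    nlinarith
  · simp only [indicator, mem_ofPred_eq, hz, if_false, chi, chi0_one hK h0 (not_lt.1 hz)]
    simp

lemma chi_refl (K : ℕ) (r0 δ : ℝ) {a : Fin 3} {z : ZZ} (hz : z ∈ T.E a) :
    T.chi K r0 δ (T.refl a z) = T.chi K r0 δ z := by rw [chi, dG_refl hz, chi]

lemma chi_zero_near (K : ℕ) {r0 δ ε : ℝ} (hδ : 0 < δ) (hε : 0 < ε) (h4 : 4 * ε ≤ r0)
    (hδε : δ * (1 + 3 * T.D) ≤ ε) {z : ZZ} (hz : z.2 ∈ T.K) (he : T.eta z ≤ ε * δ) {t s : ℝ}
    (ht : |t| ≤ 1) (hs : |s| ≤ ε * δ) : T.chi K r0 δ (sh (t + s * Complex.I) z) = 0 := by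
  apply chi0_zero K (by linarith)
  refine (dG_le_NN hδ _).trans (max_le ?_ ?_)
  · have h1 := T.abs_xi_le hz
    have h2 : |T.xi (sh (t + s * Complex.I) z)| ≤ |T.xi z| + |t| := by
      rw [xi_sh]; simpa using abs_sub (T.xi z) t
    have hD := T.D_nonneg
    nlinarith
  · have h1 := T.eta_sh (t + s * Complex.I) z
    simp only [Complex.add_im, Complex.ofReal_im, Complex.mul_im, Complex.ofReal_re, Complex.I_im,
        mul_one, Complex.I_re, mul_zero, add_zero, zero_add] at h1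
    rw [div_le_iff₀ hδ]
    nlinarith

end Tri

end

end Vale.Agent.P099
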