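import Mathlib

/-!
Billiards in a triangle: the table, the billiard flow and the Liouville measure.
The Euclidean plane is `ℂ`; a phase point is a pair (position, velocity).
-/

open MeasureTheory

namespace Vale.Agent.P099

noncomputable section

/-- The closed triangle with vertices `P 0`, `P 1`, `P 2`. -/
def closedTable (P : Fin 3 → ℂ) : Set ℂ := convexHull ℝ (Set.range P)

/-- The billiard table `Q`: the interior of the triangle. -/
def table (P : Fin 3 → ℂ) : Set ℂ := interior (closedTable P)

/-- The open side opposite to the vertex `P i`. -/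
def side (P : Fin 3 → ℂ) (i : Fin 3) : Set ℂ := openSegment ℝ (P (i + 1)) (P (i + 2))

/-- The interior angle of the triangle at the vertex `P i`. -/
def vertexAngle (P : Fin 3 → ℂ) (i : Fin 3) : ℝ :=
  EuclideanGeometry.angle (P (i + 1)) (P i) (P (i + 2))

/-- Specular reflection of a velocity at the side opposite to `P i`: the orthogonal reflection
that fixes the direction of the side (tangential part kept, normal part reversed). -/
def reflectVel (P : Fin 3 → ℂ) (i : Fin 3) (v : ℂ) : ℂ :=
  (Submodule.span ℝ {P (i + 2) - P (i + 1)}).reflection v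

/-- The time at which the straight motion from `z.1` with velocity `z.2` leaves the closed
triangle. -/
def exitTime (P : Fin 3 → ℂ) (z : ℂ × ℂ) : ℝ :=
  sSup {t : ℝ | 0 ≤ t ∧ z.1 + t • z.2 ∈ closedTable P}

open Classical in
/-- One bounce: move straight to the boundary and reflect the velocity at the open side that is
hit. A trajectory that hits a vertex is discarded (it gets velocity `0`). -/
def bounce (P : Fin 3 → ℂ) (z : ℂ × ℂ) : ℂ × ℂ :=
  if z.1 + exitTime P z • z.2 ∈ side P 0 then (z.1 + exitTime P z • z.2, reflectVel P 0 z.2)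
  else if z.1 + exitTime P z • z.2 ∈ side P 1 then (z.1 + exitTime P z • z.2, reflectVel P 1 z.2)
  else if z.1 + exitTime P z • z.2 ∈ side P 2 then (z.1 + exitTime P z • z.2, reflectVel P 2 z.2)
  else (z.1 + exitTime P z • z.2, 0)

/-- The time of the `n`-th bounce (`0` for `n = 0`). -/
def bounceTime (P : Fin 3 → ℂ) (z : ℂ × ℂ) (n : ℕ) : ℝ :=
  ∑ k ∈ Finset.range n, exitTime P ((bounce P)^[k] z)

/-- The number of bounces up to time `t`. -/
def bounceCount (P : Fin 3 → ℂ) (t : ℝ) (z : ℂ × ℂ) : ℕ :=
  sSup {n : ℕ | bounceTime P z n ≤ t}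

/-- The billiard flow for a time `t ≥ 0`: straight motion after the last bounce. -/
def forwardFlow (P : Fin 3 → ℂ) (t : ℝ) (z : ℂ × ℂ) : ℂ × ℂ :=
  (((bounce P)^[bounceCount P t z] z).1 +
      (t - bounceTime P z (bounceCount P t z)) • ((bounce P)^[bounceCount P t z] z).2,
    ((bounce P)^[bounceCount P t z] z).2)

/-- Reversal of the velocity. -/
def reverse (z : ℂ × ℂ) : ℂ × ℂ := (z.1, -z.2)

/-- The billiard flow `Φ_t`, `t ∈ ℝ`; negative times are obtained by reversing the velocity. -/
def flow (P : Fin 3 → ℂ) (t : ℝ) (z : ℂ × ℂ) : ℂ × ℂ :=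
  if 0 ≤ t then forwardFlow P t z else reverse (forwardFlow P (-t) (reverse z))

/-- The uniform probability measure `dθ / 2π` on the unit velocities `e^{iθ}`. -/
def directionMeasure : Measure ℂ :=
  (ProbabilityTheory.cond volume (Set.Ioc (0 : ℝ) (2 * Real.pi))).map
    (fun θ : ℝ => Complex.exp (θ * Complex.I))

/-- The measure `dA dθ / (2π Area Q)` on `Q × S¹`. -/
def liouville (P : Fin 3 → ℂ) : Measure (ℂ × ℂ) :=
  (ProbabilityTheory.cond volume (table P)).prod directionMeasure

/-- Ergodicity of a flow: every measurable set that is invariant up to a null set under every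
time-`t` map has measure `0` or `1`. -/
def FlowErgodic {X : Type} [MeasurableSpace X] (μ : Measure X) (Φ : ℝ → X → X) : Prop :=
  ∀ A : Set X, MeasurableSet A → (∀ t : ℝ, μ (symmDiff (Φ t ⁻¹' A) A) = 0) → μ A = 0 ∨ μ A = 1

/-- Weak mixing: the product flow `Φ_t × Φ_t` is ergodic for `μ ⊗ μ`. -/
def FlowWeakMixing {X : Type} [MeasurableSpace X] (μ : Measure X) (Φ : ℝ → X → X) : Prop :=
  FlowErgodic (μ.prod μ) (fun t => Prod.map (Φ t) (Φ t))

end

end Vale.Agent.P099
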