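import Vale.Agent.P099.Geom

/-!
The billiard map on oriented lines, as a measure preserving permutation of the phase space of
the whole plane.
-/

open MeasureTheory Set

namespace Vale.Agent.P099

noncomputable section

lemma mp_mul (u : ℂ) (hu : ‖u‖ = 1) : MeasurePreserving (fun x : ℂ => u * x) volume volume := by
  exact (rotation ⟨u, by simpa [Submonoid.unitSphere] using hu⟩).measurePreserving

lemma mp_conj : MeasurePreserving (fun x : ℂ => (starRingEnd ℂ) x) volume volume :=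
  Complex.conjLIE.measurePreserving

lemma mp_sh (a : ℂ) : MeasurePreserving (sh a) volume volume := by
  have := MeasurePreserving.skew_product (μc := (volume : Measure ℂ)) (μd := (volume : Measure ℂ))
    (MeasurePreserving.id (volume : Measure TT))
    (g := fun θ (x : ℂ) => x + ee θ * a) (by unfold Function.uncurry; fun_prop)
    (Filter.Eventually.of_forall fun θ => (measurePreserving_add_right volume (ee θ * a)).map_eq)
  exact this

lemma volume_rect (A B : Set ℝ) (hA : MeasurableSet A) (hB : MeasurableSet B) :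
    volume {u : ℂ | u.re ∈ A ∧ u.im ∈ B} = volume A * volume B := by
  have := Complex.volume_preserving_equiv_real_prod.measure_preimage (hA.prod hB).nullMeasurableSet
  rw [Measure.volume_eq_prod, Measure.prod_prod] at this
  rw [← this]
  rfl

namespace Tri

variable (T : Tri)

lemma mp_rp (a : Fin 3) : MeasurePreserving (T.rp a) volume volume := by
  have h1 := measurePreserving_sub_right (volume : Measure ℂ) (T.P a)
  have h3 := mp_mul (T.s a ^ 2) (by rw [norm_pow, s, norm_ee]; norm_num)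
  have h4 := measurePreserving_add_left (volume : Measure ℂ) (T.P a)
  exact h4.comp (h3.comp (mp_conj.comp h1))

lemma mp_rt (a : Fin 3) : MeasurePreserving (T.rt a) volume volume :=
  Measure.measurePreserving_sub_left (volume : Measure TT) (T.sg a + T.sg a)

lemma mp_refl (a : Fin 3) : MeasurePreserving (T.refl a) volume volume :=
  (T.mp_rt a).prod (T.mp_rp a)

/-- The measure of a rectangle in the frame of the direction. -/
lemma volume_frame (c : Fin 3) (A B : Set ℝ) (hA : MeasurableSet A) (hB : MeasurableSet B) :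
    volume {z : ZZ | T.xi z ∈ A ∧ T.h c z ∈ B} = volume A * volume B := by
  have hm : MeasurableSet {z : ZZ | T.xi z ∈ A ∧ T.h c z ∈ B} :=
    (T.continuous_xi.measurable hA).inter ((T.continuous_h c).measurable hB)
  rw [Measure.volume_eq_prod, Measure.prod_apply hm]
  have : ∀ θ : TT, volume (Prod.mk θ ⁻¹' {z : ZZ | T.xi z ∈ A ∧ T.h c z ∈ B})
      = volume A * volume B := by
    intro θ
    have h1 := Measure.measurePreserving_sub_left (volume : Measure ℂ) (T.P 0)
    have h2 := mp_mul ((starRingEnd ℂ) (ee θ)) (by rw [Complex.norm_conj, norm_ee])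
    have h3 := measurePreserving_add_right (volume : Measure ℂ)
      ((cr (ee θ) (T.P c - T.P 0) : ℝ) * Complex.I)
    have h4 := h3.comp (h2.comp h1)
    have hm2 : MeasurableSet {u : ℂ | u.re ∈ A ∧ u.im ∈ B} :=
      (Complex.measurable_re hA).inter (Complex.measurable_im hB)
    rw [← volume_rect A B hA hB, ← h4.measure_preimage hm2.nullMeasurableSet]
    congr 1
    ext x
    simp only [mem_preimage, mem_ofPred_eq, Function.comp, xi, Tri.h]
    have e1 : ((starRingEnd ℂ) (ee θ) * (T.P 0 - x) +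
        ((cr (ee θ) (T.P c - T.P 0) : ℝ) : ℂ) * Complex.I).re = dt (ee θ) (T.P 0 - x) := by
      simp [dt]
    have e2 : ((starRingEnd ℂ) (ee θ) * (T.P 0 - x) +
        ((cr (ee θ) (T.P c - T.P 0) : ℝ) : ℂ) * Complex.I).im = cr (ee θ) (T.P c - x) := by
      simp [cr]; ring
    rw [e1, e2]
  simp_rw [this]
  simp

lemma volume_h_zero (c : Fin 3) : volume {z : ZZ | T.h c z = 0} = 0 := by
  have := T.volume_frame c univ {0} MeasurableSet.univ (measurableSet_singleton 0)
  simpa using this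

open Classical in
def ex (z : ZZ) : Fin 3 := if z ∈ T.E 0 then 0 else if z ∈ T.E 1 then 1 else 2
open Classical in
def en (z : ZZ) : Fin 3 := if z ∈ T.N 0 then 0 else if z ∈ T.N 1 then 1 else 2
def S (z : ZZ) : ZZ := T.refl (T.ex z) z
def S' (z : ZZ) : ZZ := T.refl (T.en z) z
def L0 : Set ZZ := {z | z ∈ T.E (T.ex z) ∧ z ∈ T.N (T.en z)}
def G : Set ZZ := {z | ∀ n : ℕ, T.S^[n] z ∈ T.L0 ∧ T.S'^[n] z ∈ T.L0}
def L : Set ZZ := {z | ∃ a b, T.h a z < 0 ∧ 0 < T.h b z}

variable {T}

lemma ex_eq {a : Fin 3} {z : ZZ} (hz : z ∈ T.E a) : T.ex z = a := by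
  unfold ex
  split_ifs with h0 h1
  · exact T.E_unique h0 hz
  · exact T.E_unique h1 hz
  · rcases f3 2 a with rfl | rfl | rfl
    · rfl
    · exact absurd hz h0
    · exact absurd hz h1

lemma en_eq {a : Fin 3} {z : ZZ} (hz : z ∈ T.N a) : T.en z = a := by
  unfold en
  split_ifs with h0 h1
  · exact T.N_unique h0 hz
  · exact T.N_unique h1 hz
  · rcases f3 2 a with rfl | rfl | rfl
    · rfl
    · exact absurd hz h0
    · exact absurd hz h1

lemma S_eq {a : Fin 3} {z : ZZ} (hz : z ∈ T.E a) : T.S z = T.refl a z := by rw [S, ex_eq hz]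
lemma S'_eq {a : Fin 3} {z : ZZ} (hz : z ∈ T.N a) : T.S' z = T.refl a z := by rw [S', en_eq hz]

lemma S'_S {z : ZZ} (hz : z ∈ T.L0) : T.S' (T.S z) = z := by
  rw [S_eq hz.1, S'_eq (T.refl_mem_N hz.1), refl_refl]
lemma S_S' {z : ZZ} (hz : z ∈ T.L0) : T.S (T.S' z) = z := by
  rw [S'_eq hz.2, S_eq (T.refl_mem_E hz.2), refl_refl]

lemma G_L0 {z : ZZ} (hz : z ∈ T.G) : z ∈ T.L0 := (hz 0).1

lemma S_mem_G {z : ZZ} (hz : z ∈ T.G) : T.S z ∈ T.G := by
  intro n
  refine ⟨(hz (n + 1)).1, ?_⟩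
  cases n with
  | zero => exact (hz 1).1
  | succ m => rw [Function.iterate_succ_apply, S'_S (G_L0 hz)]; exact (hz m).2

lemma S'_mem_G {z : ZZ} (hz : z ∈ T.G) : T.S' z ∈ T.G := by
  intro n
  refine ⟨?_, (hz (n + 1)).2⟩
  cases n with
  | zero => exact (hz 1).2
  | succ m => rw [Function.iterate_succ_apply, S_S' (G_L0 hz)]; exact (hz m).1

variable (T)

open Classical in
def sig : Equiv.Perm ZZ where
  toFun z := if z ∈ T.G then T.S z else z
  invFun z := if z ∈ T.G then T.S' z else z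
  left_inv z := by
    by_cases hz : z ∈ T.G
    · simp [hz, S_mem_G hz, S'_S (G_L0 hz)]
    · simp [hz]
  right_inv z := by
    by_cases hz : z ∈ T.G
    · simp [hz, S'_mem_G hz, S_S' (G_L0 hz)]
    · simp [hz]

variable {T}

lemma sig_of_mem {z : ZZ} (hz : z ∈ T.G) : T.sig z = T.S z := by simp [sig, hz]
lemma sig_of_not {z : ZZ} (hz : z ∉ T.G) : T.sig z = z := by simp [sig, hz]
lemma siginv_of_mem {z : ZZ} (hz : z ∈ T.G) : T.sig⁻¹ z = T.S' z := by
  show T.sig.symm z = _; simp [sig, hz]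
lemma siginv_of_not {z : ZZ} (hz : z ∉ T.G) : T.sig⁻¹ z = z := by
  show T.sig.symm z = _; simp [sig, hz]

lemma sig_mem_G {z : ZZ} : T.sig z ∈ T.G ↔ z ∈ T.G := by
  by_cases hz : z ∈ T.G
  · simp [hz, sig_of_mem hz, S_mem_G hz]
  · simp [hz, sig_of_not hz]
lemma siginv_mem_G {z : ZZ} : T.sig⁻¹ z ∈ T.G ↔ z ∈ T.G := by
  by_cases hz : z ∈ T.G
  · simp [hz, siginv_of_mem hz, S'_mem_G hz]
  · simp [hz, siginv_of_not hz]

lemma zpow_succ' (n : ℤ) (z : ZZ) : (T.sig ^ (n + 1)) z = T.sig ((T.sig ^ n) z) := by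
  rw [add_comm, zpow_one_add]; rfl
lemma zpow_pred' (n : ℤ) (z : ZZ) : (T.sig ^ (n - 1)) z = T.sig⁻¹ ((T.sig ^ n) z) := by
  rw [show n - 1 = -1 + n by ring, zpow_add, zpow_neg_one]; rfl
lemma zpow_add' (m n : ℤ) (z : ZZ) : (T.sig ^ (m + n)) z = (T.sig ^ m) ((T.sig ^ n) z) := by
  rw [zpow_add]; rfl

/-- induction principle for properties of `sig ^ n`. -/
lemma zpow_ind (p : (ZZ → ZZ) → Prop) (h0 : p id) (h1 : ∀ f, p f → p (T.sig ∘ f))
    (h2 : ∀ f, p f → p (⇑(T.sig⁻¹) ∘ f)) (n : ℤ) : p (T.sig ^ n : Equiv.Perm ZZ) := by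
  induction n using Int.induction_on with
  | zero => simpa using h0
  | succ n ih =>
    have := h1 _ ih
    convert this using 1
    funext z; exact zpow_succ' n z
  | pred n ih =>
    have := h2 _ ih
    convert this using 1
    funext z; exact zpow_pred' (-n) z

lemma zpow_mem_G (n : ℤ) {z : ZZ} : (T.sig ^ n) z ∈ T.G ↔ z ∈ T.G :=
  zpow_ind (T := T) (fun f => f z ∈ T.G ↔ z ∈ T.G) Iff.rfl (fun _ h => sig_mem_G.trans h)
    (fun _ h => siginv_mem_G.trans h) n

lemma zpow_of_not (n : ℤ) {z : ZZ} (hz : z ∉ T.G) : (T.sig ^ n) z = z :=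
  zpow_ind (T := T) (fun f => f z = z) rfl
    (fun f h => by simp only [Function.comp, h, sig_of_not hz])
    (fun f h => by simp only [Function.comp, h, siginv_of_not hz]) n

lemma refl_mem_G_iff {a : Fin 3} {z : ZZ} (hz : z ∈ T.E a) : T.refl a z ∈ T.G ↔ z ∈ T.G := by
  constructor
  · intro h
    have := S'_mem_G h
    rwa [S'_eq (T.refl_mem_N hz), refl_refl] at this
  · intro h
    have := S_mem_G h
    rwa [S_eq hz] at this

lemma sig_eq_refl {a : Fin 3} {z : ZZ} (hz : z ∈ T.E a) (hG : z ∈ T.G) : T.sig z = T.refl a z := by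
  rw [sig_of_mem hG, S_eq hz]

lemma ex_sh (t : ℝ) (z : ZZ) : T.ex (sh t z) = T.ex z := by
  unfold ex; rw [sh_mem_E, sh_mem_E]
lemma en_sh (t : ℝ) (z : ZZ) : T.en (sh t z) = T.en z := by
  unfold en; rw [sh_mem_N, sh_mem_N]
lemma S_sh (t : ℝ) (z : ZZ) : T.S (sh t z) = sh t (T.S z) := by
  rw [S, ex_sh, refl_sh, Complex.conj_ofReal]; rfl
lemma S'_sh (t : ℝ) (z : ZZ) : T.S' (sh t z) = sh t (T.S' z) := by
  rw [S', en_sh, refl_sh, Complex.conj_ofReal]; rfl
lemma sh_mem_L0 (t : ℝ) (z : ZZ) : sh t z ∈ T.L0 ↔ z ∈ T.L0 := by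
  simp [L0, ex_sh, en_sh, sh_mem_E, sh_mem_N]
lemma sh_mem_G (t : ℝ) (z : ZZ) : sh t z ∈ T.G ↔ z ∈ T.G := by
  have h1 : ∀ n, T.S^[n] (sh t z) = sh t (T.S^[n] z) := fun n =>
    (Function.Commute.iterate_left (f := T.S) (g := sh t) (fun z => S_sh t z) n) z
  have h2 : ∀ n, T.S'^[n] (sh t z) = sh t (T.S'^[n] z) := fun n =>
    (Function.Commute.iterate_left (f := T.S') (g := sh t) (fun z => S'_sh t z) n) z
  simp only [G, mem_ofPred_eq, h1, h2, sh_mem_L0]
lemma sig_sh (t : ℝ) (z : ZZ) : T.sig (sh t z) = sh t (T.sig z) := by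
  by_cases hz : z ∈ T.G
  · rw [sig_of_mem hz, sig_of_mem ((sh_mem_G t z).2 hz), S_sh]
  · rw [sig_of_not hz, sig_of_not (fun h => hz ((sh_mem_G t z).1 h))]
lemma siginv_sh (t : ℝ) (z : ZZ) : T.sig⁻¹ (sh t z) = sh t (T.sig⁻¹ z) := by
  by_cases hz : z ∈ T.G
  · rw [siginv_of_mem hz, siginv_of_mem ((sh_mem_G t z).2 hz), S'_sh]
  · rw [siginv_of_not hz, siginv_of_not (fun h => hz ((sh_mem_G t z).1 h))]
lemma zpow_sh (n : ℤ) (t : ℝ) (z : ZZ) : (T.sig ^ n) (sh t z) = sh t ((T.sig ^ n) z) :=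
  zpow_ind (T := T) (fun f => f (sh t z) = sh t (f z)) rfl
    (fun f h => by simp only [Function.comp, h, sig_sh])
    (fun f h => by simp only [Function.comp, h, siginv_sh]) n

variable (T)

lemma measurable_ex : Measurable T.ex := by
  unfold ex
  exact Measurable.ite (T.isOpen_E 0).measurableSet measurable_const
    (Measurable.ite (T.isOpen_E 1).measurableSet measurable_const measurable_const)
lemma measurable_en : Measurable T.en := by
  unfold en
  exact Measurable.ite (T.isOpen_N 0).measurableSet measurable_const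
    (Measurable.ite (T.isOpen_N 1).measurableSet measurable_const measurable_const)

lemma measurable_sel {ι β : Type*} [Countable ι] [MeasurableSpace ι] [MeasurableSingletonClass ι]
    [MeasurableSpace β] {f : ι → ZZ → β} (hf : ∀ i, Measurable (f i)) {g : ZZ → ι}
    (hg : Measurable g) : Measurable (fun z => f (g z) z) := by
  have : Measurable (fun q : ZZ × ι => f q.2 q.1) := measurable_from_prod_countable_left hf
  exact this.comp (measurable_id.prodMk hg)

lemma measurable_S : Measurable T.S := measurable_sel T.measurable_refl T.measurable_ex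
lemma measurable_S' : Measurable T.S' := measurable_sel T.measurable_refl T.measurable_en

lemma L0_eq : T.L0 = (⋃ a, T.E a) ∩ ⋃ a, T.N a := by
  ext z
  simp only [L0, mem_ofPred_eq, mem_inter_iff, mem_iUnion]
  constructor
  · rintro ⟨h1, h2⟩; exact ⟨⟨_, h1⟩, ⟨_, h2⟩⟩
  · rintro ⟨⟨a, h1⟩, ⟨b, h2⟩⟩; rw [ex_eq h1, en_eq h2]; exact ⟨h1, h2⟩

lemma measurableSet_L0 : MeasurableSet T.L0 := by
  rw [L0_eq]
  exact (MeasurableSet.iUnion fun a => (T.isOpen_E a).measurableSet).inter
    (MeasurableSet.iUnion fun a => (T.isOpen_N a).measurableSet)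

lemma measurableSet_G : MeasurableSet T.G := by
  have : T.G = ⋂ n : ℕ, (T.S^[n] ⁻¹' T.L0 ∩ T.S'^[n] ⁻¹' T.L0) := by
    ext z; simp [G]
  rw [this]
  exact MeasurableSet.iInter fun n => ((T.measurable_S.iterate n) T.measurableSet_L0).inter
    ((T.measurable_S'.iterate n) T.measurableSet_L0)

lemma measurable_sig : Measurable T.sig := by
  classical
  exact Measurable.ite T.measurableSet_G T.measurable_S measurable_id
lemma measurable_siginv : Measurable (⇑(T.sig⁻¹)) := by
  classical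
  exact Measurable.ite T.measurableSet_G T.measurable_S' measurable_id
lemma measurable_zpow (n : ℤ) : Measurable (⇑(T.sig ^ n)) :=
  zpow_ind (T := T) (fun f => Measurable f) measurable_id (fun _ h => T.measurable_sig.comp h)
    (fun _ h => T.measurable_siginv.comp h) n

lemma volume_split (F : Fin 3 → Set ZZ) (hF : ∀ a, MeasurableSet (F a))
    (hd : Pairwise (Function.onFun Disjoint F)) (hG : T.G ⊆ ⋃ a, F a) (B : Set ZZ)
    (hB : MeasurableSet B) :
    volume B = volume (B \ T.G) + ∑' a, volume (B ∩ T.G ∩ F a) := by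
  rw [← measure_inter_add_sdiff B T.measurableSet_G, add_comm]
  congr 1
  rw [← measure_iUnion]
  · congr 1
    rw [← inter_iUnion]
    exact (inter_eq_left.2 (inter_subset_right.trans hG)).symm
  · intro a b hab
    exact (hd hab).mono inter_subset_right inter_subset_right
  · intro a; exact (hB.inter T.measurableSet_G).inter (hF a)

lemma mp_sig : MeasurePreserving T.sig volume volume := by
  refine ⟨T.measurable_sig, ?_⟩
  ext B hB
  rw [Measure.map_apply T.measurable_sig hB]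
  rw [T.volume_split T.E (fun a => (T.isOpen_E a).measurableSet)
      (fun a b hab => disjoint_left.2 fun z h1 h2 => hab (T.E_unique h1 h2))
      (fun z hz => mem_iUnion.2 ⟨_, (G_L0 hz).1⟩) _ (T.measurable_sig hB),
    T.volume_split T.N (fun a => (T.isOpen_N a).measurableSet)
      (fun a b hab => disjoint_left.2 fun z h1 h2 => hab (T.N_unique h1 h2))
      (fun z hz => mem_iUnion.2 ⟨_, (G_L0 hz).2⟩) _ hB]
  congr 1
  · congr 1
    ext z
    simp only [mem_sdiff, mem_preimage]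
    constructor
    · rintro ⟨h1, h2⟩; rw [sig_of_not h2] at h1; exact ⟨h1, h2⟩
    · rintro ⟨h1, h2⟩; rw [sig_of_not h2]; exact ⟨h1, h2⟩
  · congr 1
    funext a
    rw [← (T.mp_refl a).measure_preimage
      ((hB.inter T.measurableSet_G).inter (T.isOpen_N a).measurableSet).nullMeasurableSet]
    congr 1
    ext z
    simp only [mem_inter_iff, mem_preimage]
    constructor
    · rintro ⟨⟨h1, h2⟩, h3⟩
      rw [sig_eq_refl h3 h2] at h1
      exact ⟨⟨h1, (refl_mem_G_iff h3).2 h2⟩, T.refl_mem_N h3⟩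
    · rintro ⟨⟨h1, h2⟩, h3⟩
      have h4 : z ∈ T.E a := by simpa [refl_refl] using T.refl_mem_E h3
      have h5 := (refl_mem_G_iff h4).1 h2
      rw [sig_eq_refl h4 h5]
      exact ⟨⟨h1, h5⟩, h4⟩

lemma mp_siginv : MeasurePreserving (⇑(T.sig⁻¹)) volume volume := by
  refine ⟨T.measurable_siginv, ?_⟩
  conv_lhs => rw [← T.mp_sig.map_eq]
  rw [Measure.map_map T.measurable_siginv T.measurable_sig]
  have : (⇑(T.sig⁻¹) ∘ ⇑T.sig) = id := by funext z; simp
  rw [this, Measure.map_id]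

lemma mp_zpow (n : ℤ) : MeasurePreserving (⇑(T.sig ^ n)) volume volume :=
  zpow_ind (T := T) (fun f => MeasurePreserving f volume volume) (MeasurePreserving.id _)
    (fun _ h => T.mp_sig.comp h) (fun _ h => T.mp_siginv.comp h) n

/-- composition of a word of reflections -/
def word : List (Fin 3) → ZZ → ZZ
  | [] => id
  | a :: l => T.refl a ∘ word l

lemma mp_word (l : List (Fin 3)) : MeasurePreserving (T.word l) volume volume := by
  induction l with
  | nil => exact MeasurePreserving.id _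
  | cons a l ih => exact (T.mp_refl a).comp ih

lemma L0_of_L {z : ZZ} (hz : z ∈ T.L) (h0 : ∀ c, T.h c z ≠ 0) : z ∈ T.L0 := by
  obtain ⟨a, b, ha, hb⟩ := hz
  rw [L0_eq]
  have k := f21 a
  have k1 := f11 a
  rcases f3 a b with rfl | rfl | rfl
  · linarith
  · refine ⟨mem_iUnion.2 ⟨a, ha, hb⟩, ?_⟩
    rcases (h0 (a + 2)).lt_or_gt with h | h
    · exact mem_iUnion.2 ⟨a + 1, by rw [k1]; exact h, hb⟩
    · exact mem_iUnion.2 ⟨a + 2, by rw [k]; exact ha, h⟩
  · refine ⟨?_, mem_iUnion.2 ⟨a + 2, by rw [k]; exact ha, hb⟩⟩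
    rcases (h0 (a + 1)).lt_or_gt with h | h
    · exact mem_iUnion.2 ⟨a + 1, h, by rw [k1]; exact hb⟩
    · exact mem_iUnion.2 ⟨a, ha, h⟩

lemma volume_L_diff_G : volume (T.L \ T.G) = 0 := by
  have hnull : volume (⋃ l : List (Fin 3), ⋃ c, T.word l ⁻¹' {z | T.h c z = 0}) = 0 := by
    refine measure_iUnion_null fun l => measure_iUnion_null fun c => ?_
    rw [(T.mp_word l).measure_preimage
      (isClosed_eq (T.continuous_h c) continuous_const).measurableSet.nullMeasurableSet]
    exact T.volume_h_zero c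
  refine measure_mono_null ?_ hnull
  rintro z ⟨hz, hG⟩
  by_contra hc
  simp only [mem_iUnion, mem_preimage, mem_ofPred_eq, not_exists] at hc
  apply hG
  have h1 : ∀ n : ℕ, (∃ l, T.S^[n] z = T.word l z) ∧ T.S^[n] z ∈ T.L0 := by
    intro n
    induction n with
    | zero => exact ⟨⟨[], rfl⟩, T.L0_of_L hz (hc [])⟩
    | succ n ih =>
      obtain ⟨⟨l, hl⟩, h2⟩ := ih
      have e : T.S^[n + 1] z = T.word (T.ex (T.S^[n] z) :: l) z := by
        rw [Function.iterate_succ_apply', S]; simp only [word, Function.comp]; rw [← hl]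
      refine ⟨⟨_, e⟩, T.L0_of_L ?_ (by rw [e]; exact hc _)⟩
      rw [Function.iterate_succ_apply', S]
      have := T.refl_mem_N h2.1
      exact ⟨_, _, this.1, this.2⟩
  have h2 : ∀ n : ℕ, (∃ l, T.S'^[n] z = T.word l z) ∧ T.S'^[n] z ∈ T.L0 := by
    intro n
    induction n with
    | zero => exact ⟨⟨[], rfl⟩, T.L0_of_L hz (hc [])⟩
    | succ n ih =>
      obtain ⟨⟨l, hl⟩, h2⟩ := ih
      have e : T.S'^[n + 1] z = T.word (T.en (T.S'^[n] z) :: l) z := by
        rw [Function.iterate_succ_apply', S']; simp only [word, Function.comp]; rw [← hl]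
      refine ⟨⟨_, e⟩, T.L0_of_L ?_ (by rw [e]; exact hc _)⟩
      rw [Function.iterate_succ_apply', S']
      have := T.refl_mem_E h2.2
      exact ⟨_, _, this.1, this.2⟩
  exact fun n => ⟨(h1 n).2, (h2 n).2⟩

lemma ae_G_or : ∀ᵐ z : ZZ, z ∈ T.G ∨ z ∉ T.L := by
  have := T.volume_L_diff_G
  rw [ae_iff]
  convert this using 2
  ext z; simp [and_comm]

lemma mem_L_of_Q {z : ZZ} (hz : z.2 ∈ T.Q) (h0 : ∀ c, T.h c z ≠ 0) : z ∈ T.L := by
  have hb := T.bary_h 0 z
  have q0 := hz 0
  have q1 := hz (0 + 1)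
  have q2 := hz (0 + 2)
  by_contra hc
  simp only [L, mem_ofPred_eq, not_exists, not_and, not_lt] at hc
  rcases (h0 0).lt_or_gt with h | h
  · have a1 := hc 0 (0 + 1) h
    have a2 := hc 0 (0 + 2) h
    nlinarith [mul_nonneg q0.le (neg_nonneg.2 a2), mul_nonneg q2.le (neg_nonneg.2 a1),
      mul_pos q1 (neg_pos.2 h)]
  · have a1 : 0 ≤ T.h (0 + 1) z := by
      by_contra k; push Not at k; linarith [hc _ 0 k]
    have a2 : 0 ≤ T.h (0 + 2) z := by
      by_contra k; push Not at k; linarith [hc _ 0 k]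
    nlinarith [mul_nonneg q0.le a2, mul_nonneg q2.le a1, mul_pos q1 h]

lemma ae_G_of_Q : ∀ᵐ z : ZZ, z.2 ∈ T.Q → z ∈ T.G := by
  have h1 : ∀ᵐ z : ZZ, ∀ c, T.h c z ≠ 0 := by
    rw [ae_all_iff]
    intro c
    rw [ae_iff]
    simpa using T.volume_h_zero c
  filter_upwards [h1, T.ae_G_or] with z h0 h2 hz
  exact h2.resolve_right (not_not.2 (T.mem_L_of_Q hz h0))

end Tri

end

end Vale.Agent.P099
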