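import Vale.Agent.P099.Dyn

/-!
The chords of an orbit tile the time line; the fundamental domain and the folding map.
-/

open MeasureTheory Set Filter Topology

namespace Vale.Agent.P099

noncomputable section

lemma no_pos_concave (y : ℕ → ℝ) (κ : ℝ) (hκ : κ < 1) (hpos : ∀ j, 0 < y j)
    (hrec : ∀ j, y (j + 2) + y j = 2 * κ * y (j + 1)) : False := by
  have hdec : ∀ j, y (j + 2) - y (j + 1) ≤ y (j + 1) - y j := by
    intro j; have := hrec j; have := hpos (j + 1); nlinarith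
  have hneg : ∀ j, 0 ≤ y (j + 1) - y j := by
    intro j
    by_contra hc
    push Not at hc
    have h1 : ∀ m : ℕ, y (j + m + 1) - y (j + m) ≤ y (j + 1) - y j := by
      intro m
      induction m with
      | zero => simp
      | succ m ih => have := hdec (j + m); exact le_trans this ih
    have h2 : ∀ m : ℕ, y (j + m) ≤ y j + m * (y (j + 1) - y j) := by
      intro m
      induction m with
      | zero => simp
      | succ m ih => have := h1 m; push_cast; rw [← add_assoc]; linarith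
    obtain ⟨m, hm⟩ := exists_nat_gt (y j / (y j - y (j + 1)))
    have h3 := h2 m
    have h4 := hpos (j + m)
    rw [div_lt_iff₀ (by linarith)] at hm
    nlinarith
  have hmono : ∀ j, y 0 ≤ y j := by
    intro j
    induction j with
    | zero => exact le_rfl
    | succ j ih => linarith [hneg j]
  have h1 : ∀ j : ℕ, y (j + 1) - y j ≤ y 1 - y 0 - j * (2 * (1 - κ) * y 0) := by
    intro j
    induction j with
    | zero => simp
    | succ j ih =>
      have := hrec j
      have h2 := hmono (j + 1)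
      push_cast
      nlinarith
  have hc : 0 < 2 * (1 - κ) * y 0 := by have := hpos 0; have : 0 < 1 - κ := by linarith
                                        positivity
  obtain ⟨m, hm⟩ := exists_nat_gt ((y 1 - y 0) / (2 * (1 - κ) * y 0))
  rw [div_lt_iff₀ hc] at hm
  linarith [h1 m, hneg m]

namespace Tri

variable (T : Tri)

lemma cr_w (a : Fin 3) (v : ℂ) : cr v (T.w a) = ‖T.w a‖ * cr v (T.s a) := by
  conv_lhs => rw [T.w_eq a]
  simp only [cr, Complex.mul_re, Complex.mul_im, Complex.ofReal_re, Complex.ofReal_im]; ring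

lemma cr_ww (a : Fin 3) : cr (T.w a) (T.w (a + 1)) = T.o := by
  rw [T.o_eq a]
  simp only [w, f11, cr, Complex.sub_re, Complex.sub_im]; ring

lemma dt_s_lt (a : Fin 3) : -dt (T.s a) (T.s (a + 1)) < 1 := by
  have h1 := T.s_sq a
  have h2 := T.s_sq (a + 1)
  have h3 : cr (T.s a) (T.s (a + 1)) ≠ 0 := by
    intro h
    have := T.cr_ww a
    rw [T.cr_w, T.w_eq a] at this
    have h4 : cr (((‖T.w a‖ : ℝ) : ℂ) * T.s a) (T.s (a + 1)) = ‖T.w a‖ * cr (T.s a) (T.s (a + 1)) := by
      simp only [cr, Complex.mul_re, Complex.mul_im, Complex.ofReal_re, Complex.ofReal_im]; ring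
    rw [h4, h] at this
    have := T.o_pos
    linarith
  have h4 : dt (T.s a) (T.s (a + 1)) ^ 2 + cr (T.s a) (T.s (a + 1)) ^ 2 = 1 := by
    simp only [dt, cr]
    linear_combination ((T.s (a + 1)).re ^ 2 + (T.s (a + 1)).im ^ 2) * h1 + h2
  have h5 : 0 < cr (T.s a) (T.s (a + 1)) ^ 2 := by positivity
  nlinarith

lemma rp_fix {a : Fin 3} {x : ℂ} (hx : T.ell a x = 0) : T.rp a x = x := by
  have h1 := T.s_sq a
  have h2 : cr (T.s a) (x - T.P a) = 0 := by
    unfold ell at hx
    rw [T.w_eq a] at hx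
    have h4 : cr (((‖T.w a‖ : ℝ) : ℂ) * T.s a) (x - T.P a) = ‖T.w a‖ * cr (T.s a) (x - T.P a) := by
      simp only [cr, Complex.mul_re, Complex.mul_im, Complex.ofReal_re, Complex.ofReal_im]; ring
    rw [h4] at hx
    exact (mul_eq_zero.1 hx).resolve_left (T.nw_pos a).ne'
  unfold rp
  simp only [cr, Complex.sub_re, Complex.sub_im] at h2
  apply Complex.ext
  · simp only [pow_two, Complex.add_re, Complex.mul_re, Complex.mul_im, Complex.conj_re,
      Complex.conj_im, Complex.sub_re, Complex.sub_im]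
    linear_combination (x.re - (T.P a).re) * h1 + 2 * (T.s a).im * h2
  · simp only [pow_two, Complex.add_im, Complex.mul_re, Complex.mul_im, Complex.conj_re,
      Complex.conj_im, Complex.sub_re, Complex.sub_im]
    linear_combination (x.im - (T.P a).im) * h1 - 2 * (T.s a).re * h2

lemma no_accum (q : ℕ → ℂ) (a : ℕ → Fin 3) (v : ℕ → ℂ) (len : ℕ → ℝ)
    (h0 : ∀ n, T.ell (a n) (q n) = 0) (hstep : ∀ n, dist (q n) (q (n + 1)) ≤ len n)
    (hrefl : ∀ n, v (n + 1) = T.s (a n) ^ 2 * (starRingEnd ℂ) (v n))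
    (hout : ∀ n, 0 < cr (v n) (T.w (a n))) : ¬ Summable len := by
  intro hs
  have hc : CauchySeq q := cauchySeq_of_dist_le_of_summable len hstep hs
  obtain ⟨x, hx⟩ := cauchySeq_tendsto_of_complete hc
  have hc : ∃ c, 0 < T.ell c x := by
    by_contra hh
    push Not at hh
    have := T.ell_sum 0 x
    linarith [hh 0, hh (0 + 1), hh (0 + 2), T.o_pos]
  obtain ⟨c, hc⟩ := hc
  have hev : ∀ᶠ n in atTop, 0 < T.ell c (q n) :=
    ((T.continuous_ell c).tendsto x |>.comp hx).eventually (lt_mem_nhds hc)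
  obtain ⟨n0, hn0⟩ := eventually_atTop.1 hev
  have hpos : ∀ n, 0 < cr (v n) (T.s (a n)) := by
    intro n
    have := hout n
    rw [T.cr_w] at this
    exact (pos_iff_pos_of_mul_pos this).1 (T.nw_pos _)
  have hne : ∀ n, a (n + 1) ≠ a n := by
    intro n h
    have h1 := hpos (n + 1)
    rw [h, hrefl n] at h1
    have h2 := T.cr_refl (a n) (v n) (T.s (a n))
    have h3 : T.s (a n) ^ 2 * (starRingEnd ℂ) (T.s (a n)) = T.s (a n) := by
      linear_combination T.s (a n) * T.s_mul_conj (a n)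
    rw [h3] at h2
    linarith [hpos n]
  have hac : ∀ n, n0 ≤ n → a n = c + 1 ∨ a n = c + 2 := by
    intro n hn
    rcases f3 c (a n) with h | h | h
    · have := hn0 n hn
      rw [← h, h0] at this
      exact absurd this (lt_irrefl _)
    · exact Or.inl h
    · exact Or.inr h
  refine no_pos_concave (fun j => cr (v (n0 + j)) (T.s (a (n0 + j))))
    (-dt (T.s (c + 1)) (T.s (c + 2))) (by have := T.dt_s_lt (c + 1); rwa [f11] at this)
    (fun j => hpos _) ?_
  intro j
  have e1 := hac (n0 + j) (by omega)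
  have e2 := hac (n0 + j + 1) (by omega)
  have e3 := hac (n0 + j + 1 + 1) (by omega)
  have n1 := hne (n0 + j)
  have n2 := hne (n0 + j + 1)
  have e4 : a (n0 + j + 1 + 1) = a (n0 + j) := by
    rcases e1 with e1 | e1 <;> rcases e2 with e2 | e2 <;> rcases e3 with e3 | e3 <;>
      simp_all
  have e5 : dt (T.s (c + 1)) (T.s (c + 2)) = dt (T.s (a (n0 + j))) (T.s (a (n0 + j + 1))) := by
    rcases e1 with e1 | e1 <;> rcases e2 with e2 | e2
    · exact absurd (e2.trans e1.symm) n1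
    · rw [e1, e2]
    · rw [e1, e2]; simp only [dt]; ring
    · exact absurd (e2.trans e1.symm) n1
  show cr (v (n0 + j + 1 + 1)) (T.s (a (n0 + j + 1 + 1))) + cr (v (n0 + j)) (T.s (a (n0 + j)))
    = 2 * -dt (T.s (c + 1)) (T.s (c + 2)) * cr (v (n0 + j + 1)) (T.s (a (n0 + j + 1)))
  rw [e4, e5, hrefl (n0 + j + 1)]
  have e6 : v (n0 + j) = T.s (a (n0 + j)) ^ 2 * (starRingEnd ℂ) (v (n0 + j + 1)) := by
    rw [hrefl (n0 + j)]
    simp only [map_mul, map_pow, Complex.conj_conj]
    have := T.s_mul_conj (a (n0 + j))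
    linear_combination (-(v (n0 + j)) * (T.s (a (n0 + j)) * (starRingEnd ℂ) (T.s (a (n0 + j))) + 1)) * this
  rw [e6]
  generalize v (n0 + j + 1) = u
  have h1 := T.s_sq (a (n0 + j))
  have h2 := T.s_sq (a (n0 + j + 1))
  generalize T.s (a (n0 + j)) = A at *
  generalize T.s (a (n0 + j + 1)) = B at *
  simp only [cr, dt, pow_two, Complex.mul_re, Complex.mul_im, Complex.conj_re, Complex.conj_im]
  linear_combination (u.im * A.re - u.re * A.im) * h1 - (u.im * A.re - u.re * A.im) * h2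

def Tx (z : ZZ) : ℝ := T.Tc (T.ex z) z
def Tn (z : ZZ) : ℝ := T.Tc (T.en z) z
def tt (n : ℤ) (z : ZZ) : ℝ := T.Tx ((T.sig ^ n) z)
def Dp : Set ZZ := {z | z ∈ T.G ∧ T.Tn z ≤ 0 ∧ 0 < T.Tx z}

lemma measurable_Tx : Measurable T.Tx := measurable_sel T.measurable_Tc T.measurable_ex
lemma measurable_Tn : Measurable T.Tn := measurable_sel T.measurable_Tc T.measurable_en
lemma measurableSet_Dp : MeasurableSet T.Dp :=
  T.measurableSet_G.inter ((measurableSet_le T.measurable_Tn measurable_const).inter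
    (measurableSet_lt measurable_const T.measurable_Tx))

variable {T}

lemma Tn_lt_Tx {z : ZZ} (hz : z ∈ T.G) : T.Tn z < T.Tx z := T.Tc_lt (G_L0 hz).1 (G_L0 hz).2

lemma Tn_sig {z : ZZ} (hz : z ∈ T.G) : T.Tn (T.sig z) = T.Tx z := by
  have h1 := (G_L0 hz).1
  rw [sig_eq_refl h1 hz, Tn, en_eq (T.refl_mem_N h1), Tc_refl, Tx]

lemma Tn_zpow {z : ZZ} (hz : z ∈ T.G) (n : ℤ) : T.Tn ((T.sig ^ n) z) = T.tt (n - 1) z := by
  have : (T.sig ^ n) z = T.sig ((T.sig ^ (n - 1)) z) := by rw [← zpow_succ']; simp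
  rw [this, Tn_sig ((zpow_mem_G _).2 hz), tt]

lemma tt_strictMono {z : ZZ} (hz : z ∈ T.G) : StrictMono (fun n => T.tt n z) := by
  apply strictMono_int_of_lt_succ
  intro n
  have := Tn_lt_Tx ((zpow_mem_G (n + 1)).2 hz)
  rw [Tn_zpow hz] at this
  simpa [tt] using this

lemma Tx_sh (t : ℝ) {z : ZZ} (hz : z ∈ T.G) : T.Tx (sh t z) = T.Tx z - t := by
  rw [Tx, ex_sh, T.Tc_sh _ _ _ (T.ne_of_E (G_L0 hz).1), Tx]
lemma Tn_sh (t : ℝ) {z : ZZ} (hz : z ∈ T.G) : T.Tn (sh t z) = T.Tn z - t := by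
  rw [Tn, en_sh, T.Tc_sh _ _ _ (T.ne_of_N (G_L0 hz).2), Tn]
lemma tt_sh (n : ℤ) (t : ℝ) {z : ZZ} (hz : z ∈ T.G) : T.tt n (sh t z) = T.tt n z - t := by
  rw [tt, zpow_sh, Tx_sh t ((zpow_mem_G n).2 hz), tt]

lemma zpow_mem_Dp {z : ZZ} (hz : z ∈ T.G) (n : ℤ) :
    (T.sig ^ n) z ∈ T.Dp ↔ T.tt (n - 1) z ≤ 0 ∧ 0 < T.tt n z := by
  simp only [Dp, mem_ofPred_eq, zpow_mem_G, hz, true_and, Tn_zpow hz]
  rfl

/-- the exit point of a line is the entry point of its reflection -/
lemma exit_eq_entry {z : ZZ} (hz : z ∈ T.G) :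
    (sh (T.Tx z) (T.sig z)).2 = (sh (T.Tx z) z).2 := by
  have h1 := (G_L0 hz).1
  rw [← sig_sh, sig_eq_refl ((T.sh_mem_E _ _ _).2 h1) ((sh_mem_G _ _).2 hz)]
  exact T.rp_fix (T.ell_at_Tc (Or.inl h1))

lemma h_sub (T : Tri) (a : Fin 3) (z : ZZ) : T.h (a + 1) z - T.h a z = cr (ee z.1) (T.w a) := by
  simp only [Tri.h, w, cr, Complex.sub_re, Complex.sub_im]; ring

lemma dist_sh (s t : ℝ) (z : ZZ) : dist (sh s z).2 (sh t z).2 = |s - t| := by
  simp only [sh, dist_eq_norm, add_sub_add_left_eq_sub, ← mul_sub, norm_mul, norm_ee, one_mul]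
  rw [← Complex.ofReal_sub, Complex.norm_real, Real.norm_eq_abs]

lemma exists_tt_pos {z : ZZ} (hz : z ∈ T.G) : ∃ n : ℤ, 0 < T.tt n z := by
  by_contra hc
  push Not at hc
  have hG : ∀ n : ℕ, (T.sig ^ (n : ℤ)) z ∈ T.G := fun n => (zpow_mem_G _).2 hz
  have hm := tt_strictMono hz
  refine T.no_accum (fun n => (sh (T.tt n z) ((T.sig ^ (n : ℤ)) z)).2)
    (fun n => T.ex ((T.sig ^ (n : ℤ)) z)) (fun n => ee ((T.sig ^ (n : ℤ)) z).1)
    (fun n => T.tt (n + 1) z - T.tt n z) ?_ ?_ ?_ ?_ ?_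
  · intro n; exact T.ell_at_Tc (Or.inl (G_L0 (hG n)).1)
  · intro n
    have := exit_eq_entry (hG n)
    simp only [tt] at this ⊢
    rw [← this]
    push_cast
    rw [zpow_succ', dist_sh, abs_sub_comm, abs_of_nonneg]
    have := hm (show (n : ℤ) < n + 1 by omega)
    simp only [tt, zpow_succ'] at this
    linarith
  · intro n
    push_cast
    rw [zpow_succ', sig_of_mem (hG n), S]
    exact T.ee_rt _ _
  · intro n
    have := (G_L0 (hG n)).1
    rw [← T.h_sub]
    linarith [this.1, this.2]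
  · apply summable_of_sum_range_le (c := - T.tt 0 z)
    · intro n; linarith [hm (show (n : ℤ) < n + 1 by omega)]
    · intro n
      have := Finset.sum_range_sub (fun k : ℕ => T.tt k z) n
      push_cast at this
      rw [this]
      linarith [hc n]

lemma exists_tt_nonpos {z : ZZ} (hz : z ∈ T.G) : ∃ n : ℤ, T.tt n z ≤ 0 := by
  by_contra hc
  push Not at hc
  have hG : ∀ n : ℤ, (T.sig ^ n) z ∈ T.G := fun n => (zpow_mem_G _).2 hz
  have hm := tt_strictMono hz
  refine T.no_accum (fun n => (sh (T.tt (-n - 1) z) ((T.sig ^ (-n : ℤ)) z)).2)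
    (fun n => T.en ((T.sig ^ (-n : ℤ)) z)) (fun n => - ee ((T.sig ^ (-n : ℤ)) z).1)
    (fun n => T.tt (-n - 1) z - T.tt (-(n + 1) - 1) z) ?_ ?_ ?_ ?_ ?_
  · intro n
    rw [← Tn_zpow hz]
    exact T.ell_at_Tc (Or.inr (G_L0 (hG _)).2)
  · intro n
    have := exit_eq_entry (hG (-n - 1))
    rw [← zpow_succ', sub_add_cancel] at this
    simp only [tt] at this ⊢
    rw [this]
    push_cast
    rw [show (-((n : ℤ) + 1)) = -n - 1 by ring, dist_sh, abs_of_nonneg]
    have := hm (show (-n - 1 - 1 : ℤ) < -n - 1 by omega)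
    simp only [tt] at this
    linarith
  · intro n
    push_cast
    rw [show (-((n : ℤ) + 1)) = -n - 1 by ring, zpow_pred', siginv_of_mem (hG _), S']
    show - ee (T.rt _ _) = _
    rw [T.ee_rt]; simp
  · intro n
    have := (G_L0 (hG (-n))).2
    have h2 := T.h_sub (T.en ((T.sig ^ (-n : ℤ)) z)) ((T.sig ^ (-n : ℤ)) z)
    have h3 : ∀ u v : ℂ, cr (-u) v = - cr u v := by intro u v; simp [cr]; ring
    rw [h3, ← h2]
    linarith [this.1, this.2]
  · apply summable_of_sum_range_le (c := T.tt (-1) z)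
    · intro n; linarith [hm (show (-(n + 1) - 1 : ℤ) < -n - 1 by omega)]
    · intro n
      have := Finset.sum_range_sub' (fun k : ℕ => T.tt (-k - 1) z) n
      push_cast at this
      rw [this]
      linarith [hc (-n - 1)]

lemma exists_mem_Dp {z : ZZ} (hz : z ∈ T.G) : ∃ n : ℤ, (T.sig ^ n) z ∈ T.Dp := by
  obtain ⟨m, hm⟩ := exists_tt_nonpos hz
  obtain ⟨n, hn, hmin⟩ := Int.exists_least_of_bdd (P := fun n => 0 < T.tt n z)
    ⟨m, fun k hk => by
      by_contra hc; push Not at hc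
      linarith [tt_strictMono hz hc]⟩ (exists_tt_pos hz)
  refine ⟨n, (zpow_mem_Dp hz n).2 ⟨?_, hn⟩⟩
  by_contra hc
  push Not at hc
  have := hmin _ hc
  omega

lemma Dp_unique {z : ZZ} {m n : ℤ} (hm : (T.sig ^ m) z ∈ T.Dp) (hn : (T.sig ^ n) z ∈ T.Dp) :
    m = n := by
  have hz : z ∈ T.G := (zpow_mem_G m).1 hm.1
  rw [zpow_mem_Dp hz] at hm hn
  have hmono := (tt_strictMono hz).monotone
  by_contra hc
  rcases lt_or_gt_of_ne hc with h | h
  · linarith [hmono (show m ≤ n - 1 by omega), hm.2, hn.1]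
  · linarith [hmono (show n ≤ m - 1 by omega), hn.2, hm.1]

variable (T)

open Classical in
def idx (z : ZZ) : ℤ := if h : ∃ n : ℤ, (T.sig ^ n) z ∈ T.Dp then h.choose else 0
def fold (z : ZZ) : ZZ := (T.sig ^ T.idx z) z

variable {T}

lemma idx_eq {z : ZZ} {n : ℤ} (hn : (T.sig ^ n) z ∈ T.Dp) : T.idx z = n := by
  have h : ∃ n : ℤ, (T.sig ^ n) z ∈ T.Dp := ⟨n, hn⟩
  rw [idx, dif_pos h]
  exact Dp_unique h.choose_spec hn

lemma fold_eq {z : ZZ} {n : ℤ} (hn : (T.sig ^ n) z ∈ T.Dp) : T.fold z = (T.sig ^ n) z := by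
  rw [fold, idx_eq hn]

lemma fold_mem {z : ZZ} (hz : z ∈ T.G) : T.fold z ∈ T.Dp := by
  obtain ⟨n, hn⟩ := exists_mem_Dp hz
  rw [fold_eq hn]; exact hn

lemma fold_of_mem {z : ZZ} (hz : z ∈ T.Dp) : T.fold z = z := by
  have := fold_eq (n := 0) (by simpa using hz)
  simpa using this

lemma fold_zpow (n : ℤ) (z : ZZ) : T.fold ((T.sig ^ n) z) = T.fold z := by
  by_cases hz : z ∈ T.G
  · obtain ⟨m, hm⟩ := exists_mem_Dp hz
    have : (T.sig ^ m) z = (T.sig ^ (m - n)) ((T.sig ^ n) z) := by rw [← zpow_add']; simp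
    rw [fold_eq hm, this, fold_eq (this ▸ hm)]
  · rw [zpow_of_not n hz]

lemma fold_mem_G {z : ZZ} : T.fold z ∈ T.G ↔ z ∈ T.G := zpow_mem_G _

lemma fold_sh_fold (t : ℝ) (z : ZZ) : T.fold (sh t (T.fold z)) = T.fold (sh t z) := by
  have : sh t (T.fold z) = (T.sig ^ T.idx z) (sh t z) := by rw [zpow_sh]; rfl
  rw [this, fold_zpow]

variable (T)

lemma measurable_idx : Measurable T.idx := by
  apply measurable_to_countable'
  intro n
  by_cases hn : n = 0
  · subst hn
    have : T.idx ⁻¹' {0} = T.Dp ∪ T.Gᶜ := by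
      ext z
      simp only [mem_preimage, mem_singleton_iff, mem_union, mem_compl_iff]
      constructor
      · intro h
        by_cases hz : z ∈ T.G
        · left
          have := fold_mem hz
          rwa [fold, h] at this
        · exact Or.inr hz
      · rintro (h | h)
        · exact idx_eq (by simpa using h)
        · rw [idx, dif_neg]
          rintro ⟨n, hn⟩
          exact h ((zpow_mem_G n).1 hn.1)
    rw [this]
    exact T.measurableSet_Dp.union T.measurableSet_G.compl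
  · have : T.idx ⁻¹' {n} = (T.sig ^ n) ⁻¹' T.Dp := by
      ext z
      simp only [mem_preimage, mem_singleton_iff]
      constructor
      · intro h
        by_cases hz : z ∈ T.G
        · have := fold_mem hz
          rwa [fold, h] at this
        · exfalso
          apply hn
          rw [← h, idx, dif_neg]
          rintro ⟨n, hn⟩
          exact hz ((zpow_mem_G n).1 hn.1)
      · exact idx_eq
    rw [this]
    exact T.measurable_zpow n T.measurableSet_Dp

lemma measurable_fold : Measurable T.fold :=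
  measurable_sel (f := fun n : ℤ => ⇑(T.sig ^ n)) T.measurable_zpow T.measurable_idx

/-- decomposition of a subset of `G` along a fundamental domain -/
lemma volume_eq_tsum (D1 : Set ZZ) (hD : MeasurableSet D1)
    (hex : ∀ z ∈ T.G, ∃ n : ℤ, (T.sig ^ n) z ∈ D1)
    (hun : ∀ z (m n : ℤ), (T.sig ^ m) z ∈ D1 → (T.sig ^ n) z ∈ D1 → m = n)
    (B : Set ZZ) (hB : MeasurableSet B) (hBG : B ⊆ T.G) :
    volume B = ∑' n : ℤ, volume (B ∩ (T.sig ^ n) ⁻¹' D1) := by
  rw [← measure_iUnion]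
  · congr 1
    rw [← inter_iUnion]
    refine (inter_eq_left.2 fun z hz => ?_).symm
    obtain ⟨n, hn⟩ := hex z (hBG hz)
    exact mem_iUnion.2 ⟨n, hn⟩
  · intro m n hmn
    exact disjoint_left.2 fun z h1 h2 => hmn (hun z m n h1.2 h2.2)
  · intro n; exact hB.inter (T.measurable_zpow n hD)

lemma mp_flow (t : ℝ) : MeasurePreserving (fun z => T.fold (sh t z))
    (volume.restrict T.Dp) (volume.restrict T.Dp) := by
  have hm : Measurable (fun z => T.fold (sh t z)) := T.measurable_fold.comp (measurable_sh t)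
  refine ⟨hm, ?_⟩
  ext B hB
  rw [Measure.map_apply hm hB, Measure.restrict_apply (hm hB), Measure.restrict_apply hB]
  have hD := T.measurableSet_Dp
  have hD1 : MeasurableSet (sh (-t : ℝ) ⁻¹' T.Dp) := measurable_sh _ hD
  have hBf : MeasurableSet (T.fold ⁻¹' B) := T.measurable_fold hB
  have e1 : volume ((fun z => T.fold (sh t z)) ⁻¹' B ∩ T.Dp)
      = volume (T.fold ⁻¹' B ∩ sh (-t : ℝ) ⁻¹' T.Dp) := by
    rw [← (mp_sh t).measure_preimage (hBf.inter hD1).nullMeasurableSet]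
    congr 1
    ext z
    simp [sh_add, sh_zero]
  rw [e1, T.volume_eq_tsum T.Dp hD (fun z hz => exists_mem_Dp hz) (fun z m n => Dp_unique) _
    (hBf.inter hD1) (fun z hz => (sh_mem_G _ _).1 hz.2.1),
    T.volume_eq_tsum (sh (-t : ℝ) ⁻¹' T.Dp) hD1 ?_ ?_ _ (hB.inter hD) (fun z hz => hz.2.1),
    ← (Equiv.neg ℤ).tsum_eq]
  · congr 1
    funext n
    rw [← (T.mp_zpow n).measure_preimage
      (((hBf.inter hD1).inter (T.measurable_zpow _ hD))).nullMeasurableSet]
    congr 1
    ext z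
    simp only [Equiv.neg_apply, mem_preimage, mem_inter_iff, ← zpow_add', neg_add_cancel,
      zpow_zero, Equiv.Perm.coe_one, id, fold_zpow]
    constructor
    · rintro ⟨⟨h1, h2⟩, h3⟩
      rw [fold_of_mem h3] at h1
      exact ⟨⟨h1, h3⟩, h2⟩
    · rintro ⟨⟨h1, h3⟩, h2⟩
      rw [fold_of_mem h3]
      exact ⟨⟨h1, h2⟩, h3⟩
  · intro z hz
    obtain ⟨n, hn⟩ := exists_mem_Dp ((sh_mem_G (-t) z).2 hz)
    exact ⟨n, by rwa [zpow_sh] at hn⟩
  · intro z m n h1 h2
    simp only [mem_preimage, ← zpow_sh] at h1 h2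
    exact Dp_unique h1 h2

lemma Dp_sub_K {z : ZZ} (hz : z ∈ T.Dp) : z.2 ∈ T.K := by
  have := (T.mem_K_iff (G_L0 hz.1).1 (G_L0 hz.1).2 0).2 ⟨hz.2.1, hz.2.2.le⟩
  simpa [sh_zero] using this

lemma mem_Dp_of_Q {z : ZZ} (hz : z ∈ T.G) (hQ : z.2 ∈ T.Q) : z ∈ T.Dp := by
  have := (T.mem_Q_iff (G_L0 hz).1 (G_L0 hz).2).1 hQ
  exact ⟨hz, this.1.le, this.2⟩

lemma volume_ell_zero (c : Fin 3) : volume {x : ℂ | T.ell c x = 0} = 0 := by
  have h1 := measurePreserving_sub_right (volume : Measure ℂ) (T.P c)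
  have h2 := mp_mul ((starRingEnd ℂ) (T.s c)) (by rw [Complex.norm_conj, s, norm_ee])
  have h4 := h2.comp h1
  have hm2 : MeasurableSet {u : ℂ | u.re ∈ (univ : Set ℝ) ∧ u.im ∈ ({0} : Set ℝ)} :=
    (Complex.measurable_re MeasurableSet.univ).inter (Complex.measurable_im (measurableSet_singleton 0))
  have h5 := h4.measure_preimage hm2.nullMeasurableSet
  rw [volume_rect _ _ MeasurableSet.univ (measurableSet_singleton 0)] at h5
  simp only [Real.volume_singleton, mul_zero] at h5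
  refine measure_mono_null ?_ h5
  intro x hx
  simp only [mem_ofPred_eq, ell] at hx
  rw [T.w_eq c] at hx
  have h6 : cr (((‖T.w c‖ : ℝ) : ℂ) * T.s c) (x - T.P c) = ‖T.w c‖ * cr (T.s c) (x - T.P c) := by
    simp only [cr, Complex.mul_re, Complex.mul_im, Complex.ofReal_re, Complex.ofReal_im]; ring
  rw [h6] at hx
  have h7 := (mul_eq_zero.1 hx).resolve_left (T.nw_pos c).ne'
  simp only [mem_preimage, Function.comp, mem_ofPred_eq, mem_univ, true_and, mem_singleton_iff]
  rw [← h7]; simp [cr]; ring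

lemma Dp_ae_eq : T.Dp =ᵐ[volume] (univ ×ˢ T.Q : Set ZZ) := by
  have h1 : ∀ᵐ z : ZZ, ∀ c, T.ell c z.2 ≠ 0 := by
    rw [ae_all_iff]
    intro c
    have : ∀ᵐ x : ℂ, T.ell c x ≠ 0 := by
      rw [ae_iff]; simpa using T.volume_ell_zero c
    exact (Measure.quasiMeasurePreserving_snd (μ := (volume : Measure TT))
      (ν := (volume : Measure ℂ))).ae this
  filter_upwards [h1, T.ae_G_of_Q] with z h0 h2
  apply propext
  constructor
  · intro hz
    exact ⟨mem_univ _, fun c => lt_of_le_of_ne (T.Dp_sub_K hz c) (h0 c).symm⟩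
  · intro hz
    exact T.mem_Dp_of_Q (h2 hz.2) hz.2

/-- Lebesgue measure on the fundamental domain is the product measure on directions and table. -/
lemma restrict_Dp : (volume : Measure ZZ).restrict T.Dp
    = (volume : Measure TT).prod (volume.restrict T.Q) := by
  rw [Measure.restrict_congr_set T.Dp_ae_eq, Measure.volume_eq_prod, ← Measure.prod_restrict,
    Measure.restrict_univ]

end Tri

end

end Vale.Agent.P099
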