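import Mathlib

/-!
Plane geometry of a counterclockwise triangle and of the oriented lines that meet it.
-/

open MeasureTheory Set

namespace Vale.Agent.P099

noncomputable section

abbrev TT := UnitAddCircle
abbrev ZZ := TT × ℂ

def ee (θ : TT) : ℂ := fourier 1 θ

def cr (u v : ℂ) : ℝ := u.re * v.im - u.im * v.re
def dt (u v : ℂ) : ℝ := u.re * v.re + u.im * v.im

lemma fourier_arg_add (n : ℤ) (x y : TT) : fourier n (x + y) = fourier n x * fourier n y := by
  simp only [fourier_apply, smul_add, AddCircle.toCircle_add, Circle.coe_mul]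

lemma fourier_arg_neg (n : ℤ) (x : TT) : fourier n (-x) = (starRingEnd ℂ) (fourier n x) := by
  rw [← fourier_neg, fourier_apply, fourier_apply, smul_neg, neg_smul]

lemma ee_add (x y : TT) : ee (x + y) = ee x * ee y := fourier_arg_add 1 x y
lemma ee_neg (x : TT) : ee (-x) = (starRingEnd ℂ) (ee x) := fourier_arg_neg 1 x
lemma norm_fourier (n : ℤ) (x : TT) : ‖fourier n x‖ = 1 := by
  rw [fourier_apply]; exact Circle.norm_coe _
lemma norm_ee (x : TT) : ‖ee x‖ = 1 := norm_fourier 1 x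
lemma ee_sq (x : TT) : (ee x).re ^ 2 + (ee x).im ^ 2 = 1 := by
  have h := norm_ee x
  have h2 : ‖ee x‖ ^ 2 = 1 := by rw [h]; norm_num
  rw [Complex.sq_norm, Complex.normSq_apply] at h2
  nlinarith
lemma ee_mul_conj (x : TT) : ee x * (starRingEnd ℂ) (ee x) = 1 := by
  rw [Complex.mul_conj, Complex.normSq_eq_norm_sq, norm_ee]; simp
lemma fourier_mul_conj (n : ℤ) (x : TT) : fourier n x * (starRingEnd ℂ) (fourier n x) = 1 := by
  rw [Complex.mul_conj, Complex.normSq_eq_norm_sq, norm_fourier]; simp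
@[fun_prop] lemma continuous_ee : Continuous ee := (fourier 1).continuous
@[fun_prop] lemma measurable_ee : Measurable ee := continuous_ee.measurable

lemma exists_ee (u : ℂ) (hu : ‖u‖ = 1) : ∃ θ : TT, ee θ = u := by
  refine ⟨((u.arg / (2 * Real.pi) : ℝ) : TT), ?_⟩
  unfold ee
  rw [fourier_coe_apply]
  have hpi : (Real.pi : ℂ) ≠ 0 := by exact_mod_cast Real.pi_ne_zero
  have : (2 * (Real.pi : ℂ) * Complex.I * ((1 : ℤ) : ℂ) * ((u.arg / (2 * Real.pi) : ℝ) : ℂ) / ((1 : ℝ) : ℂ))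
      = u.arg * Complex.I := by
    push_cast; field_simp
  rw [this]
  have h := Complex.norm_mul_exp_arg_mul_I u
  rw [hu] at h
  simpa using h

@[fun_prop] lemma continuous_cr : Continuous (fun q : ℂ × ℂ => cr q.1 q.2) := by
  unfold cr; fun_prop
@[fun_prop] lemma continuous_dt : Continuous (fun q : ℂ × ℂ => dt q.1 q.2) := by
  unfold dt; fun_prop

lemma abs_cr_le (u v : ℂ) : |cr u v| ≤ ‖u‖ * ‖v‖ := by
  have : cr u v = ((starRingEnd ℂ) u * v).im := by simp [cr]; ring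
  rw [this]
  refine (Complex.abs_im_le_norm _).trans ?_
  simp
lemma abs_dt_le (u v : ℂ) : |dt u v| ≤ ‖u‖ * ‖v‖ := by
  have : dt u v = ((starRingEnd ℂ) u * v).re := by simp [dt]
  rw [this]
  refine (Complex.abs_re_le_norm _).trans ?_
  simp

lemma f11 (a : Fin 3) : a + 1 + 1 = a + 2 := by revert a; decide
lemma f12 (a : Fin 3) : a + 1 + 2 = a := by revert a; decide
lemma f21 (a : Fin 3) : a + 2 + 1 = a := by revert a; decide
lemma f22 (a : Fin 3) : a + 2 + 2 = a + 1 := by revert a; decide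
lemma f3 (a c : Fin 3) : c = a ∨ c = a + 1 ∨ c = a + 2 := by revert a c; decide
lemma fall (a : Fin 3) (p : Fin 3 → Prop) : (∀ c, p c) ↔ p a ∧ p (a + 1) ∧ p (a + 2) := by
  constructor
  · intro h; exact ⟨h _, h _, h _⟩
  · rintro ⟨h1, h2, h3⟩ c
    rcases f3 a c with rfl | rfl | rfl <;> assumption
lemma fsum {M : Type*} [AddCommMonoid M] (a : Fin 3) (f : Fin 3 → M) :
    ∑ c, f c = f a + f (a + 1) + f (a + 2) := by
  rw [Fin.sum_univ_three]
  fin_cases a
  · rfl
  · show f 0 + f 1 + f 2 = f 1 + f 2 + f 0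
    abel
  · show f 0 + f 1 + f 2 = f 2 + f 0 + f 1
    abel

/-- A counterclockwise triangle with the directions of its sides. -/
structure Tri where
  P : Fin 3 → ℂ
  pos : 0 < cr (P 1 - P 0) (P 2 - P 0)
  sg : Fin 3 → TT
  hsg : ∀ a, ((‖P (a + 1) - P a‖ : ℝ) : ℂ) * ee (sg a) = P (a + 1) - P a

/-- The shift of a phase point by a vector written in its own frame. -/
def sh (a : ℂ) (z : ZZ) : ZZ := (z.1, z.2 + ee z.1 * a)

lemma sh_zero (z : ZZ) : sh 0 z = z := by simp [sh]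
lemma sh_add (a b : ℂ) (z : ZZ) : sh a (sh b z) = sh (a + b) z := by
  simp only [sh, Prod.mk.injEq, true_and]; ring
@[fun_prop] lemma continuous_sh : Continuous (fun q : ℂ × ZZ => sh q.1 q.2) := by
  unfold sh; fun_prop
lemma continuous_sh' (a : ℂ) : Continuous (sh a) := by unfold sh; fun_prop
lemma measurable_sh (a : ℂ) : Measurable (sh a) := (continuous_sh' a).measurable

namespace Tri

variable (T : Tri)

def o : ℝ := cr (T.P 1 - T.P 0) (T.P 2 - T.P 0)
def w (a : Fin 3) : ℂ := T.P (a + 1) - T.P a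
def s (a : Fin 3) : ℂ := ee (T.sg a)
/-- height of the vertex `a` above the line of `z` -/
def h (a : Fin 3) (z : ZZ) : ℝ := cr (ee z.1) (T.P a - z.2)
/-- position of the vertex `0` along the line of `z` -/
def xi (z : ZZ) : ℝ := dt (ee z.1) (T.P 0 - z.2)
def ell (c : Fin 3) (x : ℂ) : ℝ := cr (T.w c) (x - T.P c)
def Q : Set ℂ := {x | ∀ c, 0 < T.ell c x}
def K : Set ℂ := {x | ∀ c, 0 ≤ T.ell c x}
def Tc (c : Fin 3) (z : ZZ) : ℝ := T.ell c z.2 / (T.h (c + 1) z - T.h c z)
def E (a : Fin 3) : Set ZZ := {z | T.h a z < 0 ∧ 0 < T.h (a + 1) z}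
def N (a : Fin 3) : Set ZZ := {z | T.h (a + 1) z < 0 ∧ 0 < T.h a z}
def rp (a : Fin 3) (x : ℂ) : ℂ := T.P a + T.s a ^ 2 * (starRingEnd ℂ) (x - T.P a)
def rt (a : Fin 3) (θ : TT) : TT := T.sg a + T.sg a - θ
def refl (a : Fin 3) (z : ZZ) : ZZ := (T.rt a z.1, T.rp a z.2)
def gam (a : Fin 3) (r : ℝ) : ℂ := T.P a + r * T.w a
def D : ℝ := ‖T.P 1 - T.P 0‖ + ‖T.P 2 - T.P 0‖

lemma o_pos : 0 < T.o := T.pos

lemma o_eq (a : Fin 3) : T.o = cr (T.P (a + 1) - T.P a) (T.P (a + 2) - T.P a) := by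
  fin_cases a
  · rfl
  · show T.o = cr (T.P 2 - T.P 1) (T.P 0 - T.P 1)
    simp only [o, cr, Complex.sub_re, Complex.sub_im]; ring
  · show T.o = cr (T.P 0 - T.P 2) (T.P 1 - T.P 2)
    simp only [o, cr, Complex.sub_re, Complex.sub_im]; ring

lemma w_ne (a : Fin 3) : T.w a ≠ 0 := by
  intro h
  have := T.o_eq a
  have h2 := T.o_pos
  unfold w at h
  rw [h] at this
  simp [cr] at this
  linarith

lemma nw_pos (a : Fin 3) : 0 < ‖T.w a‖ := norm_pos_iff.2 (T.w_ne a)

lemma w_eq (a : Fin 3) : T.w a = ((‖T.w a‖ : ℝ) : ℂ) * T.s a := (T.hsg a).symm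

lemma s_sq (a : Fin 3) : (T.s a).re ^ 2 + (T.s a).im ^ 2 = 1 := ee_sq _
lemma s_mul_conj (a : Fin 3) : T.s a * (starRingEnd ℂ) (T.s a) = 1 := ee_mul_conj _

lemma ee_rt (a : Fin 3) (θ : TT) : ee (T.rt a θ) = T.s a ^ 2 * (starRingEnd ℂ) (ee θ) := by
  unfold rt s
  rw [sub_eq_add_neg, ee_add, ee_add, ee_neg]; ring

lemma rt_rt (a : Fin 3) (θ : TT) : T.rt a (T.rt a θ) = θ := by simp [rt]

lemma rp_rp (a : Fin 3) (x : ℂ) : T.rp a (T.rp a x) = x := by
  unfold rp
  have h := T.s_mul_conj a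
  simp only [add_sub_cancel_left, map_mul, map_pow, Complex.conj_conj]
  have : T.s a ^ 2 * ((starRingEnd ℂ) (T.s a)) ^ 2 = 1 := by rw [← mul_pow, h]; simp
  linear_combination (x - T.P a) * this

lemma refl_refl (a : Fin 3) (z : ZZ) : T.refl a (T.refl a z) = z := by
  simp [refl, rt_rt, rp_rp]

lemma rp_gam (a : Fin 3) (r : ℝ) : T.rp a (T.gam a r) = T.gam a r := by
  unfold rp gam
  have h := T.s_mul_conj a
  rw [T.w_eq a]
  simp only [add_sub_cancel_left, map_mul, Complex.conj_ofReal]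
  linear_combination (r * (‖T.w a‖ : ℝ) * T.s a) * h

lemma rp_P (a : Fin 3) : T.rp a (T.P a) = T.P a := by simp [rp]
lemma rp_P1 (a : Fin 3) : T.rp a (T.P (a + 1)) = T.P (a + 1) := by
  have := T.rp_gam a 1
  simpa [gam, w] using this

lemma refl_sh (a : Fin 3) (b : ℂ) (z : ZZ) :
    T.refl a (sh b z) = sh ((starRingEnd ℂ) b) (T.refl a z) := by
  simp only [refl, sh, ee_rt, rp, Prod.mk.injEq, true_and, map_sub, map_add, map_mul]
  ring

lemma cr_refl (a : Fin 3) (u v : ℂ) :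
    cr (T.s a ^ 2 * (starRingEnd ℂ) u) (T.s a ^ 2 * (starRingEnd ℂ) v) = - cr u v := by
  have h := T.s_sq a
  simp only [cr, pow_two, Complex.mul_re, Complex.mul_im, Complex.conj_re, Complex.conj_im]
  linear_combination (-(u.re * v.im - u.im * v.re) * ((T.s a).re ^ 2 + (T.s a).im ^ 2 + 1)) * h

lemma rp_sub (a : Fin 3) (x y : ℂ) : T.rp a x - T.rp a y = T.s a ^ 2 * (starRingEnd ℂ) (x - y) := by
  simp only [rp, map_sub]; ring

lemma h_refl (a : Fin 3) (z : ZZ) : T.h a (T.refl a z) = - T.h a z := by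
  unfold h
  simp only [refl, ee_rt]
  conv_lhs => rw [← T.rp_P a]
  rw [rp_sub, cr_refl]

lemma h_refl1 (a : Fin 3) (z : ZZ) : T.h (a + 1) (T.refl a z) = - T.h (a + 1) z := by
  unfold h
  simp only [refl, ee_rt]
  conv_lhs => rw [← T.rp_P1 a]
  rw [rp_sub, cr_refl]

lemma ell_rp (a : Fin 3) (x : ℂ) : T.ell a (T.rp a x) = - T.ell a x := by
  unfold ell
  have h1 : T.w a = T.s a ^ 2 * (starRingEnd ℂ) (T.w a) := by
    have := T.rp_sub a (T.P (a + 1)) (T.P a)
    rw [rp_P, rp_P1] at this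
    exact this
  conv_lhs => rw [← T.rp_P a, rp_sub, h1]
  rw [cr_refl]

lemma Tc_refl (a : Fin 3) (z : ZZ) : T.Tc a (T.refl a z) = T.Tc a z := by
  unfold Tc
  rw [h_refl, h_refl1]
  have : (T.refl a z).2 = T.rp a z.2 := rfl
  rw [this, ell_rp, show -T.h (a + 1) z - -T.h a z = -(T.h (a + 1) z - T.h a z) by ring, neg_div_neg_eq]

lemma refl_mem_N {a : Fin 3} {z : ZZ} (hz : z ∈ T.E a) : T.refl a z ∈ T.N a := by
  obtain ⟨h1, h2⟩ := hz
  constructor
  · rw [h_refl1]; linarith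
  · rw [h_refl]; linarith

lemma refl_mem_E {a : Fin 3} {z : ZZ} (hz : z ∈ T.N a) : T.refl a z ∈ T.E a := by
  obtain ⟨h1, h2⟩ := hz
  constructor
  · rw [h_refl]; linarith
  · rw [h_refl1]; linarith

lemma h_sh (c : Fin 3) (b : ℂ) (z : ZZ) : T.h c (sh b z) = T.h c z - b.im := by
  have h := ee_sq z.1
  simp only [Tri.h, sh, cr, Complex.sub_re, Complex.sub_im, Complex.add_re, Complex.add_im,
    Complex.mul_re, Complex.mul_im]
  linear_combination (-b.im) * h

lemma xi_sh (b : ℂ) (z : ZZ) : T.xi (sh b z) = T.xi z - b.re := by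
  have h := ee_sq z.1
  simp only [Tri.xi, sh, dt, Complex.sub_re, Complex.sub_im, Complex.add_re, Complex.add_im,
    Complex.mul_re, Complex.mul_im]
  linear_combination (-b.re) * h

lemma ell_sh (c : Fin 3) (t : ℝ) (z : ZZ) :
    T.ell c (sh t z).2 = T.ell c z.2 - t * (T.h (c + 1) z - T.h c z) := by
  simp only [ell, Tri.h, sh, cr, w, Complex.sub_re, Complex.sub_im, Complex.add_re, Complex.add_im,
    Complex.mul_re, Complex.mul_im, Complex.ofReal_re, Complex.ofReal_im]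
  ring

lemma Tc_sh (c : Fin 3) (t : ℝ) (z : ZZ) (hz : T.h (c + 1) z ≠ T.h c z) :
    T.Tc c (sh t z) = T.Tc c z - t := by
  unfold Tc
  rw [ell_sh, h_sh, h_sh]
  have : T.h (c + 1) z - T.h c z ≠ 0 := sub_ne_zero.2 hz
  simp only [Complex.ofReal_im, sub_zero]
  field_simp

lemma ell_sh' (c : Fin 3) (t : ℝ) (z : ZZ) (hz : T.h (c + 1) z ≠ T.h c z) :
    T.ell c (sh t z).2 = (T.h (c + 1) z - T.h c z) * (T.Tc c z - t) := by
  rw [ell_sh]
  unfold Tc
  have : T.h (c + 1) z - T.h c z ≠ 0 := sub_ne_zero.2 hz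
  field_simp

lemma sh_mem_E (a : Fin 3) (t : ℝ) (z : ZZ) : sh t z ∈ T.E a ↔ z ∈ T.E a := by
  simp [E, h_sh]
lemma sh_mem_N (a : Fin 3) (t : ℝ) (z : ZZ) : sh t z ∈ T.N a ↔ z ∈ T.N a := by
  simp [N, h_sh]

lemma E_unique {a b : Fin 3} {z : ZZ} (ha : z ∈ T.E a) (hb : z ∈ T.E b) : a = b := by
  obtain ⟨h1, h2⟩ := ha
  obtain ⟨h3, h4⟩ := hb
  rcases f3 a b with rfl | rfl | rfl
  · rfl
  · linarith
  · rw [f21] at h4; linarith

lemma N_unique {a b : Fin 3} {z : ZZ} (ha : z ∈ T.N a) (hb : z ∈ T.N b) : a = b := by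
  obtain ⟨h1, h2⟩ := ha
  obtain ⟨h3, h4⟩ := hb
  rcases f3 a b with rfl | rfl | rfl
  · rfl
  · linarith
  · rw [f21] at h3; linarith

lemma ell_sum (a : Fin 3) (x : ℂ) : T.ell a x + T.ell (a + 1) x + T.ell (a + 2) x = T.o := by
  rw [T.o_eq a]
  simp only [ell, w, f11, f21, cr, Complex.sub_re, Complex.sub_im]
  ring

lemma bary (a : Fin 3) (x : ℂ) : (T.o : ℂ) * x =
    T.ell a x * T.P (a + 2) + T.ell (a + 1) x * T.P a + T.ell (a + 2) x * T.P (a + 1) := by
  rw [T.o_eq a]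
  apply Complex.ext <;>
  simp only [ell, w, f11, f21, cr, Complex.sub_re, Complex.sub_im, Complex.add_re, Complex.add_im,
    Complex.mul_re, Complex.mul_im, Complex.ofReal_re, Complex.ofReal_im] <;> ring

lemma bary_h (a : Fin 3) (z : ZZ) :
    T.ell a z.2 * T.h (a + 2) z + T.ell (a + 1) z.2 * T.h a z + T.ell (a + 2) z.2 * T.h (a + 1) z
      = 0 := by
  simp only [ell, Tri.h, w, f11, f21, cr, Complex.sub_re, Complex.sub_im]
  ring

lemma bary_h' (a : Fin 3) (t : ℝ) (z : ZZ) :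
    T.ell a (sh t z).2 * T.h (a + 2) z + T.ell (a + 1) (sh t z).2 * T.h a z
      + T.ell (a + 2) (sh t z).2 * T.h (a + 1) z = 0 := by
  have := T.bary_h a (sh t z)
  simpa [h_sh] using this

/-- A point of the line of edge `a` on a line that crosses that edge lies in the open edge. -/
lemma cross_pos {a : Fin 3} {z : ZZ} (hz : z ∈ T.E a ∨ z ∈ T.N a) (h0 : T.ell a z.2 = 0) :
    0 < T.ell (a + 1) z.2 ∧ 0 < T.ell (a + 2) z.2 := by
  have h1 := T.bary_h a z
  have h2 := T.ell_sum a z.2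
  have h3 := T.o_pos
  rw [h0] at h1 h2
  rcases hz with ⟨h4, h5⟩ | ⟨h4, h5⟩
  · constructor
    · by_contra hc; push Not at hc; nlinarith
    · by_contra hc; push Not at hc; nlinarith
  · constructor
    · by_contra hc; push Not at hc; nlinarith
    · by_contra hc; push Not at hc; nlinarith

lemma ne_of_E {a : Fin 3} {z : ZZ} (hz : z ∈ T.E a) : T.h (a + 1) z ≠ T.h a z := by
  exact (hz.1.trans hz.2).ne'
lemma ne_of_N {a : Fin 3} {z : ZZ} (hz : z ∈ T.N a) : T.h (a + 1) z ≠ T.h a z := by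
  exact (hz.1.trans hz.2).ne

lemma ell_at_Tc {a : Fin 3} {z : ZZ} (hz : z ∈ T.E a ∨ z ∈ T.N a) :
    T.ell a (sh (T.Tc a z) z).2 = 0 := by
  rw [T.ell_sh' a _ z (hz.elim T.ne_of_E T.ne_of_N)]; simp

lemma cross_at_Tc {a : Fin 3} {z : ZZ} (hz : z ∈ T.E a ∨ z ∈ T.N a) :
    0 < T.ell (a + 1) (sh (T.Tc a z) z).2 ∧ 0 < T.ell (a + 2) (sh (T.Tc a z) z).2 := by
  apply T.cross_pos _ (T.ell_at_Tc hz)
  rwa [sh_mem_E, sh_mem_N]

lemma Tc_mem_K {a : Fin 3} {z : ZZ} (hz : z ∈ T.E a ∨ z ∈ T.N a) : (sh (T.Tc a z) z).2 ∈ T.K := by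
  have h1 := T.ell_at_Tc hz
  have h2 := T.cross_at_Tc hz
  show ∀ c, _
  rw [fall a]
  exact ⟨h1.ge, h2.1.le, h2.2.le⟩

lemma EN_ne {a b : Fin 3} {z : ZZ} (ha : z ∈ T.E a) (hb : z ∈ T.N b) : b = a + 1 ∨ b = a + 2 := by
  rcases f3 a b with rfl | h | h
  · exact absurd (ha.1.trans hb.2) (lt_irrefl _)
  · exact Or.inl h
  · exact Or.inr h

lemma Tc_lt {a b : Fin 3} {z : ZZ} (ha : z ∈ T.E a) (hb : z ∈ T.N b) : T.Tc b z < T.Tc a z := by
  have h1 := T.cross_at_Tc (Or.inl ha)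
  have h2 : 0 < T.ell b (sh (T.Tc a z) z).2 := by
    rcases T.EN_ne ha hb with rfl | rfl
    · exact h1.1
    · exact h1.2
  rw [T.ell_sh' b _ z (T.ne_of_N hb)] at h2
  have h3 : T.h (b + 1) z - T.h b z < 0 := by linarith [hb.1, hb.2]
  by_contra hc
  push Not at hc
  nlinarith

lemma mem_K_iff {a b : Fin 3} {z : ZZ} (ha : z ∈ T.E a) (hb : z ∈ T.N b) (t : ℝ) :
    (sh t z).2 ∈ T.K ↔ T.Tc b z ≤ t ∧ t ≤ T.Tc a z := by
  have e1 := T.ell_sh' a t z (T.ne_of_E ha)
  have e2 := T.ell_sh' b t z (T.ne_of_N hb)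
  have p1 : 0 < T.h (a + 1) z - T.h a z := by linarith [ha.1, ha.2]
  have p2 : T.h (b + 1) z - T.h b z < 0 := by linarith [hb.1, hb.2]
  constructor
  · intro h
    have h1 := h a
    have h2 := h b
    rw [e1] at h1; rw [e2] at h2
    constructor
    · by_contra hc; push Not at hc; nlinarith
    · by_contra hc; push Not at hc; nlinarith
  · rintro ⟨h1, h2⟩
    have q1 : 0 ≤ T.ell a (sh t z).2 := by rw [e1]; exact mul_nonneg p1.le (by linarith)
    have q2 : 0 ≤ T.ell b (sh t z).2 := by rw [e2]; nlinarith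
    have hb3 := T.bary_h' a t z
    show ∀ c, _
    rw [fall a]
    rcases T.EN_ne ha hb with rfl | rfl
    · refine ⟨q1, q2, ?_⟩
      have := hb.1; rw [f11] at this
      by_contra hc; push Not at hc
      nlinarith [ha.1, ha.2, mul_nonneg q1 (neg_nonneg.2 this.le), mul_nonneg q2 (neg_nonneg.2 ha.1.le)]
    · refine ⟨q1, ?_, q2⟩
      have := hb.2
      by_contra hc; push Not at hc
      nlinarith [ha.1, ha.2, mul_nonneg q1 this.le, mul_nonneg q2 ha.2.le]

lemma mem_Q_iff {a b : Fin 3} {z : ZZ} (ha : z ∈ T.E a) (hb : z ∈ T.N b) :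
    z.2 ∈ T.Q ↔ T.Tc b z < 0 ∧ 0 < T.Tc a z := by
  have e1 := T.ell_sh' a 0 z (T.ne_of_E ha)
  have e2 := T.ell_sh' b 0 z (T.ne_of_N hb)
  simp only [Complex.ofReal_zero, sh_zero, sub_zero] at e1 e2
  have p1 : 0 < T.h (a + 1) z - T.h a z := by linarith [ha.1, ha.2]
  have p2 : T.h (b + 1) z - T.h b z < 0 := by linarith [hb.1, hb.2]
  constructor
  · intro h
    have h1 := h a
    have h2 := h b
    rw [e1] at h1; rw [e2] at h2
    constructor
    · by_contra hc; push Not at hc; nlinarith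
    · by_contra hc; push Not at hc; nlinarith
  · rintro ⟨h1, h2⟩
    have q1 : 0 < T.ell a z.2 := by rw [e1]; exact mul_pos p1 h2
    have q2 : 0 < T.ell b z.2 := by rw [e2]; nlinarith
    have hb3 := T.bary_h a z
    show ∀ c, _
    rw [fall a]
    rcases T.EN_ne ha hb with rfl | rfl
    · refine ⟨q1, q2, ?_⟩
      have := hb.1; rw [f11] at this
      by_contra hc; push Not at hc
      nlinarith [ha.1, ha.2, mul_pos q1 (neg_pos.2 this), mul_pos q2 (neg_pos.2 ha.1)]
    · refine ⟨q1, ?_, q2⟩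
      have := hb.2
      by_contra hc; push Not at hc
      nlinarith [ha.1, ha.2, mul_pos q1 this, mul_pos q2 ha.2]

lemma Q_sub_K : T.Q ⊆ T.K := fun _ hx c => (hx c).le

lemma D_nonneg : 0 ≤ T.D := by unfold D; positivity

lemma norm_le_D {x : ℂ} (hx : x ∈ T.K) : ‖T.P 0 - x‖ ≤ T.D := by
  have h1 := T.bary 0 x
  have h2 := T.ell_sum 0 x
  have ho := T.o_pos
  have h0 := hx 0
  have h01 := hx (0 + 1)
  have h02 := hx (0 + 2)
  have e : (T.o : ℂ) * (x - T.P 0) =
      T.ell 0 x * (T.P 2 - T.P 0) + T.ell (0 + 2) x * (T.P 1 - T.P 0) := by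
    have h2' : (T.ell 0 x : ℂ) + T.ell (0 + 1) x + T.ell (0 + 2) x = T.o := by exact_mod_cast h2
    simp only [zero_add] at h1 h2' ⊢
    linear_combination h1 + T.P 0 * h2'
  have h3 : T.o * ‖x - T.P 0‖ ≤ T.o * T.D := by
    have : ‖(T.o : ℂ) * (x - T.P 0)‖ = T.o * ‖x - T.P 0‖ := by
      rw [norm_mul, Complex.norm_real, Real.norm_of_nonneg ho.le]
    rw [← this, e]
    refine (norm_add_le _ _).trans ?_
    rw [norm_mul, norm_mul, Complex.norm_real, Complex.norm_real, Real.norm_of_nonneg h0,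
      Real.norm_of_nonneg h02]
    unfold D
    have := norm_nonneg (T.P 2 - T.P 0)
    have := norm_nonneg (T.P 1 - T.P 0)
    nlinarith
  rw [norm_sub_rev]
  exact le_of_mul_le_mul_left h3 ho

lemma abs_xi_le {z : ZZ} (hz : z.2 ∈ T.K) : |T.xi z| ≤ T.D := by
  unfold xi
  refine (abs_dt_le _ _).trans ?_
  rw [norm_ee, one_mul]
  exact T.norm_le_D hz

lemma abs_xi_sub_Tc {a : Fin 3} {z : ZZ} (hz : z ∈ T.E a ∨ z ∈ T.N a) :
    |T.xi z - T.Tc a z| ≤ T.D := by
  have := T.abs_xi_le (T.Tc_mem_K hz)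
  rwa [xi_sh, Complex.ofReal_re] at this

@[fun_prop] lemma continuous_h (a : Fin 3) : Continuous (T.h a) := by
  unfold h cr; fun_prop
@[fun_prop] lemma continuous_xi : Continuous T.xi := by
  unfold xi dt; fun_prop
@[fun_prop] lemma continuous_ell (a : Fin 3) : Continuous (T.ell a) := by
  unfold ell cr; fun_prop
lemma continuous_rt (a : Fin 3) : Continuous (T.rt a) := by unfold rt; fun_prop
lemma continuous_rp (a : Fin 3) : Continuous (T.rp a) := by
  unfold rp
  exact continuous_const.add (continuous_const.mul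
    (Complex.continuous_conj.comp (continuous_id.sub continuous_const)))
lemma continuous_refl (a : Fin 3) : Continuous (T.refl a) :=
  ((T.continuous_rt a).comp continuous_fst).prodMk ((T.continuous_rp a).comp continuous_snd)
lemma measurable_refl (a : Fin 3) : Measurable (T.refl a) := (T.continuous_refl a).measurable
lemma measurable_Tc (a : Fin 3) : Measurable (T.Tc a) := by
  unfold Tc
  exact ((T.continuous_ell a).measurable.comp measurable_snd).div
    ((T.continuous_h _).measurable.sub (T.continuous_h _).measurable)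

lemma isOpen_E (a : Fin 3) : IsOpen (T.E a) :=
  (isOpen_lt (T.continuous_h a) continuous_const).inter (isOpen_lt continuous_const (T.continuous_h _))
lemma isOpen_N (a : Fin 3) : IsOpen (T.N a) :=
  (isOpen_lt (T.continuous_h _) continuous_const).inter (isOpen_lt continuous_const (T.continuous_h _))
lemma isOpen_Q : IsOpen T.Q := by
  have : T.Q = ⋂ c, {x | 0 < T.ell c x} := by ext x; simp [Q]
  rw [this]
  exact isOpen_iInter_of_finite fun c => isOpen_lt continuous_const (T.continuous_ell c)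
lemma isClosed_K : IsClosed T.K := by
  have : T.K = ⋂ c, {x | 0 ≤ T.ell c x} := by ext x; simp [K]
  rw [this]
  exact isClosed_iInter fun c => isClosed_le continuous_const (T.continuous_ell c)
lemma measurableSet_Q : MeasurableSet T.Q := T.isOpen_Q.measurableSet
lemma K_sub_ball : T.K ⊆ Metric.closedBall (T.P 0) T.D := by
  intro x hx
  rw [mem_closedBall_iff_norm, norm_sub_rev]
  exact T.norm_le_D hx
lemma volume_Q_lt_top : volume T.Q < ⊤ :=
  (measure_mono (T.Q_sub_K.trans T.K_sub_ball)).trans_lt measure_closedBall_lt_top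

lemma gam_mem_K (a : Fin 3) {r : ℝ} (h0 : 0 ≤ r) (h1 : r ≤ 1) : T.gam a r ∈ T.K := by
  have ho := T.o_pos
  have e0 : T.ell a (T.gam a r) = 0 := by
    simp only [ell, gam, cr, add_sub_cancel_left, Complex.mul_re, Complex.mul_im,
      Complex.ofReal_re, Complex.ofReal_im]; ring
  have e1 : T.ell (a + 1) (T.gam a r) = (1 - r) * T.o := by
    rw [T.o_eq a]
    simp only [ell, gam, w, f11, cr, Complex.mul_re, Complex.mul_im, Complex.sub_re, Complex.sub_im,
      Complex.add_re, Complex.add_im, Complex.ofReal_re, Complex.ofReal_im]; ring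
  have e2 : T.ell (a + 2) (T.gam a r) = r * T.o := by
    rw [T.o_eq a]
    simp only [ell, gam, w, f21, cr, Complex.mul_re, Complex.mul_im, Complex.sub_re, Complex.sub_im,
      Complex.add_re, Complex.add_im, Complex.ofReal_re, Complex.ofReal_im]; ring
  show ∀ c, _
  rw [fall a, e0, e1, e2]
  exact ⟨le_rfl, mul_nonneg (by linarith) ho.le, mul_nonneg h0 ho.le⟩

lemma h_gam (a : Fin 3) (r : ℝ) (θ : TT) :
    (1 - r) * T.h a (θ, T.gam a r) + r * T.h (a + 1) (θ, T.gam a r) = 0 := by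
  simp only [Tri.h, gam, w, cr, Complex.mul_re, Complex.mul_im, Complex.sub_re, Complex.sub_im,
      Complex.add_re, Complex.add_im, Complex.ofReal_re, Complex.ofReal_im]; ring

lemma convex_Q : Convex ℝ T.Q := by
  intro x hx y hy a b ha hb hab c
  have h1 := hx c
  have h2 := hy c
  have : T.ell c (a • x + b • y) = a * T.ell c x + b * T.ell c y := by
    simp only [ell, cr, Complex.sub_re, Complex.sub_im, Complex.add_re, Complex.add_im,
      Complex.smul_re, Complex.smul_im, smul_eq_mul]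
    have : b = 1 - a := by linarith
    subst this; ring
  rw [this]
  rcases ha.eq_or_lt with rfl | ha'
  · have : b = 1 := by linarith
    subst this; simpa using h2
  · have := mul_pos ha' h1
    have := mul_nonneg hb h2.le
    linarith

end Tri

end

end Vale.Agent.P099
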