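import Vale.Agent.P099.Geom

/-!
The divergence theorem on a triangle.
-/

open MeasureTheory Set Filter Topology

namespace Vale.Agent.P099

noncomputable section

def d1 (f : ℂ → ℂ) (x : ℂ) : ℂ := fderiv ℝ f x 1
def d2 (f : ℂ → ℂ) (x : ℂ) : ℂ := fderiv ℝ f x Complex.I

/-- twice the Wirtinger derivatives -/
def dz (f : ℂ → ℂ) (x : ℂ) : ℂ := d1 f x - Complex.I * d2 f x
def dzb (f : ℂ → ℂ) (x : ℂ) : ℂ := d1 f x + Complex.I * d2 f x

lemma clm_apply_eq (L : ℂ →L[ℝ] ℂ) (v : ℂ) : L v = v.re * L 1 + v.im * L Complex.I := by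
  conv_lhs => rw [show v = v.re • (1 : ℂ) + v.im • Complex.I by simp]
  rw [map_add, map_smul, map_smul]; simp

lemma fderiv_apply_eq (f : ℂ → ℂ) (x v : ℂ) : fderiv ℝ f x v = v.re * d1 f x + v.im * d2 f x :=
  clm_apply_eq _ v

lemma measurable_d1 (f : ℂ → ℂ) : Measurable (d1 f) := measurable_fderiv_apply_const ℝ f 1
lemma measurable_d2 (f : ℂ → ℂ) : Measurable (d2 f) := measurable_fderiv_apply_const ℝ f _

lemma map_affine (p u v : ℂ) (h : 0 < cr u v) :
    Measure.map (fun q : ℝ × ℝ => p + q.2 * u + q.1 * v) volume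
      = ENNReal.ofReal (cr u v)⁻¹ • (volume : Measure ℂ) := by
  let f : ℂ →ₗ[ℝ] ℂ := Complex.reLm.smulRight v + Complex.imLm.smulRight u
  have hdet : LinearMap.det f = - cr u v := by
    rw [← LinearMap.det_toMatrix Complex.basisOneI, Matrix.det_fin_two]
    simp [LinearMap.toMatrix_apply, f, cr]
    ring
  have h1 := Measure.map_linearMap_addHaar_eq_smul_addHaar (volume : Measure ℂ) (f := f)
    (by rw [hdet]; linarith)
  rw [hdet, abs_inv, abs_neg, abs_of_pos h] at h1
  have h2 := Complex.volume_preserving_equiv_real_prod.symm.map_eq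
  have hf : Measurable f := f.continuous_of_finiteDimensional.measurable
  have h3 : (fun q : ℝ × ℝ => p + q.2 * u + q.1 * v) =
      (fun x => p + x) ∘ f ∘ Complex.measurableEquivRealProd.symm := by
    funext q
    simp only [Function.comp, f, LinearMap.add_apply, LinearMap.smulRight_apply, Complex.reLm_coe,
      Complex.imLm_coe, Complex.measurableEquivRealProd_symm_apply, Complex.real_smul]
    ring
  rw [h3, ← Measure.map_map (measurable_const_add p) (hf.comp (MeasurableEquiv.measurable _)),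
    ← Measure.map_map hf (MeasurableEquiv.measurable _), h2, h1, Measure.map_smul,
    (measurePreserving_add_left volume p).map_eq]

namespace Tri

variable (T : Tri)

lemma integrableOn_Q {g : ℂ → ℂ} (hg : Measurable g) {C : ℝ} (hC : ∀ x ∈ T.K, ‖g x‖ ≤ C) :
    IntegrableOn g T.Q :=
  Measure.integrableOn_of_bounded T.volume_Q_lt_top.ne hg.aestronglyMeasurable
    ((ae_restrict_mem T.measurableSet_Q).mono fun x hx => hC x (T.Q_sub_K hx))

lemma green_edge (Φ : ℂ → ℂ) (hd : Differentiable ℝ Φ) {C : ℝ}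
    (hC : ∀ x ∈ T.K, ‖d1 Φ x‖ ≤ C ∧ ‖d2 Φ x‖ ≤ C) (a : Fin 3) :
    ∫ x in T.Q, fderiv ℝ Φ x (T.w a) =
      T.o * ((∫ r in (0 : ℝ)..1, Φ (T.gam (a + 1) r)) - ∫ r in (0 : ℝ)..1, Φ (T.gam (a + 2) r)) := by
  set u := T.w a with hu
  set v := T.P (a + 2) - T.P a with hv
  have ho : T.o = cr u v := T.o_eq a
  have hop := T.o_pos
  set g : ℂ → ℂ := fun x => fderiv ℝ Φ x u with hg
  have hgm : Measurable g := measurable_fderiv_apply_const ℝ Φ u
  have hgC : ∀ x ∈ T.K, ‖g x‖ ≤ |u.re| * C + |u.im| * C := by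
    intro x hx
    simp only [hg]
    rw [fderiv_apply_eq]
    refine (norm_add_le _ _).trans ?_
    rw [norm_mul, norm_mul, Complex.norm_real, Complex.norm_real, Real.norm_eq_abs, Real.norm_eq_abs]
    have := hC x hx
    gcongr
    · exact this.1
    · exact this.2
  have hint : Integrable (T.Q.indicator g) :=
    (integrable_indicator_iff T.measurableSet_Q).2 (T.integrableOn_Q hgm hgC)
  set Ψ : ℝ × ℝ → ℂ := fun q => T.P a + q.2 * u + q.1 * v with hΨ
  have hΨm : Measurable Ψ := by fun_prop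
  have hmap := map_affine (T.P a) u v (ho ▸ hop)
  have hint2 : Integrable (T.Q.indicator g) (Measure.map Ψ volume) := by
    rw [hmap]; exact hint.smul_measure ENNReal.ofReal_ne_top
  have e1 : ∫ q, T.Q.indicator g (Ψ q) = (T.o)⁻¹ • ∫ x in T.Q, g x := by
    rw [← integral_map hΨm.aemeasurable hint2.aestronglyMeasurable, hmap, integral_smul_measure,
      ENNReal.toReal_ofReal (by rw [← ho]; positivity), integral_indicator T.measurableSet_Q, ho]
  have hint3 : Integrable (fun q => T.Q.indicator g (Ψ q)) :=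
    (integrable_map_measure hint2.aestronglyMeasurable hΨm.aemeasurable).1 hint2
  have l0 : ∀ t s : ℝ, T.ell a (Ψ (t, s)) = t * T.o := by
    intro t s
    rw [ho]
    simp only [ell, hΨ, ← hu, cr, Complex.mul_re, Complex.mul_im, Complex.sub_re, Complex.sub_im,
      Complex.add_re, Complex.add_im, Complex.ofReal_re, Complex.ofReal_im]; ring
  have l1 : ∀ t s : ℝ, T.ell (a + 1) (Ψ (t, s)) = (1 - s - t) * T.o := by
    intro t s
    rw [ho]
    simp only [ell, hΨ, hu, hv, w, f11, cr, Complex.mul_re, Complex.mul_im, Complex.sub_re,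
      Complex.sub_im, Complex.add_re, Complex.add_im, Complex.ofReal_re, Complex.ofReal_im]; ring
  have l2 : ∀ t s : ℝ, T.ell (a + 2) (Ψ (t, s)) = s * T.o := by
    intro t s
    rw [ho]
    simp only [ell, hΨ, hu, hv, w, f21, cr, Complex.mul_re, Complex.mul_im, Complex.sub_re,
      Complex.sub_im, Complex.add_re, Complex.add_im, Complex.ofReal_re, Complex.ofReal_im]; ring
  have hQ : ∀ t s : ℝ, Ψ (t, s) ∈ T.Q ↔ 0 < t ∧ 0 < s ∧ s < 1 - t := by
    intro t s
    show (∀ c, _) ↔ _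
    rw [fall a, l0, l1, l2]
    simp only [mul_pos_iff_of_pos_right hop]
    constructor
    · rintro ⟨h1, h2, h3⟩; exact ⟨h1, h3, by linarith⟩
    · rintro ⟨h1, h2, h3⟩; exact ⟨h1, by linarith, h2⟩
  have hK : ∀ t s : ℝ, 0 ≤ t → 0 ≤ s → s ≤ 1 - t → Ψ (t, s) ∈ T.K := by
    intro t s h1 h2 h3
    show ∀ c, _
    rw [fall a, l0, l1, l2]
    exact ⟨by positivity, mul_nonneg (by linarith) hop.le, by positivity⟩
  have inner : ∀ t : ℝ, ∫ s, T.Q.indicator g (Ψ (t, s)) =
      (Ioo (0 : ℝ) 1).indicator (fun t => Φ (T.gam (a + 1) t) - Φ (T.gam (a + 2) (1 - t))) t := by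
    intro t
    by_cases ht : t ∈ Ioo (0 : ℝ) 1
    · rw [indicator_of_mem ht]
      have : (fun s => T.Q.indicator g (Ψ (t, s))) =
          (Ioo 0 (1 - t)).indicator (fun s => g (Ψ (t, s))) := by
        funext s
        by_cases hs : s ∈ Ioo 0 (1 - t)
        · rw [indicator_of_mem hs, indicator_of_mem ((hQ t s).2 ⟨ht.1, hs.1, hs.2⟩)]
        · rw [indicator_of_notMem hs, indicator_of_notMem (fun h => hs ((hQ t s).1 h).2)]
      rw [this, integral_indicator measurableSet_Ioo, ← integral_Ioc_eq_integral_Ioo,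
        ← intervalIntegral.integral_of_le (by linarith [ht.2])]
      rw [intervalIntegral.integral_eq_sub_of_hasDerivAt (f := fun s => Φ (Ψ (t, s)))]
      · congr 2
        · simp only [hΨ, gam, hu, hv, w, f11]; push_cast; ring
        · simp only [hΨ, gam, hu, hv, w, f21]; push_cast; ring
      · intro s _
        have h1 : HasDerivAt (fun s : ℝ => Ψ (t, s)) u s := by
          simp only [hΨ]
          have := ((Complex.ofRealCLM.hasDerivAt (x := s)).mul_const u).const_add (T.P a)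
          simpa using this.add_const (t * v)
        exact (hd _).hasFDerivAt.comp_hasDerivAt s h1
      · rw [intervalIntegrable_iff_integrableOn_Ioc_of_le (by linarith [ht.2])]
        refine Measure.integrableOn_of_bounded (M := |u.re| * C + |u.im| * C) (by simp)
          (hgm.comp (by fun_prop)).aestronglyMeasurable ?_
        refine (ae_restrict_mem measurableSet_Ioc).mono fun s hs => ?_
        exact hgC _ (hK t s ht.1.le hs.1.le hs.2)
    · rw [indicator_of_notMem ht]
      have : (fun s => T.Q.indicator g (Ψ (t, s))) = fun _ => 0 := by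
        funext s
        apply indicator_of_notMem
        intro h
        have := (hQ t s).1 h
        exact ht ⟨this.1, by linarith [this.2.1, this.2.2]⟩
      rw [this, integral_zero]
  have hc : ∀ b, Continuous (fun r : ℝ => Φ (T.gam b r)) := fun b =>
    hd.continuous.comp (by unfold gam; fun_prop)
  have e2 : ∫ q, T.Q.indicator g (Ψ q) =
      (∫ r in (0 : ℝ)..1, Φ (T.gam (a + 1) r)) - ∫ r in (0 : ℝ)..1, Φ (T.gam (a + 2) r) := by
    rw [Measure.volume_eq_prod] at hint3 ⊢
    rw [integral_prod _ hint3]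
    simp_rw [inner]
    have hc2 : Continuous (fun r : ℝ => Φ (T.gam (a + 2) (1 - r))) :=
      (hc _).comp (continuous_const.sub continuous_id)
    rw [integral_indicator measurableSet_Ioo, ← integral_Ioc_eq_integral_Ioo,
        ← intervalIntegral.integral_of_le zero_le_one, intervalIntegral.integral_sub
        ((hc _).intervalIntegrable _ _) (hc2.intervalIntegrable _ _)]
    congr 1
    have := intervalIntegral.integral_comp_sub_left (a := 0) (b := 1)
      (fun r => Φ (T.gam (a + 2) r)) 1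
    simpa using this
  rw [← e2, e1, Complex.real_smul]
  have : (T.o : ℂ) ≠ 0 := by exact_mod_cast hop.ne'
  push_cast
  field_simp

/-- The divergence theorem on the triangle, in a fixed direction `v`. -/
theorem green (Φ : ℂ → ℂ) (hd : Differentiable ℝ Φ) {C : ℝ}
    (hC : ∀ x ∈ T.K, ‖d1 Φ x‖ ≤ C ∧ ‖d2 Φ x‖ ≤ C) (v : ℂ) :
    ∫ x in T.Q, fderiv ℝ Φ x v = ∑ a, cr v (T.w a) * ∫ r in (0 : ℝ)..1, Φ (T.gam a r) := by
  have hop := T.o_pos
  have ho : (T.o : ℂ) ≠ 0 := by exact_mod_cast hop.ne'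
  have i1 : IntegrableOn (d1 Φ) T.Q := T.integrableOn_Q (measurable_d1 Φ) fun x hx => (hC x hx).1
  have i2 : IntegrableOn (d2 Φ) T.Q := T.integrableOn_Q (measurable_d2 Φ) fun x hx => (hC x hx).2
  have lin : ∀ v : ℂ, ∫ x in T.Q, fderiv ℝ Φ x v =
      v.re * (∫ x in T.Q, d1 Φ x) + v.im * ∫ x in T.Q, d2 Φ x := by
    intro v
    simp_rw [fderiv_apply_eq]
    rw [integral_add (i1.const_mul _) (i2.const_mul _), integral_const_mul, integral_const_mul]
  have g0 := T.green_edge Φ hd hC 0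
  have g1 := T.green_edge Φ hd hC 1
  rw [lin] at g0 g1 ⊢
  rw [Fin.sum_univ_three]
  have e0 : (0 : Fin 3) + 1 = 1 := rfl
  have e1 : (0 : Fin 3) + 2 = 2 := rfl
  have e2 : (1 : Fin 3) + 1 = 2 := rfl
  have e3 : (1 : Fin 3) + 2 = 0 := rfl
  have e4 : (2 : Fin 3) + 1 = 0 := rfl
  rw [e0, e1] at g0
  rw [e2, e3] at g1
  have hw : T.w 2 = - T.w 0 - T.w 1 := by simp only [w, e0, e2, e4]; ring
  have hoo : T.o = cr (T.w 0) (T.w 1) := by
    rw [T.o_eq 0]; simp only [w, e0, e1, e2, cr, Complex.sub_re, Complex.sub_im]; ring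
  have hoc : (T.o : ℂ) = (T.w 0).re * (T.w 1).im - (T.w 0).im * (T.w 1).re := by
    rw [hoo, cr]; push_cast; ring
  apply mul_left_cancel₀ ho
  rw [hw]
  simp only [cr, Complex.sub_re, Complex.sub_im, Complex.neg_re, Complex.neg_im]
  push_cast
  linear_combination ((v.re : ℂ) * (T.w 1).im - v.im * (T.w 1).re) * g0
    - ((v.re : ℂ) * (T.w 0).im - v.im * (T.w 0).re) * g1
    + ((v.re : ℂ) * (∫ x in T.Q, d1 Φ x) + v.im * ∫ x in T.Q, d2 Φ x) * hoc

theorem green_dz (Φ : ℂ → ℂ) (hd : Differentiable ℝ Φ) {C : ℝ}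
    (hC : ∀ x ∈ T.K, ‖d1 Φ x‖ ≤ C ∧ ‖d2 Φ x‖ ≤ C) :
    ∫ x in T.Q, dz Φ x =
      ∑ a, Complex.I * (starRingEnd ℂ) (T.w a) * ∫ r in (0 : ℝ)..1, Φ (T.gam a r) := by
  have i1 : IntegrableOn (d1 Φ) T.Q := T.integrableOn_Q (measurable_d1 Φ) fun x hx => (hC x hx).1
  have i2 : IntegrableOn (d2 Φ) T.Q := T.integrableOn_Q (measurable_d2 Φ) fun x hx => (hC x hx).2
  unfold dz
  rw [integral_sub i1 (i2.const_mul _), integral_const_mul]
  have g1 := T.green Φ hd hC 1
  have g2 := T.green Φ hd hC Complex.I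
  unfold d1 d2
  rw [g1, g2, Finset.mul_sum, ← Finset.sum_sub_distrib]
  refine Finset.sum_congr rfl fun a _ => ?_
  rw [← mul_assoc, ← sub_mul]
  congr 1
  apply Complex.ext <;> simp [cr]

theorem green_dzb (Φ : ℂ → ℂ) (hd : Differentiable ℝ Φ) {C : ℝ}
    (hC : ∀ x ∈ T.K, ‖d1 Φ x‖ ≤ C ∧ ‖d2 Φ x‖ ≤ C) :
    ∫ x in T.Q, dzb Φ x = ∑ a, -Complex.I * T.w a * ∫ r in (0 : ℝ)..1, Φ (T.gam a r) := by
  have i1 : IntegrableOn (d1 Φ) T.Q := T.integrableOn_Q (measurable_d1 Φ) fun x hx => (hC x hx).1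
  have i2 : IntegrableOn (d2 Φ) T.Q := T.integrableOn_Q (measurable_d2 Φ) fun x hx => (hC x hx).2
  unfold dzb
  rw [integral_add i1 (i2.const_mul _), integral_const_mul]
  have g1 := T.green Φ hd hC 1
  have g2 := T.green Φ hd hC Complex.I
  unfold d1 d2
  rw [g1, g2, Finset.mul_sum, ← Finset.sum_add_distrib]
  refine Finset.sum_congr rfl fun a _ => ?_
  rw [← mul_assoc, ← add_mul]
  congr 1
  apply Complex.ext <;> simp [cr]

end Tri

end

end Vale.Agent.P099
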