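import Vale.Agent.P099.Wm
import Vale.Agent.P099.Defs

/-!
Identification of the billiard flow of the statement with the folded flow.
-/

open MeasureTheory Set Filter Topology

namespace Vale.Agent.P099

noncomputable section

lemma cr_ne_zero {P : Fin 3 → ℂ} (hP : AffineIndependent ℝ P) :
    cr (P 1 - P 0) (P 2 - P 0) ≠ 0 := by
  intro h
  have key : ∀ a b : ℝ, (a : ℂ) * (P 1 - P 0) + b * (P 2 - P 0) = 0 → a = 0 ∧ b = 0 := by
    intro a b hab
    have := affineIndependent_iff.1 hP Finset.univ ![-(a + b), a, b]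
      (by simp [Fin.sum_univ_three]) (by
        simp only [Fin.sum_univ_three, Matrix.cons_val_zero, Matrix.cons_val_one, Matrix.cons_val,
          Complex.real_smul]
        push_cast
        linear_combination hab)
    exact ⟨this 1 (Finset.mem_univ _), this 2 (Finset.mem_univ _)⟩
  generalize P 1 - P 0 = u at *
  generalize P 2 - P 0 = v at *
  unfold cr at h
  have h1 := key v.re (-u.re) (by apply Complex.ext <;> simp <;> linarith)
  have h2 := key v.im (-u.im) (by apply Complex.ext <;> simp <;> linarith)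
  have h3 := key 1 0 (by apply Complex.ext <;> simp <;> linarith [h1.2, h2.2])
  exact one_ne_zero h3.1

lemma exists_tri (P : Fin 3 → ℂ) (h : 0 < cr (P 1 - P 0) (P 2 - P 0)) : ∃ T : Tri, T.P = P := by
  have h1 : ∀ a, ∃ θ : TT, ((‖P (a + 1) - P a‖ : ℝ) : ℂ) * ee θ = P (a + 1) - P a := by
    intro a
    by_cases h0 : P (a + 1) - P a = 0
    · exact ⟨0, by simp [h0]⟩
    · have hn : ((‖P (a + 1) - P a‖ : ℝ) : ℂ) ≠ 0 := by simpa using h0
      obtain ⟨θ, hθ⟩ := exists_ee ((P (a + 1) - P a) / ((‖P (a + 1) - P a‖ : ℝ) : ℂ))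
        (by rw [norm_div, Complex.norm_real, norm_norm, div_self (norm_ne_zero_iff.2 h0)])
      exact ⟨θ, by rw [hθ]; field_simp⟩
  choose sg hsg using h1
  exact ⟨⟨P, h, sg, hsg⟩, rfl⟩

lemma fourier_eq_zpow (n : ℤ) (θ : TT) : (fourier n θ : ℂ) = ee θ ^ n := by
  simp [ee, fourier_apply, AddCircle.toCircle_zsmul]

lemma ee_injective : Function.Injective ee := by
  intro x y h
  apply AddCircle.injective_toCircle one_ne_zero
  apply Circle.ext
  simpa [ee, fourier_apply] using h

lemma ee_half (θ : TT) : ee (θ + ((1 / 2 : ℝ) : TT)) = - ee θ := by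
  rw [ee_add, show ee ((1 / 2 : ℝ) : TT) = -1 from ?_]
  · ring
  · unfold ee
    rw [fourier_coe_apply, ← Complex.exp_pi_mul_I]
    congr 1; push_cast; ring

lemma directionMeasure_eq : directionMeasure = (volume : Measure TT).map ee := by
  have hpi : 0 < 2 * Real.pi := by positivity
  have h1 := (UnitAddCircle.measurePreserving_mk 0).map_eq
  have h2 : Measure.map (fun x : ℝ => 2 * Real.pi * x) (volume.restrict (Ioc 0 (0 + 1))) =
      ProbabilityTheory.cond volume (Ioc (0 : ℝ) (2 * Real.pi)) := by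
    have e : Ioc (0 : ℝ) (0 + 1) = (fun x : ℝ => 2 * Real.pi * x) ⁻¹' Ioc 0 (2 * Real.pi) := by
      rw [preimage_const_mul_Ioc₀ _ _ hpi]; simp
    rw [e, ← Measure.restrict_map (by fun_prop) measurableSet_Ioc,
      Real.map_volume_mul_left hpi.ne', Measure.restrict_smul, ProbabilityTheory.cond,
      Real.volume_Ioc, sub_zero, abs_of_pos (inv_pos.2 hpi), ENNReal.ofReal_inv_of_pos hpi]
  rw [directionMeasure, ← h1, ← h2, Measure.map_map (by fun_prop) (by fun_prop),
    Measure.map_map measurable_ee (UnitAddCircle.measurePreserving_mk 0).measurable]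
  congr 1
  funext x
  simp only [Function.comp, ee, fourier_coe_apply]
  congr 1; push_cast; ring

/-- a phase point as a pair of position and velocity -/
def io (z : ZZ) : ℂ × ℂ := (z.2, ee z.1)

lemma continuous_io : Continuous io := by unfold io; fun_prop

lemma emb_io : MeasurableEmbedding io :=
  continuous_io.measurableEmbedding fun _ _ h =>
    Prod.ext (ee_injective (congrArg Prod.snd h)) (congrArg Prod.fst h)

namespace Tri

variable (T : Tri)

lemma ell_comb (c : Fin 3) (x y : ℂ) {a b : ℝ} (hab : a + b = 1) :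
    T.ell c (a • x + b • y) = a * T.ell c x + b * T.ell c y := by
  simp only [ell, cr, Complex.sub_re, Complex.sub_im, Complex.add_re, Complex.add_im,
    Complex.smul_re, Complex.smul_im, smul_eq_mul]
  have : b = 1 - a := by linarith
  subst this; ring

lemma hull_eq : convexHull ℝ (range T.P) = T.K := by
  apply Subset.antisymm
  · refine convexHull_min ?_ fun x hx y hy a b ha hb hab c => ?_
    · rintro _ ⟨c, rfl⟩
      simpa [gam] using T.gam_mem_K c le_rfl zero_le_one
    · rw [T.ell_comb c x y hab]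
      exact add_nonneg (mul_nonneg ha (hx c)) (mul_nonneg hb (hy c))
  · intro x hx
    have ho := T.o_pos
    refine mem_convexHull_of_exists_fintype (fun c : Fin 3 => T.ell (c + 1) x / T.o) T.P
      (fun c => div_nonneg (hx _) ho.le) ?_ (fun c => mem_range_self c) ?_
    · rw [fsum 0, f21, show (0 : Fin 3) + 1 + 1 = 0 + 2 from rfl]
      field_simp
      linarith [T.ell_sum 0 x]
    · rw [fsum 0, f21, show (0 : Fin 3) + 1 + 1 = 0 + 2 from rfl]
      have h := T.bary 0 x
      have ho' : (T.o : ℂ) ≠ 0 := by exact_mod_cast ho.ne'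
      simp only [Complex.real_smul, zero_add] at h ⊢
      push_cast
      field_simp
      linear_combination -h

lemma interior_K : interior T.K = T.Q := by
  refine Subset.antisymm (fun x hx c => ?_) (interior_maximal T.Q_sub_K T.isOpen_Q)
  have hc : Continuous (fun t : ℝ => x - t * (Complex.I * T.w c)) := by fun_prop
  have h1 : ∀ᶠ t : ℝ in 𝓝 0, x - t * (Complex.I * T.w c) ∈ T.K :=
    hc.continuousAt.eventually_mem (by simpa using mem_interior_iff_mem_nhds.1 hx)
  obtain ⟨t, h2, h3⟩ := ((h1.filter_mono nhdsWithin_le_nhds).and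
    (self_mem_nhdsWithin (s := Ioi (0 : ℝ)))).exists
  have h4 := h2 c
  have e : T.ell c (x - t * (Complex.I * T.w c)) = T.ell c x - t * ‖T.w c‖ ^ 2 := by
    rw [Complex.sq_norm, Complex.normSq_apply]
    simp only [ell, cr, Complex.sub_re, Complex.sub_im, Complex.mul_re, Complex.mul_im,
      Complex.ofReal_re, Complex.ofReal_im, Complex.I_re, Complex.I_im]
    ring
  have h5 : 0 < t * ‖T.w c‖ ^ 2 := mul_pos h3 (pow_pos (T.nw_pos c) 2)
  linarith

lemma ell_seg {b : Fin 3} {x : ℂ} (hx : x ∈ openSegment ℝ (T.P b) (T.P (b + 1))) :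
    T.ell b x = 0 := by
  obtain ⟨s, t, -, -, hst, rfl⟩ := hx
  rw [T.ell_comb b _ _ hst]
  simp only [ell, w, cr, Complex.sub_re, Complex.sub_im]
  ring

lemma mem_seg {a : Fin 3} {x : ℂ} (h0 : T.ell a x = 0) (h1 : 0 < T.ell (a + 1) x)
    (h2 : 0 < T.ell (a + 2) x) (b : Fin 3) : x ∈ openSegment ℝ (T.P b) (T.P (b + 1)) ↔ b = a := by
  constructor
  · intro h
    have := T.ell_seg h
    rcases f3 a b with rfl | rfl | rfl
    · rfl
    · linarith
    · linarith
  · rintro rfl
    have ho := T.o_pos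
    have ho' : (T.o : ℂ) ≠ 0 := by exact_mod_cast ho.ne'
    have h := T.bary b x
    refine ⟨T.ell (b + 1) x / T.o, T.ell (b + 2) x / T.o, by positivity, by positivity, ?_, ?_⟩
    · field_simp
      linarith [T.ell_sum b x]
    · simp only [Complex.real_smul]
      push_cast
      field_simp
      rw [h0] at h
      push_cast at h
      linear_combination -h

lemma refl_span (a : Fin 3) (u : ℂ) (hu : u = T.w a ∨ u = - T.w a) (v : ℂ) :
    (Submodule.span ℝ {u}).reflection v = T.s a ^ 2 * (starRingEnd ℂ) v := by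
  have hn := (T.nw_pos a).ne'
  have hs := T.s_sq a
  have e : ∃ c : ℝ, c ≠ 0 ∧ u = c * T.s a := by
    rcases hu with rfl | rfl
    · exact ⟨_, hn, T.w_eq a⟩
    · exact ⟨-‖T.w a‖, neg_ne_zero.2 hn, by push_cast; linear_combination -T.w_eq a⟩
  obtain ⟨c, hc, rfl⟩ := e
  rw [Submodule.reflection_singleton_apply, norm_mul, s, norm_ee, Complex.norm_real,
    Complex.inner, mul_one]
  simp only [RCLike.ofReal_real_eq_id, id, Real.norm_eq_abs, sq_abs]
  rw [← s]
  generalize T.s a = e at *
  apply Complex.ext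
  · simp [pow_two, -Complex.ofReal_div, -Complex.ofReal_add, -Complex.ofReal_mul]
    field_simp; linear_combination (v.re) * hs
  · simp [pow_two, -Complex.ofReal_div, -Complex.ofReal_add, -Complex.ofReal_mul]
    field_simp; linear_combination (v.im) * hs

lemma irr {c : Fin 3} (h : Irrational (InnerProductGeometry.angle (T.w c) (-T.w (c + 2)) / Real.pi))
    (n : ℤ) (hn : n ≠ 0) :
    (fourier n (T.sg c + T.sg c) : ℂ) ≠ fourier n (T.sg (c + 2) + T.sg (c + 2)) := by
  intro he
  have ne : ∀ a, T.s a ≠ 0 := fun a h => by simpa [h] using T.s_sq a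
  rw [fourier_eq_zpow, fourier_eq_zpow, ee_add, ee_add] at he
  set u := T.s c / (-T.s (c + 2)) with hu
  have u1 : ‖u‖ = 1 := by rw [hu, norm_div, norm_neg, s, s, norm_ee, norm_ee, div_one]
  have u2 : u ^ (2 * n) = 1 := by
    rw [zpow_mul, hu, div_zpow, div_zpow, zpow_two, zpow_two, neg_mul_neg]
    exact (div_eq_one_iff_eq (zpow_ne_zero _ (mul_ne_zero (ne _) (ne _)))).2 he
  have e1 : InnerProductGeometry.angle (T.w c) (-T.w (c + 2)) = |u.arg| := by
    rw [Complex.angle_eq_abs_arg (T.w_ne _) (neg_ne_zero.2 (T.w_ne _))]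
    have : T.w c / -T.w (c + 2) = ((‖T.w c‖ / ‖T.w (c + 2)‖ : ℝ) : ℂ) * u := by
      conv_lhs => rw [T.w_eq c, T.w_eq (c + 2)]
      rw [hu]; push_cast
      rw [div_mul_div_comm, mul_neg]
    rw [this, Complex.arg_real_mul _ (div_pos (T.nw_pos _) (T.nw_pos _))]
  have e2 : Complex.exp (u.arg * Complex.I) = u := by
    simpa [u1] using Complex.norm_mul_exp_arg_mul_I u
  rw [← e2, ← Complex.exp_int_mul, Complex.exp_eq_one_iff] at u2
  obtain ⟨k, hk⟩ := u2
  have e3 : (n : ℝ) * u.arg = k * Real.pi := by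
    have := congrArg Complex.im hk
    simp at this
    linarith
  have hn' : (n : ℝ) ≠ 0 := by exact_mod_cast hn
  apply h
  refine ⟨|(k : ℚ) / n|, ?_⟩
  rw [e1, show u.arg = k / n * Real.pi by field_simp; linarith, abs_mul, abs_of_pos Real.pi_pos]
  push_cast
  field_simp

/-- the triangle `T` describes the table with vertices `P` -/
structure Match (P : Fin 3 → ℂ) : Prop where
  hK : closedTable P = T.K
  he : ∃ e : Fin 3 → Fin 3, Function.Surjective e ∧ ∀ i,
    side P i = openSegment ℝ (T.P (e i)) (T.P (e i + 1)) ∧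
      ∀ v, reflectVel P i v = T.s (e i) ^ 2 * (starRingEnd ℂ) v
  ha : ∀ i, ∃ c, vertexAngle P i = InnerProductGeometry.angle (T.w c) (-T.w (c + 2))

end Tri

lemma exists_match {P : Fin 3 → ℂ} (hP : AffineIndependent ℝ P) : ∃ T : Tri, T.Match P := by
  rcases (cr_ne_zero hP).lt_or_gt with h | h
  · obtain ⟨T, hT⟩ := exists_tri (fun a => P (-a)) (by
      show 0 < cr (P 2 - P 0) (P 1 - P 0)
      unfold cr at h ⊢; linarith)
    have hp : ∀ i, P i = T.P (-i) := fun i => by rw [hT]; simp
    refine ⟨T, ?_, ⟨fun i => 1 - i, by decide, fun i => ⟨?_, fun v => ?_⟩⟩, fun i => ⟨-i, ?_⟩⟩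
    · rw [← T.hull_eq, hT, closedTable]
      congr 1
      exact (neg_surjective.range_comp P).symm
    · rw [side, hp, hp, openSegment_symm]
      congr 2 <;> revert i <;> decide
    · refine T.refl_span _ _ (Or.inr ?_) v
      rw [hp, hp, Tri.w, neg_sub]
      congr 2 <;> revert i <;> decide
    · rw [vertexAngle, EuclideanGeometry.angle, InnerProductGeometry.angle_comm, hp, hp, hp,
        Tri.w, Tri.w, neg_sub, f21, vsub_eq_sub, vsub_eq_sub]
      congr 3 <;> revert i <;> decide
  · obtain ⟨T, rfl⟩ := exists_tri P h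
    refine ⟨T, T.hull_eq, ⟨fun i => i + 1, by decide, fun i => ⟨?_, fun v => ?_⟩⟩, fun i => ⟨i, ?_⟩⟩
    · rw [side, f11]
    · refine T.refl_span _ _ (Or.inl ?_) v
      rw [Tri.w, f11]
    · rw [vertexAngle, EuclideanGeometry.angle, Tri.w, Tri.w, neg_sub, f21, vsub_eq_sub,
        vsub_eq_sub]

namespace Tri

variable {T : Tri} {P : Fin 3 → ℂ}

lemma Match.exit (m : T.Match P) {z : ZZ} (hz : z ∈ T.Dp) : exitTime P (io z) = T.Tx z := by
  have : {t : ℝ | 0 ≤ t ∧ (io z).1 + t • (io z).2 ∈ closedTable P} = Icc 0 (T.Tx z) := by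
    ext t
    have h := T.mem_K_iff (G_L0 hz.1).1 (G_L0 hz.1).2 t
    have e : (io z).1 + t • (io z).2 = (sh t z).2 := by simp [io, sh, mul_comm]
    rw [mem_ofPred_eq, e, m.hK, h, mem_Icc]
    exact and_congr_right fun h0 => ⟨fun h => h.2, fun h => ⟨hz.2.1.trans h0, h⟩⟩
  rw [exitTime, this, csSup_Icc hz.2.2.le]

lemma Match.bounce (m : T.Match P) {z : ZZ} (hz : z ∈ T.Dp) :
    bounce P (io z) = io (sh (T.Tx z) (T.sig z)) := by
  obtain ⟨e, hs, he⟩ := m.he
  have hE := (G_L0 hz.1).1
  have e1 : (io z).1 + exitTime P (io z) • (io z).2 = (sh (T.Tx z) z).2 := by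
    rw [m.exit hz]; simp [io, sh, mul_comm]
  have h0 := T.ell_at_Tc (Or.inl hE)
  have h1 := T.cross_at_Tc (Or.inl hE)
  have hm : ∀ i, (sh (T.Tx z) z).2 ∈ side P i ↔ e i = T.ex z := fun i => by
    rw [(he i).1]; exact T.mem_seg h0 h1.1 h1.2 _
  have hr : ∀ i, e i = T.ex z →
      ((sh (T.Tx z) z).2, reflectVel P i (io z).2) = io (sh (T.Tx z) (T.sig z)) := by
    intro i hi
    rw [(he i).2, hi, io, io, exit_eq_entry hz.1, sig_eq_refl hE hz.1]
    exact Prod.ext rfl (T.ee_rt _ _).symm
  unfold P099.bounce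
  rw [e1]
  simp only [hm]
  split_ifs with c0 c1 c2
  · exact hr 0 c0
  · exact hr 1 c1
  · exact hr 2 c2
  · obtain ⟨i, hi⟩ := hs (T.ex z)
    rcases f3 0 i with rfl | rfl | rfl
    · exact absurd hi c0
    · exact absurd hi c1
    · exact absurd hi c2

lemma Match.iter (m : T.Match P) {z : ZZ} (hz : z ∈ T.Dp) (n : ℕ) :
    (P099.bounce P)^[n] (io z) = io (sh (bounceTime P (io z) n) ((T.sig ^ (n : ℤ)) z)) ∧
      sh (bounceTime P (io z) n) ((T.sig ^ (n : ℤ)) z) ∈ T.Dp ∧
      bounceTime P (io z) (n + 1) = T.tt n z := by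
  have step : ∀ n : ℕ,
      (P099.bounce P)^[n] (io z) = io (sh (bounceTime P (io z) n) ((T.sig ^ (n : ℤ)) z)) →
      sh (bounceTime P (io z) n) ((T.sig ^ (n : ℤ)) z) ∈ T.Dp →
      bounceTime P (io z) (n + 1) = T.tt n z := by
    intro n h1 h2
    rw [bounceTime, Finset.sum_range_succ, ← bounceTime, h1, m.exit h2,
      Tx_sh _ ((zpow_mem_G _).2 hz.1), tt]
    ring
  induction n with
  | zero =>
    have h1 : (P099.bounce P)^[0] (io z) =
        io (sh (bounceTime P (io z) 0) ((T.sig ^ ((0 : ℕ) : ℤ)) z)) := by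
      simp [bounceTime, sh_zero]
    have h2 : sh (bounceTime P (io z) 0) ((T.sig ^ ((0 : ℕ) : ℤ)) z) ∈ T.Dp := by
      simpa [bounceTime, sh_zero] using hz
    exact ⟨h1, h2, step 0 h1 h2⟩
  | succ n ih =>
    obtain ⟨h1, h2, h3⟩ := ih
    have hG : ∀ k : ℤ, (T.sig ^ k) z ∈ T.G := fun k => (zpow_mem_G _).2 hz.1
    have h4 : (P099.bounce P)^[n + 1] (io z) =
        io (sh (bounceTime P (io z) (n + 1)) ((T.sig ^ ((n + 1 : ℕ) : ℤ)) z)) := by
      rw [Function.iterate_succ_apply', h1, m.bounce h2, h3, sig_sh, sh_add, Tx_sh _ (hG _)]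
      push_cast
      rw [zpow_succ', tt, sub_add_cancel]
    have h5 : sh (bounceTime P (io z) (n + 1)) ((T.sig ^ ((n + 1 : ℕ) : ℤ)) z) ∈ T.Dp := by
      rw [h3, ← zpow_sh, zpow_mem_Dp ((sh_mem_G _ _).2 hz.1), tt_sh _ _ hz.1, tt_sh _ _ hz.1]
      push_cast
      rw [add_sub_cancel_right, sub_self, sub_pos]
      exact ⟨le_rfl, tt_strictMono hz.1 (by omega)⟩
    exact ⟨h4, h5, step _ h4 h5⟩

lemma Match.forward (m : T.Match P) {z : ZZ} (hz : z ∈ T.Dp) {t : ℝ} (ht : 0 ≤ t) :
    forwardFlow P t (io z) = io (T.fl t z) := by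
  have hG := (sh_mem_G t z).2 hz.1
  obtain ⟨k, hk⟩ := exists_mem_Dp hG
  have hk' := (zpow_mem_Dp hG k).1 hk
  rw [tt_sh _ _ hz.1, tt_sh _ _ hz.1, sub_nonpos, sub_pos] at hk'
  have hm := tt_strictMono hz.1
  have h0 : T.tt (0 - 1) z ≤ 0 := ((zpow_mem_Dp hz.1 0).1 (by simpa using hz)).1
  have hk0 : 0 ≤ k := by
    have := hm.lt_iff_lt.1 ((h0.trans ht).trans_lt hk'.2)
    omega
  lift k to ℕ using hk0
  have hc : bounceCount P t (io z) = k := by
    have : {n : ℕ | bounceTime P (io z) n ≤ t} = Iic k := by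
      ext n
      rw [mem_ofPred_eq, mem_Iic]
      cases n with
      | zero => simp [bounceTime, ht]
      | succ n =>
        rw [(m.iter hz n).2.2]
        constructor
        · intro h
          have := hm.lt_iff_lt.1 (h.trans_lt hk'.2)
          omega
        · intro h
          exact (hm.monotone (by omega)).trans hk'.1
    rw [bounceCount, this, csSup_Iic]
  rw [forwardFlow, hc, (m.iter hz k).1, fl, fold_eq hk, zpow_sh]
  simp only [io, sh, Complex.real_smul, Prod.mk.injEq, and_true]
  push_cast; ring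

lemma Match.table (m : T.Match P) : table P = T.Q := by rw [P099.table, m.hK, interior_K]

lemma nu_univ (T : Tri) : T.nu univ = volume T.Q := by
  rw [nu_eq, ← univ_prod_univ, Measure.prod_prod]; simp

lemma Match.liouville (m : T.Match P) : liouville P = (volume T.Q)⁻¹ • T.nu.map io := by
  rw [P099.liouville, m.table, directionMeasure_eq, ProbabilityTheory.cond, Measure.prod_smul_left,
    nu_eq]
  congr 1
  conv_lhs => rw [← Measure.map_id (μ := volume.restrict T.Q)]
  rw [Measure.map_prod_map _ _ measurable_id measurable_ee, ← Measure.prod_swap,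
    Measure.map_map (measurable_id.prodMap measurable_ee) measurable_swap]
  rfl

lemma Match.prob (m : T.Match P) : IsProbabilityMeasure (P099.liouville P) := by
  constructor
  rw [m.liouville, Measure.smul_apply, Measure.map_apply emb_io.measurable MeasurableSet.univ,
    preimage_univ, nu_univ, smul_eq_mul,
    ENNReal.inv_mul_cancel T.volume_Q_ne T.volume_Q_lt_top.ne]

lemma Match.weak (m : T.Match P) (hirr : ∃ i, Irrational (vertexAngle P i / Real.pi)) :
    FlowWeakMixing (P099.liouville P) (flow P) := by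
  intro A hA hi
  obtain ⟨i, hirr⟩ := hirr
  obtain ⟨c, hc⟩ := m.ha i
  rw [hc] at hirr
  have mi := emb_io.measurable.prodMap emb_io.measurable
  have hv := T.volume_Q_ne
  have hv' := T.volume_Q_lt_top.ne
  have e : (P099.liouville P).prod (P099.liouville P) =
      ((volume T.Q)⁻¹ * (volume T.Q)⁻¹) • (T.nu.prod T.nu).map (Prod.map io io) := by
    have := m.prob
    rw [← Measure.map_prod_map _ _ emb_io.measurable emb_io.measurable]
    nth_rewrite 1 [m.liouville]
    rw [Measure.prod_smul_left, m.liouville, Measure.prod_smul_right, smul_smul]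
  have key := T.wm (A := Prod.map io io ⁻¹' A) ⟨c, c + 2, T.irr hirr⟩ (mi hA) fun t ht => by
    have h1 := hi t
    rw [e, Measure.smul_apply, smul_eq_mul, mul_eq_zero] at h1
    have h2 := h1.resolve_left (mul_ne_zero (ENNReal.inv_ne_zero.2 hv') (ENNReal.inv_ne_zero.2 hv'))
    have h3 := ae_of_ae_map mi.aemeasurable (measure_eq_zero_iff_ae_notMem.1 h2)
    filter_upwards [h3, T.ae_Dp2] with p hp hD
    simp only [mem_symmDiff, mem_preimage, Prod.map, flow, if_pos ht, m.forward hD.1 ht,
      m.forward hD.2 ht] at hp ⊢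
    tauto
  rw [e, Measure.smul_apply, Measure.map_apply mi hA, smul_eq_mul]
  rcases key with h | h
  · left; rw [h, mul_zero]
  · right
    rw [h, nu_univ, mul_mul_mul_comm, ENNReal.inv_mul_cancel hv hv', mul_one]

lemma Match.mp_forward (m : T.Match P) {t : ℝ} (ht : 0 ≤ t) :
    AEMeasurable (forwardFlow P t) (P099.liouville P) ∧
      (P099.liouville P).map (forwardFlow P t) = P099.liouville P := by
  have h : forwardFlow P t ∘ io =ᵐ[T.nu] io ∘ T.fl t := by
    filter_upwards [T.ae_Dp] with z hz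
    exact m.forward hz ht
  have h1 : AEMeasurable (forwardFlow P t) (T.nu.map io) :=
    emb_io.aemeasurable_map_iff.2
      ((emb_io.measurable.comp (T.mp_fl t).measurable).aemeasurable.congr h.symm)
  rw [m.liouville]
  refine ⟨h1.smul_measure _, ?_⟩
  rw [Measure.map_smul, AEMeasurable.map_map_of_aemeasurable h1 emb_io.measurable.aemeasurable,
    Measure.map_congr h, ← Measure.map_map emb_io.measurable (T.mp_fl t).measurable,
    (T.mp_fl t).map_eq]

lemma Match.mp_reverse (m : T.Match P) :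
    MeasurePreserving reverse (P099.liouville P) (P099.liouville P) := by
  have hr : Measurable reverse := by unfold reverse; fun_prop
  have mp : MeasurePreserving (Prod.map (fun θ : TT => θ + ((1 / 2 : ℝ) : TT)) id) T.nu T.nu := by
    rw [nu_eq]
    exact (measurePreserving_add_right _ _).prod (MeasurePreserving.id _)
  refine ⟨hr, ?_⟩
  rw [m.liouville, Measure.map_smul, Measure.map_map hr emb_io.measurable]
  conv_rhs => rw [← mp.map_eq, Measure.map_map emb_io.measurable mp.measurable]
  congr 2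
  funext z
  exact Prod.ext rfl (ee_half z.1).symm

lemma Match.mp (m : T.Match P) (t : ℝ) : AEMeasurable (flow P t) (P099.liouville P) ∧
    (P099.liouville P).map (flow P t) = P099.liouville P := by
  by_cases ht : 0 ≤ t
  · have : flow P t = forwardFlow P t := funext fun z => if_pos ht
    rw [this]; exact m.mp_forward ht
  · have : flow P t = reverse ∘ forwardFlow P (-t) ∘ reverse := funext fun z => if_neg ht
    obtain ⟨h1, h2⟩ := m.mp_forward (t := -t) (by linarith)
    have r := m.mp_reverse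
    have h3 : AEMeasurable (forwardFlow P (-t)) ((P099.liouville P).map reverse) := by
      rwa [r.map_eq]
    have h4 := h3.comp_measurable r.measurable
    rw [this]
    refine ⟨r.measurable.comp_aemeasurable h4, ?_⟩
    rw [← AEMeasurable.map_map_of_aemeasurable r.measurable.aemeasurable h4,
      ← AEMeasurable.map_map_of_aemeasurable h3 r.measurable.aemeasurable, r.map_eq, h2, r.map_eq]

end Tri

lemma ergodic_of_weak {X : Type} [MeasurableSpace X] {μ : Measure X} [IsProbabilityMeasure μ]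
    {Φ : ℝ → X → X} (h : FlowWeakMixing μ Φ) : FlowErgodic μ Φ := by
  intro A hA hi
  have := h (A ×ˢ univ) (hA.prod MeasurableSet.univ) fun t => by
    have e : symmDiff (Prod.map (Φ t) (Φ t) ⁻¹' (A ×ˢ univ)) (A ×ˢ univ) =
        symmDiff (Φ t ⁻¹' A) A ×ˢ univ := by
      ext p; simp [mem_symmDiff]
    rw [e, Measure.prod_prod, hi t, zero_mul]
  simpa [Measure.prod_prod] using this

end

end Vale.Agent.P099
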