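import Vale.Agent.P099.Pestov
import Vale.Agent.P099.Cutoff

/-!
Fourier modes in the direction variable and the energy estimate for them.
-/

open MeasureTheory Set Filter Topology

namespace Vale.Agent.P099

noncomputable section

lemma haar_eq : (AddCircle.haarAddCircle : Measure TT) = volume := by
  rw [AddCircle.volume_eq_smul_haarAddCircle]; simp

instance : IsProbabilityMeasure (volume : Measure TT) := by rw [← haar_eq]; infer_instance

lemma hasSum_parseval {φ : TT → ℂ} (hφ : Measurable φ) {C : ℝ} (hC : ∀ θ, ‖φ θ‖ ≤ C) :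
    HasSum (fun n : ℤ => ‖∫ θ, fourier (-n) θ * φ θ‖ ^ 2) (∫ θ, ‖φ θ‖ ^ 2) := by
  have hm : MemLp φ 2 (AddCircle.haarAddCircle : Measure TT) :=
    MemLp.of_bound hφ.aestronglyMeasurable C (Eventually.of_forall hC)
  have h := hasSum_sq_fourierCoeff hm.toLp
  rw [fourierCoeff_congr_ae hm.coeFn_toLp,
    integral_congr_ae (g := fun θ => ‖φ θ‖ ^ 2) (hm.coeFn_toLp.mono fun θ hθ => by rw [hθ])] at h
  simpa only [fourierCoeff, haar_eq, smul_eq_mul] using h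

variable {Ω : Type*} [MeasurableSpace Ω]

/-- the `n`-th Fourier mode in the direction -/
def md (n : ℤ) (f : TT × Ω → ℂ → ℂ) (ω : Ω) (x : ℂ) : ℂ := ∫ θ, fourier (-n) θ * f (θ, ω) x

lemma Nice_fourier (k : ℕ) (n : ℤ) : Nice k (fun (l : TT × Ω) (_ : ℂ) => fourier n l.1) :=
  Nice.const k ((fourier n).continuous.measurable.comp measurable_fst) (C := 1)
    fun l => (norm_fourier n l.1).le

lemma Nice_ee (k : ℕ) : Nice k (fun (l : TT × Ω) (_ : ℂ) => ee l.1) := Nice_fourier k 1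

section
variable {f g : TT × Ω → ℂ → ℂ}

lemma Nice_md {k : ℕ} (hf : Nice k f) (n : ℤ) : Nice k (md n f) :=
  Nice.integral volume ((Nice_fourier k (-n)).mul hf)

lemma N0_md (hf : N0 f) (n : ℤ) : N0 (md n f) := Nice_md (k := 0) hf n

lemma md_int (hf : N0 f) (n : ℤ) (ω : Ω) (x : ℂ) :
    Integrable (fun θ => fourier (-n) θ * f (θ, ω) x) :=
  ((Nice_fourier 0 (-n)).n0.mul hf).integrable_param volume ω x

lemma md_add (hf : N0 f) (hg : N0 g) (n : ℤ) (ω : Ω) (x : ℂ) :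
    md n (fun l x => f l x + g l x) ω x = md n f ω x + md n g ω x := by
  simp only [md, mul_add]
  exact integral_add (md_int hf n ω x) (md_int hg n ω x)

lemma md_sub (hf : N0 f) (hg : N0 g) (n : ℤ) (ω : Ω) (x : ℂ) :
    md n (fun l x => f l x - g l x) ω x = md n f ω x - md n g ω x := by
  simp only [md, mul_sub]
  exact integral_sub (md_int hf n ω x) (md_int hg n ω x)

omit [MeasurableSpace Ω] in
lemma md_const_mul (c : ℂ) (n : ℤ) (ω : Ω) (x : ℂ) :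
    md n (fun l x => c * f l x) ω x = c * md n f ω x := by
  simp only [md, ← integral_const_mul]
  congr 1; funext θ; ring

omit [MeasurableSpace Ω] in
lemma md_ee (n : ℤ) (ω : Ω) (x : ℂ) :
    md (n + 1) (fun l x => ee l.1 * f l x) ω x = md n f ω x := by
  simp only [md, ee]
  congr 1; funext θ
  rw [← mul_assoc, ← fourier_add]; congr 2; ring_nf

omit [MeasurableSpace Ω] in
lemma md_conj_ee (n : ℤ) (ω : Ω) (x : ℂ) :
    md n (fun l x => (starRingEnd ℂ) (ee l.1) * f l x) ω x = md (n + 1) f ω x := by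
  simp only [md, ee]
  congr 1; funext θ
  rw [← mul_assoc, ← fourier_neg, ← fourier_add]; congr 2; ring_nf

lemma d1_md (hf : Nice 1 f) (n : ℤ) (ω : Ω) (x : ℂ) :
    d1 (md n f ω) x = md n (fun l => d1 (f l)) ω x := by
  refine (Nice.d1_integral volume ((Nice_fourier 1 (-n)).mul hf) ω x).trans ?_
  simp only [md]
  congr 1; funext θ
  exact d1_const_mul _ (hf.diff _ x)
lemma d2_md (hf : Nice 1 f) (n : ℤ) (ω : Ω) (x : ℂ) :
    d2 (md n f ω) x = md n (fun l => d2 (f l)) ω x := by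
  refine (Nice.d2_integral volume ((Nice_fourier 1 (-n)).mul hf) ω x).trans ?_
  simp only [md]
  congr 1; funext θ
  exact d2_const_mul _ (hf.diff _ x)

lemma dz_md (hf : Nice 1 f) (n : ℤ) (ω : Ω) (x : ℂ) :
    dz (md n f ω) x = md n (fun l => dz (f l)) ω x := by
  rw [dz, d1_md hf, d2_md hf, ← md_const_mul, ← md_sub hf.D1.n0 ((N0.const' _).mul hf.D2.n0)]
  rfl
lemma dzb_md (hf : Nice 1 f) (n : ℤ) (ω : Ω) (x : ℂ) :
    dzb (md n f ω) x = md n (fun l => dzb (f l)) ω x := by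
  rw [dzb, d1_md hf, d2_md hf, ← md_const_mul, ← md_add hf.D1.n0 ((N0.const' _).mul hf.D2.n0)]
  rfl

omit [MeasurableSpace Ω] in
lemma md_boundary (T : Tri) (a : Fin 3) (n : ℤ) (ω : Ω) (x : ℂ)
    (hr : ∀ θ, (starRingEnd ℂ) (f (θ, ω) x) = f (θ, ω) x)
    (hs : ∀ θ, f (T.rt a θ, ω) x = f (θ, ω) x) :
    md n f ω x = fourier (-n) (T.sg a + T.sg a) * (starRingEnd ℂ) (md n f ω x) := by
  simp only [md]
  rw [← integral_conj, ← integral_const_mul,
    ← integral_sub_left_eq_self (fun θ => fourier (-n) θ * f (θ, ω) x) volume (T.sg a + T.sg a)]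
  congr 1; funext θ
  have := hs θ
  simp only [Tri.rt] at this
  rw [this, sub_eq_add_neg, fourier_arg_add, fourier_arg_neg, map_mul, hr]; ring

lemma md_bilin (ν : Measure Ω) [IsFiniteMeasure ν] (hf : N0 f) (hg : N0 g)
    (hr : ∀ l x, (starRingEnd ℂ) (f l x) = f l x) (j k : ℤ) (x : ℂ) :
    ∫ ω, (starRingEnd ℂ) (md j f ω x) * md k g ω x ∂ν =
      ∫ p : TT × TT, (starRingEnd ℂ) (fourier (-j) p.1) * fourier (-k) p.2 *
        ∫ ω, f (p.1, ω) x * g (p.2, ω) x ∂ν := by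
  have e : ∀ ω, (starRingEnd ℂ) (md j f ω x) * md k g ω x = ∫ p : TT × TT,
      (starRingEnd ℂ) (fourier (-j) p.1) * fourier (-k) p.2 * (f (p.1, ω) x * g (p.2, ω) x) := by
    intro ω
    simp only [md]
    rw [← integral_conj, ← integral_prod_mul]
    congr 1; funext p
    rw [map_mul, hr]; ring
  simp_rw [e, ← integral_const_mul]
  have n1 : N0 (fun (q : (TT × TT) × Ω) (x : ℂ) => (starRingEnd ℂ) (fourier (-j) q.1.1) *
      fourier (-k) q.1.2 * (f (q.1.1, q.2) x * g (q.1.2, q.2) x)) := by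
    have m1 : Measurable (fun q : (TT × TT) × Ω => (q.1.1, q.2)) := by fun_prop
    have m2 : Measurable (fun q : (TT × TT) × Ω => (q.1.2, q.2)) := by fun_prop
    exact ((((Nice_fourier 0 (-j)).n0.comp m1).conj).mul ((Nice_fourier 0 (-k)).n0.comp m2)).mul
      ((hf.comp m1).mul (hg.comp m2))
  obtain ⟨C, hC⟩ := n1.2
  symm
  apply integral_integral_swap
  exact Integrable.of_bound (n1.meas' x).aestronglyMeasurable C (Eventually.of_forall fun q => hC q x)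

end

namespace Tri

variable (T : Tri) (ν : Measure Ω) [IsFiniteMeasure ν]

/-- the measure on parameters and positions -/
def mm : Measure (Ω × ℂ) := ν.prod (volume.restrict T.Q)

instance : IsFiniteMeasure (T.mm ν) := by unfold mm; infer_instance

def nrm (F : Ω → ℂ → ℂ) : ℝ := ∫ q, ‖F q.1 q.2‖ ^ 2 ∂T.mm ν
def E2 (f : TT × Ω → ℂ → ℂ) : ℝ := ∫ y : Ω × ZZ, ‖f (y.2.1, y.1) y.2.2‖ ^ 2 ∂ν.prod T.nu

lemma N0_int {F : Ω → ℂ → ℂ} (hF : N0 F) : Integrable (fun q : Ω × ℂ => F q.1 q.2) (T.mm ν) := by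
  obtain ⟨C, hC⟩ := hF.2
  exact Integrable.of_bound hF.1.aestronglyMeasurable C (Eventually.of_forall fun q => hC _ _)

lemma sq_int {Y : Type*} [MeasurableSpace Y] (μ : Measure Y) [IsFiniteMeasure μ] {F : Y → ℂ}
    (hF : Measurable F) {C : ℝ} (hC : ∀ y, ‖F y‖ ≤ C) : Integrable (fun y => ‖F y‖ ^ 2) μ :=
  Integrable.of_bound (hF.norm.pow_const 2).aestronglyMeasurable (C ^ 2)
    (Eventually.of_forall fun y => by
      rw [Real.norm_eq_abs, abs_of_nonneg (sq_nonneg _)]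
      exact pow_le_pow_left₀ (norm_nonneg _) (hC y) 2)

lemma N0_sq_int {F : Ω → ℂ → ℂ} (hF : N0 F) :
    Integrable (fun q : Ω × ℂ => ‖F q.1 q.2‖ ^ 2) (T.mm ν) := by
  obtain ⟨C, hC⟩ := hF.2
  exact sq_int _ hF.1 fun q => hC _ _

omit [IsFiniteMeasure ν] in
lemma nrm_nonneg (F : Ω → ℂ → ℂ) : 0 ≤ T.nrm ν F := integral_nonneg fun _ => sq_nonneg _

lemma nrm_eq {F : Ω → ℂ → ℂ} (hF : N0 F) : T.nrm ν F = ∫ ω, ∫ x in T.Q, ‖F ω x‖ ^ 2 ∂volume ∂ν :=
  integral_prod _ (T.N0_sq_int ν hF)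

lemma E2_eq {f : TT × Ω → ℂ → ℂ} (hf : N0 f) :
    T.E2 ν f = ∫ q, ∫ θ, ‖f (θ, q.1) q.2‖ ^ 2 ∂volume ∂T.mm ν := by
  obtain ⟨C, hC⟩ := hf.2
  have m1 : Measurable (fun y : Ω × ZZ => f (y.2.1, y.1) y.2.2) :=
    hf.1.comp (g := fun q : (TT × Ω) × ℂ => f q.1 q.2)
      (f := fun y : Ω × ZZ => ((y.2.1, y.1), y.2.2)) (by fun_prop)
  have m2 : Measurable (fun y : (Ω × ℂ) × TT => f (y.2, y.1.1) y.1.2) :=
    hf.1.comp (g := fun q : (TT × Ω) × ℂ => f q.1 q.2)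
      (f := fun y : (Ω × ℂ) × TT => ((y.2, y.1.1), y.1.2)) (by fun_prop)
  have i2 := (sq_int ((T.mm ν).prod volume) m2 fun y => hC _ _).integral_prod_left
  rw [E2, integral_prod _ (sq_int _ m1 fun y => hC _ _)]
  unfold mm at i2 ⊢
  rw [integral_prod _ i2]
  congr 1; funext ω
  rw [T.nu_eq]
  exact integral_prod_symm _ (sq_int _ (m1.comp measurable_prodMk_left) fun y => hC _ _)

lemma int_theta_sq {f : TT × Ω → ℂ → ℂ} (hf : N0 f) :
    Integrable (fun q : Ω × ℂ => ∫ θ, ‖f (θ, q.1) q.2‖ ^ 2) (T.mm ν) := by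
  obtain ⟨C, hC⟩ := hf.2
  have m2 : Measurable (fun y : (Ω × ℂ) × TT => f (y.2, y.1.1) y.1.2) :=
    hf.1.comp (g := fun q : (TT × Ω) × ℂ => f q.1 q.2)
      (f := fun y : (Ω × ℂ) × TT => ((y.2, y.1.1), y.1.2)) (by fun_prop)
  exact (sq_int ((T.mm ν).prod volume) m2 fun y => hC _ _).integral_prod_left

lemma md_hasSum {f : TT × Ω → ℂ → ℂ} (hf : N0 f) (ω : Ω) (x : ℂ) :
    HasSum (fun n : ℤ => ‖md n f ω x‖ ^ 2) (∫ θ, ‖f (θ, ω) x‖ ^ 2) := by
  obtain ⟨C, hC⟩ := hf.2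
  exact hasSum_parseval ((hf.meas' x).comp measurable_prodMk_right) fun θ => hC _ _

lemma bessel {f : TT × Ω → ℂ → ℂ} (hf : N0 f) (s : Finset ℤ) :
    ∑ n ∈ s, T.nrm ν (md n f) ≤ T.E2 ν f := by
  rw [T.E2_eq ν hf]
  unfold nrm
  rw [← integral_finsetSum _ fun n _ => T.N0_sq_int ν (N0_md hf n)]
  refine integral_mono (integrable_finsetSum _ fun n _ => T.N0_sq_int ν (N0_md hf n))
    (T.int_theta_sq ν hf) fun q => ?_
  exact sum_le_hasSum s (fun n _ => sq_nonneg _) (md_hasSum hf q.1 q.2)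

lemma nrm_md_le {f : TT × Ω → ℂ → ℂ} (hf : N0 f) (n : ℤ) : T.nrm ν (md n f) ≤ T.E2 ν f := by
  simpa using T.bessel ν hf {n}

lemma E2_zero_of_modes {f : TT × Ω → ℂ → ℂ} (hf : N0 f) (h : ∀ n, T.nrm ν (md n f) = 0) :
    T.E2 ν f = 0 := by
  rw [T.E2_eq ν hf]
  have h1 : ∀ᵐ q ∂T.mm ν, ∀ n : ℤ, ‖md n f q.1 q.2‖ ^ 2 = 0 := by
    rw [ae_all_iff]
    intro n
    exact (integral_eq_zero_iff_of_nonneg (fun q => sq_nonneg _)
      (T.N0_sq_int ν (N0_md hf n))).1 (h n)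
  rw [← integral_zero _ ℝ (μ := T.mm ν)]
  apply integral_congr_ae
  filter_upwards [h1] with q hq
  have := md_hasSum hf q.1 q.2
  simp only [hq] at this
  exact this.unique hasSum_zero

lemma memLp {F : Ω → ℂ → ℂ} (hF : N0 F) : MemLp (fun q : Ω × ℂ => F q.1 q.2) 2 (T.mm ν) := by
  obtain ⟨C, hC⟩ := hF.2
  exact MemLp.of_bound hF.1.aestronglyMeasurable C (Eventually.of_forall fun q => hC _ _)

def toL {F : Ω → ℂ → ℂ} (hF : N0 F) : Lp ℂ 2 (T.mm ν) := (T.memLp ν hF).toLp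

lemma coe_toL {F : Ω → ℂ → ℂ} (hF : N0 F) : T.toL ν hF =ᵐ[T.mm ν] fun q => F q.1 q.2 :=
  (T.memLp ν hF).coeFn_toLp

lemma inner_toL {F G : Ω → ℂ → ℂ} (hF : N0 F) (hG : N0 G) :
    inner ℂ (T.toL ν hF) (T.toL ν hG) = ∫ q, (starRingEnd ℂ) (F q.1 q.2) * G q.1 q.2 ∂T.mm ν := by
  rw [L2.inner_def]
  apply integral_congr_ae
  filter_upwards [T.coe_toL ν hF, T.coe_toL ν hG] with q h1 h2
  rw [h1, h2, RCLike.inner_apply, mul_comm]

lemma norm_toL {F : Ω → ℂ → ℂ} (hF : N0 F) : ‖T.toL ν hF‖ ^ 2 = T.nrm ν F := by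
  rw [@norm_sq_eq_re_inner ℂ, inner_toL]
  simp_rw [conj_mul_self]
  rw [integral_complex_ofReal]; rfl

theorem mode_estimate {f g h B : TT × Ω → ℂ → ℂ} (hf : Nice 2 f) (hh : Nice 1 h) (hg : N0 g)
    (hB : N0 B)
    (hz : ∀ l x, dz (f l) x = (starRingEnd ℂ) (ee l.1) * ((g l x + h l x) - Complex.I * B l x))
    (hzb : ∀ l x, dzb (f l) x = ee l.1 * ((g l x + h l x) + Complex.I * B l x))
    (rf : ∀ l x, (starRingEnd ℂ) (f l x) = f l x) (rh : ∀ l x, (starRingEnd ℂ) (h l x) = h l x)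
    (sf : ∀ a θ ω, ∀ r ∈ Ioo (0 : ℝ) 1, f (T.rt a θ, ω) (T.gam a r) = f (θ, ω) (T.gam a r))
    (sh : ∀ a θ ω, ∀ r ∈ Ioo (0 : ℝ) 1, h (T.rt a θ, ω) (T.gam a r) = h (θ, ω) (T.gam a r))
    (anti : ∀ θ θ' x, ∫ ω, f (θ, ω) x * dz (h (θ', ω)) x ∂ν = - ∫ ω, h (θ, ω) x * dz (f (θ', ω)) x ∂ν)
    {β γ η : ℝ} (hβ : 0 ≤ β) (hγ : 0 ≤ γ) (hη : 0 ≤ η) (eB : T.E2 ν B ≤ β ^ 2)
    (eg : T.E2 ν g ≤ γ ^ 2) (eh : T.E2 ν h ≤ η ^ 2) (N : ℕ) (hN : 0 < N) (n : ℤ) :
    T.nrm ν (fun ω => dz (md n f ω)) + T.nrm ν (fun ω => dzb (md n f ω)) ≤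
      2 * (4 * (γ ^ 2 + η ^ 2) / N + (1 + N ^ 2) * (4 * (γ + η) * γ + 8 * β * γ)) := by
  have na : ∀ n, N0 (fun ω => dz (md n f ω)) := fun n => (Nice_md hf n).Dz.n0
  have nb : ∀ n, N0 (fun ω => dzb (md n f ω)) := fun n => (Nice_md hf n).Dzb.n0
  have bf : ∀ n a ω, ∀ r ∈ Ioo (0 : ℝ) 1, md n f ω (T.gam a r) =
      fourier (-n) (T.sg a + T.sg a) * (starRingEnd ℂ) (md n f ω (T.gam a r)) :=
    fun n a ω r hr => md_boundary T a n ω _ (fun θ => rf _ _) fun θ => sf a θ ω r hr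
  have bh : ∀ n a ω, ∀ r ∈ Ioo (0 : ℝ) 1, md n h ω (T.gam a r) =
      fourier (-n) (T.sg a + T.sg a) * (starRingEnd ℂ) (md n h ω (T.gam a r)) :=
    fun n a ω r hr => md_boundary T a n ω _ (fun θ => rh _ _) fun θ => sh a θ ω r hr
  have P1 : ∀ n, T.nrm ν (fun ω => dzb (md n f ω)) = T.nrm ν (fun ω => dz (md n f ω)) := by
    intro n
    rw [T.nrm_eq ν (na n), T.nrm_eq ν (nb n)]
    congr 1; funext ω
    exact T.pestov (Nice_md hf n) ω _ (fun a => fourier_mul_conj _ _) (fun a => bf n a ω)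
  have key := energy_estimate (fun n => T.toL ν (N0_md hB n)) (fun n => T.toL ν (N0_md hg n))
    (fun n => T.toL ν (N0_md hh.n0 n)) (fun n => T.toL ν (na n)) (fun n => T.toL ν (nb n))
    β γ η hβ hγ hη ?_ ?_ ?_ ?_ ?_ ?_ ?_ N hN n
  · rw [norm_toL] at key
    rw [P1]; linarith
  · intro n
    apply Lp.ext
    filter_upwards [T.coe_toL ν (na n), T.coe_toL ν (N0_md hB (n + 1)),
      T.coe_toL ν (N0_md hg (n + 1)), T.coe_toL ν (N0_md hh.n0 (n + 1)),
      Lp.coeFn_sub (T.toL ν (N0_md hg (n + 1)) + T.toL ν (N0_md hh.n0 (n + 1)))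
        (Complex.I • T.toL ν (N0_md hB (n + 1))),
      Lp.coeFn_add (T.toL ν (N0_md hg (n + 1))) (T.toL ν (N0_md hh.n0 (n + 1))),
      Lp.coeFn_smul Complex.I (T.toL ν (N0_md hB (n + 1)))] with q h1 h2 h3 h4 h5 h6 h7
    rw [h5, Pi.sub_apply, h6, h7, Pi.add_apply, Pi.smul_apply, h1, h2, h3, h4, smul_eq_mul,
      dz_md hf.mono, ← md_add hg hh.n0, ← md_const_mul,
      ← md_sub (hg.add hh.n0) ((N0.const' _).mul hB), ← md_conj_ee]
    congr 1; funext l x; exact hz l x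
  · intro n
    apply Lp.ext
    filter_upwards [T.coe_toL ν (nb (n + 1)), T.coe_toL ν (N0_md hB n),
      T.coe_toL ν (N0_md hg n), T.coe_toL ν (N0_md hh.n0 n),
      Lp.coeFn_add (T.toL ν (N0_md hg n) + T.toL ν (N0_md hh.n0 n))
        (Complex.I • T.toL ν (N0_md hB n)),
      Lp.coeFn_add (T.toL ν (N0_md hg n)) (T.toL ν (N0_md hh.n0 n)),
      Lp.coeFn_smul Complex.I (T.toL ν (N0_md hB n))] with q h1 h2 h3 h4 h5 h6 h7
    rw [h5, Pi.add_apply, h6, h7, Pi.add_apply, Pi.smul_apply, h1, h2, h3, h4, smul_eq_mul,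
      dzb_md hf.mono, ← md_add hg hh.n0, ← md_const_mul,
      ← md_add (hg.add hh.n0) ((N0.const' _).mul hB), ← md_ee n]
    congr 1; funext l x; exact hzb l x
  · intro n
    have : ‖T.toL ν (nb n)‖ ^ 2 = ‖T.toL ν (na n)‖ ^ 2 := by rw [norm_toL, norm_toL, P1]
    exact (pow_left_inj₀ (norm_nonneg _) (norm_nonneg _) two_ne_zero).1 this
  · intro n
    have nF := Nice_md hf.mono (n + 1)
    have nH := Nice_md hh n
    have j1 := T.N0_int ν (nF.Dzb.n0.conj.mul nH.n0)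
    have j2 := T.N0_int ν (nF.n0.conj.mul nH.Dz.n0)
    have j3 := T.N0_int ν ((Nice_md hh (n + 1)).n0.conj.mul (na n))
    have e1 : ((∫ q, (starRingEnd ℂ) (dzb (md (n + 1) f q.1) q.2) * md n h q.1 q.2 ∂T.mm ν) +
        ∫ q, (starRingEnd ℂ) (md (n + 1) f q.1 q.2) * dz (md n h q.1) q.2 ∂T.mm ν).re = 0 := by
      unfold mm at j1 j2 ⊢
      have j4 : Integrable (fun ω =>
          (∫ x in T.Q, (starRingEnd ℂ) (dzb (md (n + 1) f ω) x) * md n h ω x) +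
            ∫ x in T.Q, (starRingEnd ℂ) (md (n + 1) f ω x) * dz (md n h ω) x) ν :=
        j1.integral_prod_left.add j2.integral_prod_left
      rw [integral_prod _ j1, integral_prod _ j2,
        ← integral_add j1.integral_prod_left j2.integral_prod_left, ← RCLike.re_to_complex,
        ← integral_re j4, ← integral_zero _ ℝ (μ := ν)]
      congr 1; funext ω
      refine T.pestov2 nF nH ω (fun a => fourier (-n) (T.sg a + T.sg a))
        (fun a => fourier_mul_conj _ _) (fun a r hr => ?_) (fun a => bh n a ω)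
      have : (fourier (-(n + 1)) (T.sg a + T.sg a) : ℂ) =
          fourier (-n) (T.sg a + T.sg a) * (starRingEnd ℂ) (T.s a) ^ 2 := by
        rw [neg_add, fourier_add, fourier_neg (n := 1), fourier_arg_add 1, map_mul, sq]; rfl
      rw [← this]
      exact bf (n + 1) a ω r hr
    have e2 : ∫ q, (starRingEnd ℂ) (md (n + 1) f q.1 q.2) * dz (md n h q.1) q.2 ∂T.mm ν =
        - ∫ q, (starRingEnd ℂ) (md (n + 1) h q.1 q.2) * dz (md n f q.1) q.2 ∂T.mm ν := by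
      unfold mm at j2 j3 ⊢
      rw [integral_prod_symm _ j2, integral_prod_symm _ j3, ← integral_neg]
      congr 1; funext x
      simp_rw [dz_md hh, dz_md hf.mono]
      rw [md_bilin ν hf.n0 hh.Dz.n0 rf, md_bilin ν hh.n0 hf.Dz.n0 rh, ← integral_neg]
      congr 1; funext p
      rw [anti]; ring
    rw [inner_toL, ← inner_conj_symm, inner_toL, Complex.conj_re]
    rw [e2, Complex.add_re, Complex.neg_re] at e1
    linarith
  · intro s; simp only [norm_toL]; exact (T.bessel ν hB s).trans eB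
  · intro s; simp only [norm_toL]; exact (T.bessel ν hg s).trans eg
  · intro s; simp only [norm_toL]; exact (T.bessel ν hh.n0 s).trans eh

end Tri

end

end Vale.Agent.P099
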