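import Vale.Agent.P099.Green

/-!
Families of functions on the plane that are bounded and measurable together with their
derivatives.
-/

open MeasureTheory Set Filter Topology

namespace Vale.Agent.P099

noncomputable section

def LL (p q : ℂ) : ℂ →L[ℝ] ℂ := Complex.reCLM.smulRight p + Complex.imCLM.smulRight q

lemma LL_apply (p q v : ℂ) : LL p q v = v.re * p + v.im * q := by simp [LL]

lemma fderiv_eq_LL (f : ℂ → ℂ) (x : ℂ) : fderiv ℝ f x = LL (d1 f x) (d2 f x) := by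
  ext v; rw [fderiv_apply_eq, LL_apply]

lemma norm_LL (p q : ℂ) : ‖LL p q‖ ≤ ‖p‖ + ‖q‖ := by
  apply ContinuousLinearMap.opNorm_le_bound _ (by positivity)
  intro v
  rw [LL_apply]
  refine (norm_add_le _ _).trans ?_
  rw [norm_mul, norm_mul, Complex.norm_real, Complex.norm_real, Real.norm_eq_abs, Real.norm_eq_abs]
  have h1 := Complex.abs_re_le_norm v
  have h2 := Complex.abs_im_le_norm v
  nlinarith [norm_nonneg p, norm_nonneg q]

lemma continuous_LL : Continuous (fun q : ℂ × ℂ => LL q.1 q.2) := by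
  unfold LL
  exact ((ContinuousLinearMap.smulRightL ℝ ℂ ℂ Complex.reCLM).continuous.comp continuous_fst).add
    ((ContinuousLinearMap.smulRightL ℝ ℂ ℂ Complex.imCLM).continuous.comp continuous_snd)

lemma d1_of {f : ℂ → ℂ} {L : ℂ →L[ℝ] ℂ} {x : ℂ} (h : HasFDerivAt f L x) : d1 f x = L 1 := by
  rw [d1, h.fderiv]
lemma d2_of {f : ℂ → ℂ} {L : ℂ →L[ℝ] ℂ} {x : ℂ} (h : HasFDerivAt f L x) : d2 f x = L Complex.I := by
  rw [d2, h.fderiv]

section calc_rules
variable {f g : ℂ → ℂ} {x : ℂ}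

lemma d1_add (hf : DifferentiableAt ℝ f x) (hg : DifferentiableAt ℝ g x) :
    d1 (fun y => f y + g y) x = d1 f x + d1 g x := by
  rw [d1_of (hf.hasFDerivAt.fun_add hg.hasFDerivAt)]; rfl
lemma d2_add (hf : DifferentiableAt ℝ f x) (hg : DifferentiableAt ℝ g x) :
    d2 (fun y => f y + g y) x = d2 f x + d2 g x := by
  rw [d2_of (hf.hasFDerivAt.fun_add hg.hasFDerivAt)]; rfl
lemma d1_mul (hf : DifferentiableAt ℝ f x) (hg : DifferentiableAt ℝ g x) :
    d1 (fun y => f y * g y) x = d1 f x * g x + f x * d1 g x := by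
  rw [d1_of (hf.hasFDerivAt.fun_mul hg.hasFDerivAt)]; simp [d1]; ring
lemma d2_mul (hf : DifferentiableAt ℝ f x) (hg : DifferentiableAt ℝ g x) :
    d2 (fun y => f y * g y) x = d2 f x * g x + f x * d2 g x := by
  rw [d2_of (hf.hasFDerivAt.fun_mul hg.hasFDerivAt)]; simp [d2]; ring
lemma hasFDerivAt_conj (hf : DifferentiableAt ℝ f x) :
    HasFDerivAt (fun y => (starRingEnd ℂ) (f y))
      (Complex.conjCLE.toContinuousLinearMap.comp (fderiv ℝ f x)) x :=
  Complex.conjCLE.toContinuousLinearMap.hasFDerivAt.comp x hf.hasFDerivAt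
lemma d1_conj (hf : DifferentiableAt ℝ f x) :
    d1 (fun y => (starRingEnd ℂ) (f y)) x = (starRingEnd ℂ) (d1 f x) := by
  rw [d1_of (hasFDerivAt_conj hf)]; rfl
lemma d2_conj (hf : DifferentiableAt ℝ f x) :
    d2 (fun y => (starRingEnd ℂ) (f y)) x = (starRingEnd ℂ) (d2 f x) := by
  rw [d2_of (hasFDerivAt_conj hf)]; rfl
lemma d1_const (c x : ℂ) : d1 (fun _ => c) x = 0 := by simp [d1]
lemma d2_const (c x : ℂ) : d2 (fun _ => c) x = 0 := by simp [d2]
lemma d1_const_mul (c : ℂ) (hf : DifferentiableAt ℝ f x) :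
    d1 (fun y => c * f y) x = c * d1 f x := by
  rw [d1_mul (differentiableAt_const c) hf, d1_const]; ring
lemma d2_const_mul (c : ℂ) (hf : DifferentiableAt ℝ f x) :
    d2 (fun y => c * f y) x = c * d2 f x := by
  rw [d2_mul (differentiableAt_const c) hf, d2_const]; ring

lemma dz_mul (hf : DifferentiableAt ℝ f x) (hg : DifferentiableAt ℝ g x) :
    dz (fun y => f y * g y) x = dz f x * g x + f x * dz g x := by
  simp only [dz, d1_mul hf hg, d2_mul hf hg]; ring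
lemma dzb_mul (hf : DifferentiableAt ℝ f x) (hg : DifferentiableAt ℝ g x) :
    dzb (fun y => f y * g y) x = dzb f x * g x + f x * dzb g x := by
  simp only [dzb, d1_mul hf hg, d2_mul hf hg]; ring
lemma dz_conj (hf : DifferentiableAt ℝ f x) :
    dz (fun y => (starRingEnd ℂ) (f y)) x = (starRingEnd ℂ) (dzb f x) := by
  simp only [dz, dzb, d1_conj hf, d2_conj hf, map_add, map_mul, Complex.conj_I]; ring
lemma dzb_conj (hf : DifferentiableAt ℝ f x) :
    dzb (fun y => (starRingEnd ℂ) (f y)) x = (starRingEnd ℂ) (dz f x) := by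
  simp only [dz, dzb, d1_conj hf, d2_conj hf, map_sub, map_mul, Complex.conj_I]; ring

lemma d12_symm (hf : Differentiable ℝ f) (h1 : DifferentiableAt ℝ (d1 f) x)
    (h2 : DifferentiableAt ℝ (d2 f) x) : d1 (d2 f) x = d2 (d1 f) x := by
  have hA : HasFDerivAt (fun y => LL (d1 f y) (d2 f y))
      ((ContinuousLinearMap.smulRightL ℝ ℂ ℂ Complex.reCLM).comp (fderiv ℝ (d1 f) x) +
        (ContinuousLinearMap.smulRightL ℝ ℂ ℂ Complex.imCLM).comp (fderiv ℝ (d2 f) x)) x :=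
    ((ContinuousLinearMap.smulRightL ℝ ℂ ℂ Complex.reCLM).hasFDerivAt.comp x h1.hasFDerivAt).add
      ((ContinuousLinearMap.smulRightL ℝ ℂ ℂ Complex.imCLM).hasFDerivAt.comp x h2.hasFDerivAt)
  have := second_derivative_symmetric (f := f) (fun y => by
    rw [← fderiv_eq_LL]; exact (hf y).hasFDerivAt) hA 1 Complex.I
  simpa [d1, d2] using this

end calc_rules

variable {Λ Λ' : Type*} [MeasurableSpace Λ] [MeasurableSpace Λ']

def N0 (f : Λ → ℂ → ℂ) : Prop :=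
  Measurable (fun q : Λ × ℂ => f q.1 q.2) ∧ ∃ C, ∀ l x, ‖f l x‖ ≤ C

def Nice : ℕ → (Λ → ℂ → ℂ) → Prop
  | 0, f => N0 f
  | k + 1, f => N0 f ∧ (∀ l, Differentiable ℝ (f l)) ∧ Nice k (fun l => d1 (f l)) ∧
      Nice k (fun l => d2 (f l))

namespace N0
variable {f g : Λ → ℂ → ℂ}

lemma add (hf : N0 f) (hg : N0 g) : N0 (fun l x => f l x + g l x) := by
  obtain ⟨m1, C1, h1⟩ := hf
  obtain ⟨m2, C2, h2⟩ := hg
  exact ⟨m1.add m2, C1 + C2, fun l x => (norm_add_le _ _).trans (add_le_add (h1 l x) (h2 l x))⟩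
lemma sub (hf : N0 f) (hg : N0 g) : N0 (fun l x => f l x - g l x) := by
  obtain ⟨m1, C1, h1⟩ := hf
  obtain ⟨m2, C2, h2⟩ := hg
  exact ⟨m1.sub m2, C1 + C2, fun l x => (norm_sub_le _ _).trans (add_le_add (h1 l x) (h2 l x))⟩
lemma mul (hf : N0 f) (hg : N0 g) : N0 (fun l x => f l x * g l x) := by
  obtain ⟨m1, C1, h1⟩ := hf
  obtain ⟨m2, C2, h2⟩ := hg
  refine ⟨m1.mul m2, C1 * C2, fun l x => ?_⟩
  rw [norm_mul]
  exact mul_le_mul (h1 l x) (h2 l x) (norm_nonneg _) ((norm_nonneg _).trans (h1 l x))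
lemma conj (hf : N0 f) : N0 (fun l x => (starRingEnd ℂ) (f l x)) := by
  obtain ⟨m1, C1, h1⟩ := hf
  exact ⟨Complex.continuous_conj.measurable.comp m1, C1, fun l x => by simpa using h1 l x⟩
lemma const {c : Λ → ℂ} (hc : Measurable c) {C : ℝ} (hC : ∀ l, ‖c l‖ ≤ C) :
    N0 (fun l (_ : ℂ) => c l) := ⟨hc.comp measurable_fst, C, fun l _ => hC l⟩
lemma const' (c : ℂ) : N0 (fun (_ : Λ) (_ : ℂ) => c) := const measurable_const fun _ => le_rfl
lemma comp (hf : N0 f) {φ : Λ' → Λ} (hφ : Measurable φ) : N0 (fun l => f (φ l)) := by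
  obtain ⟨m1, C1, h1⟩ := hf
  exact ⟨m1.comp ((hφ.comp measurable_fst).prodMk measurable_snd), C1, fun l x => h1 _ x⟩
lemma meas (hf : N0 f) (l : Λ) : Measurable (f l) := hf.1.comp measurable_prodMk_left
lemma meas' (hf : N0 f) (x : ℂ) : Measurable (fun l => f l x) := hf.1.comp measurable_prodMk_right

lemma integral {Θ : Type*} [MeasurableSpace Θ] (μ : Measure Θ) [IsFiniteMeasure μ]
    {f : Θ × Λ → ℂ → ℂ} (hf : N0 f) : N0 (fun l x => ∫ θ, f (θ, l) x ∂μ) := by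
  obtain ⟨m1, C1, h1⟩ := hf
  refine ⟨?_, C1 * μ.real univ, fun l x =>
    norm_integral_le_of_norm_le_const (Eventually.of_forall fun θ => h1 _ _)⟩
  have : Measurable (fun q : (Λ × ℂ) × Θ => f (q.2, q.1.1) q.1.2) :=
    m1.comp (g := fun q : (Θ × Λ) × ℂ => f q.1 q.2)
      (f := fun q : (Λ × ℂ) × Θ => ((q.2, q.1.1), q.1.2)) (by fun_prop)
  exact (this.stronglyMeasurable.integral_prod_right' (ν := μ)).measurable

lemma integrable_param {Θ : Type*} [MeasurableSpace Θ] (μ : Measure Θ) [IsFiniteMeasure μ]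
    {f : Θ × Λ → ℂ → ℂ} (hf : N0 f) (l : Λ) (x : ℂ) : Integrable (fun θ => f (θ, l) x) μ := by
  obtain ⟨C, hC⟩ := hf.2
  exact Integrable.of_bound ((hf.meas' x).comp measurable_prodMk_right).aestronglyMeasurable C
    (Eventually.of_forall fun θ => hC _ _)

end N0

namespace Nice
variable {f g : Λ → ℂ → ℂ}

lemma n0 : ∀ {k : ℕ} {f : Λ → ℂ → ℂ}, Nice k f → N0 f
  | 0, _, h => h
  | _ + 1, _, h => h.1

lemma mono : ∀ {k : ℕ} {f : Λ → ℂ → ℂ}, Nice (k + 1) f → Nice k f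
  | 0, _, h => h.1
  | _ + 1, _, h => ⟨h.1, h.2.1, mono h.2.2.1, mono h.2.2.2⟩

lemma diff {k : ℕ} (h : Nice (k + 1) f) (l : Λ) : Differentiable ℝ (f l) := h.2.1 l
lemma D1 {k : ℕ} (h : Nice (k + 1) f) : Nice k (fun l => d1 (f l)) := h.2.2.1
lemma D2 {k : ℕ} (h : Nice (k + 1) f) : Nice k (fun l => d2 (f l)) := h.2.2.2

lemma add : ∀ {k : ℕ} {f g : Λ → ℂ → ℂ}, Nice k f → Nice k g → Nice k (fun l x => f l x + g l x)
  | 0, _, _, hf, hg => N0.add hf hg
  | _ + 1, f, g, hf, hg => by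
    refine ⟨hf.1.add hg.1, fun l => (hf.diff l).add (hg.diff l), ?_, ?_⟩
    · convert add hf.D1 hg.D1 using 1
      funext l x; exact d1_add (hf.diff l x) (hg.diff l x)
    · convert add hf.D2 hg.D2 using 1
      funext l x; exact d2_add (hf.diff l x) (hg.diff l x)

lemma mul : ∀ {k : ℕ} {f g : Λ → ℂ → ℂ}, Nice k f → Nice k g → Nice k (fun l x => f l x * g l x)
  | 0, _, _, hf, hg => N0.mul hf hg
  | _ + 1, f, g, hf, hg => by
    refine ⟨hf.1.mul hg.1, fun l => (hf.diff l).mul (hg.diff l), ?_, ?_⟩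
    · convert add (mul hf.D1 hg.mono) (mul hf.mono hg.D1) using 1
      funext l x; exact d1_mul (hf.diff l x) (hg.diff l x)
    · convert add (mul hf.D2 hg.mono) (mul hf.mono hg.D2) using 1
      funext l x; exact d2_mul (hf.diff l x) (hg.diff l x)

lemma conj : ∀ {k : ℕ} {f : Λ → ℂ → ℂ}, Nice k f → Nice k (fun l x => (starRingEnd ℂ) (f l x))
  | 0, _, hf => N0.conj hf
  | _ + 1, f, hf => by
    refine ⟨hf.1.conj, fun l x => (hasFDerivAt_conj (hf.diff l x)).differentiableAt, ?_, ?_⟩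
    · convert conj hf.D1 using 1
      funext l x; exact d1_conj (hf.diff l x)
    · convert conj hf.D2 using 1
      funext l x; exact d2_conj (hf.diff l x)

lemma const : ∀ (k : ℕ) {c : Λ → ℂ} (_ : Measurable c) {C : ℝ} (_ : ∀ l, ‖c l‖ ≤ C),
    Nice k (fun l (_ : ℂ) => c l)
  | 0, _, hc, _, hC => N0.const hc hC
  | k + 1, c, hc, _, hC => by
    refine ⟨N0.const hc hC, fun l => differentiable_const _, ?_, ?_⟩
    · convert const k (c := fun _ => 0) measurable_const (C := 0) (by simp) using 1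
      funext l x; exact d1_const _ _
    · convert const k (c := fun _ => 0) measurable_const (C := 0) (by simp) using 1
      funext l x; exact d2_const _ _

lemma const' (k : ℕ) (c : ℂ) : Nice k (fun (_ : Λ) (_ : ℂ) => c) :=
  const k measurable_const fun _ => le_rfl

lemma sub {k : ℕ} (hf : Nice k f) (hg : Nice k g) : Nice k (fun l x => f l x - g l x) := by
  convert add hf (mul (const' k (-1)) hg) using 1
  funext l x; ring

lemma Dz {k : ℕ} (h : Nice (k + 1) f) : Nice k (fun l => dz (f l)) :=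
  sub h.D1 (mul (const' k Complex.I) h.D2)
lemma Dzb {k : ℕ} (h : Nice (k + 1) f) : Nice k (fun l => dzb (f l)) :=
  add h.D1 (mul (const' k Complex.I) h.D2)

lemma comp : ∀ {k : ℕ} {f : Λ → ℂ → ℂ}, Nice k f → ∀ {φ : Λ' → Λ}, Measurable φ →
    Nice k (fun l => f (φ l))
  | 0, _, hf, _, hφ => N0.comp hf hφ
  | _ + 1, _, hf, _, hφ => ⟨hf.1.comp hφ, fun _ => hf.diff _, comp hf.D1 hφ, comp hf.D2 hφ⟩

lemma bound {k : ℕ} (h : Nice (k + 1) f) :
    ∃ C, ∀ l x, ‖d1 (f l) x‖ ≤ C ∧ ‖d2 (f l) x‖ ≤ C := by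
  obtain ⟨C1, h1⟩ := h.D1.n0.2
  obtain ⟨C2, h2⟩ := h.D2.n0.2
  exact ⟨max C1 C2, fun l x => ⟨(h1 l x).trans (le_max_left _ _), (h2 l x).trans (le_max_right _ _)⟩⟩

variable {Θ : Type*} [MeasurableSpace Θ] (μ : Measure Θ) [IsFiniteMeasure μ]

lemma hasFDerivAt_integral {k : ℕ} {f : Θ × Λ → ℂ → ℂ} (hf : Nice (k + 1) f) (l : Λ) (x : ℂ) :
    HasFDerivAt (fun x => ∫ θ, f (θ, l) x ∂μ)
      (LL (∫ θ, d1 (f (θ, l)) x ∂μ) (∫ θ, d2 (f (θ, l)) x ∂μ)) x := by
  obtain ⟨C, hC⟩ := hf.bound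
  have i1 : Integrable (fun θ => d1 (f (θ, l)) x) μ := hf.D1.n0.integrable_param μ l x
  have i2 : Integrable (fun θ => d2 (f (θ, l)) x) μ := hf.D2.n0.integrable_param μ l x
  have hm : AEStronglyMeasurable (fun θ => LL (d1 (f (θ, l)) x) (d2 (f (θ, l)) x)) μ :=
    continuous_LL.comp_aestronglyMeasurable
      (f := fun θ => (d1 (f (θ, l)) x, d2 (f (θ, l)) x)) (i1.1.prodMk i2.1)
  have hb : ∀ θ y, ‖LL (d1 (f (θ, l)) y) (d2 (f (θ, l)) y)‖ ≤ C + C := fun θ y =>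
    (norm_LL _ _).trans (add_le_add (hC _ _).1 (hC _ _).2)
  have key := hasFDerivAt_integral_of_dominated_of_fderiv_le (μ := μ) (x₀ := x) (s := univ)
    (F := fun x θ => f (θ, l) x) (F' := fun x θ => LL (d1 (f (θ, l)) x) (d2 (f (θ, l)) x))
    (bound := fun _ => C + C) univ_mem
    (Eventually.of_forall fun y => (hf.1.integrable_param μ l y).1) (hf.1.integrable_param μ l x)
    hm (Eventually.of_forall fun θ y _ => hb θ y) (integrable_const _)
    (Eventually.of_forall fun θ y _ => by rw [← fderiv_eq_LL]; exact (hf.diff _ y).hasFDerivAt)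
  refine key.congr_fderiv (ContinuousLinearMap.ext fun v => ?_)
  rw [ContinuousLinearMap.integral_apply
    (Integrable.of_bound hm _ (Eventually.of_forall fun θ => hb θ x))]
  simp only [LL_apply]
  rw [integral_add (i1.const_mul _) (i2.const_mul _), integral_const_mul, integral_const_mul]

lemma d1_integral {k : ℕ} {f : Θ × Λ → ℂ → ℂ} (hf : Nice (k + 1) f) (l : Λ) (x : ℂ) :
    d1 (fun x => ∫ θ, f (θ, l) x ∂μ) x = ∫ θ, d1 (f (θ, l)) x ∂μ := by
  rw [d1_of (hasFDerivAt_integral μ hf l x), LL_apply]; simp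
lemma d2_integral {k : ℕ} {f : Θ × Λ → ℂ → ℂ} (hf : Nice (k + 1) f) (l : Λ) (x : ℂ) :
    d2 (fun x => ∫ θ, f (θ, l) x ∂μ) x = ∫ θ, d2 (f (θ, l)) x ∂μ := by
  rw [d2_of (hasFDerivAt_integral μ hf l x), LL_apply]; simp

lemma integral : ∀ {k : ℕ} {f : Θ × Λ → ℂ → ℂ}, Nice k f →
    Nice k (fun l x => ∫ θ, f (θ, l) x ∂μ)
  | 0, _, hf => N0.integral μ hf
  | _ + 1, f, hf => by
    refine ⟨hf.1.integral μ, fun l x => (hasFDerivAt_integral μ hf l x).differentiableAt, ?_, ?_⟩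
    · convert integral hf.D1 using 1
      funext l x; exact d1_integral μ hf l x
    · convert integral hf.D2 using 1
      funext l x; exact d2_integral μ hf l x

end Nice

/-! ### Smoothing along and across the direction -/

/-- smooth functions supported in `[-R, R]` -/
def Bump (R : ℝ) (α : ℝ → ℝ) : Prop := ContDiff ℝ (⊤ : ℕ∞) α ∧ ∀ t, R < |t| → α t = 0

def Dm (α : ℝ → ℝ) (t : ℝ) : ℝ := - deriv α t

namespace Bump
variable {R R' : ℝ} {α β : ℝ → ℝ}

lemma dm (h : Bump R α) : Bump R (Dm α) := by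
  refine ⟨(contDiff_infty_iff_deriv.1 h.1).2.neg, fun t ht => ?_⟩
  have h0 : ∀ᶠ s in 𝓝 t, R < |s| := (isOpen_lt continuous_const continuous_abs).mem_nhds ht
  have : α =ᶠ[𝓝 t] fun _ => 0 := h0.mono h.2
  rw [Dm, this.deriv_eq]; simp

lemma compact (h : Bump R α) : HasCompactSupport α :=
  HasCompactSupport.intro (isCompact_Icc (a := -R) (b := R)) fun t ht => h.2 t (by
    rw [mem_Icc, ← abs_le] at ht; exact not_le.1 ht)

lemma continuous (h : Bump R α) : Continuous α := h.1.continuous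
lemma integrable (h : Bump R α) : Integrable α := h.continuous.integrable_of_hasCompactSupport h.compact
lemma hasDerivAt (h : Bump R α) (t : ℝ) : HasDerivAt α (-Dm α t) t := by
  rw [Dm, neg_neg]; exact (h.1.differentiable (by simp) t).hasDerivAt

lemma integrable_prod (h : Bump R α) (h' : Bump R' β) :
    Integrable (fun a : ℝ × ℝ => α a.1 * β a.2) := h.integrable.mul_prod h'.integrable

lemma integral_dm (h : Bump R α) : ∫ t, Dm α t = 0 := by
  unfold Dm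
  rw [integral_neg, neg_eq_zero]
  exact integral_eq_zero_of_hasDerivAt_of_integrable
    (fun t => (h.1.differentiable (by simp) t).hasDerivAt)
    (h.dm.integrable.neg.congr (Eventually.of_forall fun t => by simp [Dm])) h.integrable

end Bump

def Cv (α β : ℝ → ℝ) (ψ : ℝ × ℝ → ℂ) (y : ℝ × ℝ) : ℂ :=
  ∫ a : ℝ × ℝ, ((α a.1 * β a.2 : ℝ) : ℂ) * ψ (y + a)

lemma Cv_eq_conv (α β : ℝ → ℝ) (ψ : ℝ × ℝ → ℂ) (y : ℝ × ℝ) : Cv α β ψ y =
    convolution ψ (fun r : ℝ × ℝ => ((α (-r.1) * β (-r.2) : ℝ) : ℂ))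
      (ContinuousLinearMap.mul ℝ ℂ) volume y := by
  rw [convolution_def, Cv]
  conv_rhs => rw [← integral_add_left_eq_self _ y]
  congr 1
  funext a
  simp [mul_comm]

lemma Cv_hasFDerivAt {R R' : ℝ} {α β : ℝ → ℝ} (hα : Bump R α) (hβ : Bump R' β) {ψ : ℝ × ℝ → ℂ}
    (hψ : Measurable ψ) {C : ℝ} (hC : ∀ q, ‖ψ q‖ ≤ C) (y : ℝ × ℝ) :
    HasFDerivAt (Cv α β ψ) ((ContinuousLinearMap.fst ℝ ℝ ℝ).smulRight (Cv (Dm α) β ψ y) +
      (ContinuousLinearMap.snd ℝ ℝ ℝ).smulRight (Cv α (Dm β) ψ y)) y := by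
  set k : ℝ × ℝ → ℂ := fun r => ((α (-r.1) * β (-r.2) : ℝ) : ℂ) with hk
  have hloc : LocallyIntegrable ψ volume :=
    (MemLp.locallyIntegrable (p := ⊤) (memLp_top_of_bound hψ.aestronglyMeasurable C
      (Eventually.of_forall hC)) le_top)
  have hsupp : ∀ {α β : ℝ → ℝ}, Bump R α → Bump R' β →
      HasCompactSupport (fun r : ℝ × ℝ => ((α (-r.1) * β (-r.2) : ℝ) : ℂ)) := by
    intro α β hα hβ
    refine HasCompactSupport.intro ((isCompact_Icc (a := -R) (b := R)).prod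
      (isCompact_Icc (a := -R') (b := R'))) fun r hr => ?_
    simp only [mem_prod, mem_Icc, ← abs_le, not_and_or, not_le] at hr
    rcases hr with hr | hr
    · rw [hα.2 _ (by rwa [abs_neg])]; simp
    · rw [hβ.2 _ (by rwa [abs_neg])]; simp
  have hcont : ∀ {α β : ℝ → ℝ}, Bump R α → Bump R' β →
      Continuous (fun r : ℝ × ℝ => ((α (-r.1) * β (-r.2) : ℝ) : ℂ)) := by
    intro α β hα hβ
    have := hα.continuous
    have := hβ.continuous
    fun_prop
  have hkd : ContDiff ℝ 1 k := by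
    have h1 : ContDiff ℝ 1 α := hα.1.of_le (by simp)
    have h2 : ContDiff ℝ 1 β := hβ.1.of_le (by simp)
    exact Complex.ofRealCLM.contDiff.comp
      ((h1.comp contDiff_fst.neg).mul (h2.comp contDiff_snd.neg))
  have hder : ∀ a v : ℝ × ℝ, fderiv ℝ k a v =
      v.1 * ((Dm α (-a.1) * β (-a.2) : ℝ) : ℂ) + v.2 * ((α (-a.1) * Dm β (-a.2) : ℝ) : ℂ) := by
    intro a v
    have h1 := (hα.hasDerivAt (-a.1)).comp_hasFDerivAt a (hasFDerivAt_fst (𝕜 := ℝ) (p := a)).neg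
    have h2 := (hβ.hasDerivAt (-a.2)).comp_hasFDerivAt a (hasFDerivAt_snd (𝕜 := ℝ) (p := a)).neg
    have h3 := Complex.ofRealCLM.hasFDerivAt.comp a (h1.mul h2)
    have h4 : fderiv ℝ k a = _ := h3.fderiv
    rw [h4]
    simp
    ring
  have key := (hsupp hα hβ).hasFDerivAt_convolution_right (ContinuousLinearMap.mul ℝ ℂ) hloc hkd y
  have e : Cv α β ψ = convolution ψ k (ContinuousLinearMap.mul ℝ ℂ) volume :=
    funext (Cv_eq_conv α β ψ)
  rw [e]
  refine key.congr_fderiv (ContinuousLinearMap.ext fun v => ?_)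
  rw [convolution_precompR_apply _ hloc ((hsupp hα hβ).fderiv ℝ) (hkd.continuous_fderiv (by simp))]
  have i1 := (hsupp hα.dm hβ).convolutionExists_right (ContinuousLinearMap.mul ℝ ℂ) hloc
    (hcont hα.dm hβ) y
  have i2 := (hsupp hα hβ.dm).convolutionExists_right (ContinuousLinearMap.mul ℝ ℂ) hloc
    (hcont hα hβ.dm) y
  simp only [add_apply, ContinuousLinearMap.smulRight_apply,
    ContinuousLinearMap.coe_fst', ContinuousLinearMap.coe_snd', Cv_eq_conv, convolution_def,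
    Complex.real_smul]
  rw [← integral_const_mul, ← integral_const_mul, ← integral_add (i1.const_mul _) (i2.const_mul _)]
  congr 1
  funext a
  have := hder (y - a) v
  simp only [hk] at this
  rw [this]
  simp only [ContinuousLinearMap.mul_apply']
  ring

/-- smoothing of a function on the phase space in the frame of the direction -/
def MM {Ω : Type*} (α β : ℝ → ℝ) (Ψ : Ω → ZZ → ℂ) (l : TT × Ω) (x : ℂ) : ℂ :=
  ∫ a : ℝ × ℝ, ((α a.1 * β a.2 : ℝ) : ℂ) * Ψ l.2 (sh (a.1 + a.2 * Complex.I) (l.1, x))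

/-- bounded measurable functions on the phase space with a parameter -/
def B0 {Ω : Type*} [MeasurableSpace Ω] (Ψ : Ω → ZZ → ℂ) : Prop :=
  Measurable (fun q : Ω × ZZ => Ψ q.1 q.2) ∧ ∀ ω z, ‖Ψ ω z‖ ≤ 1

section MMsec
variable {Ω : Type*} [MeasurableSpace Ω] {R R' : ℝ} {α β : ℝ → ℝ} {Ψ : Ω → ZZ → ℂ}

lemma norm_MM_le (hα : Bump R α) (hβ : Bump R' β) (hΨ : B0 Ψ) (l : TT × Ω) (x : ℂ) :
    ‖MM α β Ψ l x‖ ≤ (∫ t, |α t|) * ∫ t, |β t| := by
  unfold MM
  rw [← integral_prod_mul]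
  refine norm_integral_le_of_norm_le (hα.integrable.abs.mul_prod hβ.integrable.abs)
    (Eventually.of_forall fun a => ?_)
  rw [norm_mul, Complex.norm_real, Real.norm_eq_abs, abs_mul]
  exact mul_le_of_le_one_right (by positivity) (hΨ.2 _ _)

lemma N0_MM (hα : Bump R α) (hβ : Bump R' β) (hΨ : B0 Ψ) : N0 (MM α β Ψ) := by
  refine ⟨?_, _, norm_MM_le hα hβ hΨ⟩
  have h1 := hα.continuous.measurable
  have h2 := hβ.continuous.measurable
  have h3 : Measurable (fun q : ((TT × Ω) × ℂ) × (ℝ × ℝ) =>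
      Ψ q.1.1.2 (sh (q.2.1 + q.2.2 * Complex.I) (q.1.1.1, q.1.2))) :=
    hΨ.1.comp (g := fun q : Ω × ZZ => Ψ q.1 q.2) (f := fun q : ((TT × Ω) × ℂ) × (ℝ × ℝ) =>
      (q.1.1.2, sh (q.2.1 + q.2.2 * Complex.I) (q.1.1.1, q.1.2))) (by unfold sh; fun_prop)
  have : Measurable (fun q : ((TT × Ω) × ℂ) × (ℝ × ℝ) => ((α q.2.1 * β q.2.2 : ℝ) : ℂ) *
      Ψ q.1.1.2 (sh (q.2.1 + q.2.2 * Complex.I) (q.1.1.1, q.1.2))) := Measurable.mul (by fun_prop) h3
  exact (this.stronglyMeasurable.integral_prod_right' (ν := volume)).measurable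

lemma MM_hasFDerivAt (hα : Bump R α) (hβ : Bump R' β) (hΨ : B0 Ψ) (l : TT × Ω) (x : ℂ) :
    HasFDerivAt (MM α β Ψ l)
      (LL ((ee l.1).re * MM (Dm α) β Ψ l x - (ee l.1).im * MM α (Dm β) Ψ l x)
        ((ee l.1).im * MM (Dm α) β Ψ l x + (ee l.1).re * MM α (Dm β) Ψ l x)) x := by
  set e := ee l.1 with he
  set ψ : ℝ × ℝ → ℂ := fun q => Ψ l.2 (l.1, e * (q.1 + q.2 * Complex.I)) with hψ
  have hψm : Measurable ψ := hΨ.1.comp (g := fun q : Ω × ZZ => Ψ q.1 q.2)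
    (f := fun q : ℝ × ℝ => (l.2, (l.1, e * (q.1 + q.2 * Complex.I)))) (by fun_prop)
  let A : ℂ →L[ℝ] ℝ × ℝ := (e.re • Complex.reCLM + e.im • Complex.imCLM).prod
    (e.re • Complex.imCLM - e.im • Complex.reCLM)
  have hsq : e.re ^ 2 + e.im ^ 2 = 1 := ee_sq _
  have hM : ∀ α β : ℝ → ℝ, ∀ x, MM α β Ψ l x = Cv α β ψ (A x) := by
    intro α β x
    unfold MM Cv
    congr 1
    funext a
    congr 2
    simp only [sh, ← he, Prod.mk.injEq, true_and]
    apply Complex.ext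
    · simp [A]; linear_combination (-x.re) * hsq
    · simp [A]; linear_combination (-x.im) * hsq
  have key := (Cv_hasFDerivAt hα hβ hψm (fun q => hΨ.2 _ _) (A x)).comp x A.hasFDerivAt
  have e1 : MM α β Ψ l = Cv α β ψ ∘ A := funext (hM α β)
  rw [e1, hM, hM]
  refine key.congr_fderiv (ContinuousLinearMap.ext fun v => ?_)
  simp [LL_apply, A]
  ring

lemma d1_MM (hα : Bump R α) (hβ : Bump R' β) (hΨ : B0 Ψ) (l : TT × Ω) (x : ℂ) :
    d1 (MM α β Ψ l) x = (ee l.1).re * MM (Dm α) β Ψ l x - (ee l.1).im * MM α (Dm β) Ψ l x := by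
  rw [d1_of (MM_hasFDerivAt hα hβ hΨ l x), LL_apply]; simp
lemma d2_MM (hα : Bump R α) (hβ : Bump R' β) (hΨ : B0 Ψ) (l : TT × Ω) (x : ℂ) :
    d2 (MM α β Ψ l) x = (ee l.1).im * MM (Dm α) β Ψ l x + (ee l.1).re * MM α (Dm β) Ψ l x := by
  rw [d2_of (MM_hasFDerivAt hα hβ hΨ l x), LL_apply]; simp

lemma dz_MM (hα : Bump R α) (hβ : Bump R' β) (hΨ : B0 Ψ) (l : TT × Ω) (x : ℂ) :
    dz (MM α β Ψ l) x =
      (starRingEnd ℂ) (ee l.1) * (MM (Dm α) β Ψ l x - Complex.I * MM α (Dm β) Ψ l x) := by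
  rw [dz, d1_MM hα hβ hΨ, d2_MM hα hβ hΨ]
  have : (starRingEnd ℂ) (ee l.1) = (ee l.1).re - (ee l.1).im * Complex.I := by
    apply Complex.ext <;> simp
  rw [this]
  linear_combination (-((ee l.1).im : ℂ) * MM α (Dm β) Ψ l x) * Complex.I_mul_I
lemma dzb_MM (hα : Bump R α) (hβ : Bump R' β) (hΨ : B0 Ψ) (l : TT × Ω) (x : ℂ) :
    dzb (MM α β Ψ l) x = ee l.1 * (MM (Dm α) β Ψ l x + Complex.I * MM α (Dm β) Ψ l x) := by
  rw [dzb, d1_MM hα hβ hΨ, d2_MM hα hβ hΨ]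
  have : ee l.1 = (ee l.1).re + (ee l.1).im * Complex.I := (Complex.re_add_im _).symm
  conv_rhs => rw [this]
  linear_combination (-((ee l.1).im : ℂ) * MM α (Dm β) Ψ l x) * Complex.I_mul_I

lemma Nice_re (k : ℕ) : Nice k (fun (l : TT × Ω) (_ : ℂ) => (((ee l.1).re : ℝ) : ℂ)) :=
  Nice.const k (by fun_prop) (C := 1) fun l => by
    rw [Complex.norm_real, Real.norm_eq_abs]
    exact (Complex.abs_re_le_norm _).trans (norm_ee _).le
lemma Nice_im (k : ℕ) : Nice k (fun (l : TT × Ω) (_ : ℂ) => (((ee l.1).im : ℝ) : ℂ)) :=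
  Nice.const k (by fun_prop) (C := 1) fun l => by
    rw [Complex.norm_real, Real.norm_eq_abs]
    exact (Complex.abs_im_le_norm _).trans (norm_ee _).le

lemma Nice_MM (hΨ : B0 Ψ) : ∀ (k : ℕ) {α β : ℝ → ℝ}, Bump R α → Bump R' β → Nice k (MM α β Ψ)
  | 0, _, _, hα, hβ => N0_MM hα hβ hΨ
  | k + 1, α, β, hα, hβ => by
    refine ⟨N0_MM hα hβ hΨ, fun l x => (MM_hasFDerivAt hα hβ hΨ l x).differentiableAt, ?_, ?_⟩
    · convert ((Nice_re k).mul (Nice_MM hΨ k hα.dm hβ)).sub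
        ((Nice_im k).mul (Nice_MM hΨ k hα hβ.dm)) using 1
      funext l x; exact d1_MM hα hβ hΨ l x
    · convert ((Nice_im k).mul (Nice_MM hΨ k hα.dm hβ)).add
        ((Nice_re k).mul (Nice_MM hΨ k hα hβ.dm)) using 1
      funext l x; exact d2_MM hα hβ hΨ l x

lemma MM_hasDerivAt_flow (hα : Bump R α) (hβ : Bump R' β) (hΨ : B0 Ψ) (l : TT × Ω) (x : ℂ) (t : ℝ) :
    HasDerivAt (fun t : ℝ => MM α β Ψ l (x + ee l.1 * t)) (MM (Dm α) β Ψ l (x + ee l.1 * t)) t := by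
  have h1 : HasDerivAt (fun t : ℝ => x + ee l.1 * t) (ee l.1) t := by
    simpa using ((Complex.ofRealCLM.hasDerivAt (x := t)).const_mul (ee l.1)).const_add x
  have := (MM_hasFDerivAt hα hβ hΨ l (x + ee l.1 * t)).comp_hasDerivAt t h1
  refine this.congr_deriv ?_
  rw [LL_apply]
  have hsq : ((ee l.1).re : ℂ) ^ 2 + ((ee l.1).im : ℂ) ^ 2 = 1 := by exact_mod_cast ee_sq l.1
  linear_combination (MM (Dm α) β Ψ l (x + ee l.1 * t)) * hsq

end MMsec

end

end Vale.Agent.P099
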