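import Vale.Agent.P099.Nice
import Vale.Agent.P099.Abstract

/-!
Integral identities and Poincaré inequalities on the triangle.
-/

open MeasureTheory Set Filter Topology

namespace Vale.Agent.P099

noncomputable section

lemma im_intervalIntegral_zero {u : ℝ → ℂ} (h : ∀ r ∈ Ioo (0 : ℝ) 1, (u r).im = 0) :
    (∫ r in (0 : ℝ)..1, u r).im = 0 := by
  have : ∫ r in (0 : ℝ)..1, u r = ∫ r in (0 : ℝ)..1, (((u r).re : ℝ) : ℂ) := by
    rw [intervalIntegral.integral_of_le zero_le_one, intervalIntegral.integral_of_le zero_le_one,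
      integral_Ioc_eq_integral_Ioo, integral_Ioc_eq_integral_Ioo]
    refine setIntegral_congr_fun measurableSet_Ioo fun r hr => ?_
    apply Complex.ext <;> simp [h r hr]
  rw [this, intervalIntegral.integral_ofReal, Complex.ofReal_im]

lemma re_sum_zero {u : Fin 3 → ℂ} (h : ∀ a, (u a).im = 0) : (∑ a, Complex.I * u a).re = 0 := by
  rw [Complex.re_sum]
  exact Finset.sum_eq_zero fun a _ => by simp [h a]

lemma im_zero_of_conj {u : ℂ} (h : (starRingEnd ℂ) u = u) : u.im = 0 := Complex.conj_eq_iff_im.1 h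

lemma conj_mul_self (u : ℂ) : (starRingEnd ℂ) u * u = ((‖u‖ ^ 2 : ℝ) : ℂ) := by
  rw [Complex.conj_mul']; simp

lemma fderiv_eq_dz (f : ℂ → ℂ) (x v : ℂ) :
    2 * fderiv ℝ f x v = v * dz f x + (starRingEnd ℂ) v * dzb f x := by
  rw [fderiv_apply_eq, dz, dzb]
  have h1 : (starRingEnd ℂ) v = v.re - v.im * Complex.I := by apply Complex.ext <;> simp
  have h2 : v = v.re + v.im * Complex.I := (Complex.re_add_im _).symm
  rw [h1]
  conv_rhs => rw [h2]
  simp only [Complex.add_re, Complex.ofReal_re, Complex.mul_re, Complex.I_re, mul_zero,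
    Complex.ofReal_im, Complex.I_im, mul_one, sub_self, add_zero, Complex.add_im, Complex.mul_im,
    zero_add]
  linear_combination (2 * (v.im : ℂ) * d2 f x) * Complex.I_mul_I

variable {Λ : Type*} [MeasurableSpace Λ]

namespace Tri

variable (T : Tri)

lemma N0_integrableOn {f : Λ → ℂ → ℂ} (hf : N0 f) (l : Λ) : IntegrableOn (f l) T.Q := by
  obtain ⟨C, hC⟩ := hf.2
  exact T.integrableOn_Q (hf.meas l) fun x _ => hC l x

lemma N0_integrableOn_sq {f : Λ → ℂ → ℂ} (hf : N0 f) (l : Λ) :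
    IntegrableOn (fun x => ‖f l x‖ ^ 2) T.Q := by
  have := (T.N0_integrableOn (hf.conj.mul hf) l).re
  refine this.congr (Eventually.of_forall fun x => ?_)
  simp only [conj_mul_self, RCLike.re_to_complex, Complex.ofReal_re]

lemma nice_green_dz {Φ : Λ → ℂ → ℂ} (h : Nice 1 Φ) (l : Λ) : ∫ x in T.Q, dz (Φ l) x =
    ∑ a, Complex.I * (starRingEnd ℂ) (T.w a) * ∫ r in (0 : ℝ)..1, Φ l (T.gam a r) := by
  obtain ⟨C, hC⟩ := h.bound
  exact T.green_dz _ (h.diff l) fun x _ => hC l x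

lemma nice_green_dzb {Φ : Λ → ℂ → ℂ} (h : Nice 1 Φ) (l : Λ) : ∫ x in T.Q, dzb (Φ l) x =
    ∑ a, -Complex.I * T.w a * ∫ r in (0 : ℝ)..1, Φ l (T.gam a r) := by
  obtain ⟨C, hC⟩ := h.bound
  exact T.green_dzb _ (h.diff l) fun x _ => hC l x

lemma continuous_gam (a : Fin 3) : Continuous (T.gam a) := by unfold gam; fun_prop

lemma hasDerivAt_gam (a : Fin 3) (r : ℝ) : HasDerivAt (T.gam a) (T.w a) r := by
  unfold gam
  simpa using ((Complex.ofRealCLM.hasDerivAt (x := r)).mul_const (T.w a)).const_add (T.P a)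

/-- The Pestov identity for one Fourier mode. -/
theorem pestov {F : Λ → ℂ → ℂ} (hF : Nice 2 F) (l : Λ) (c : Fin 3 → ℂ)
    (hc : ∀ a, c a * (starRingEnd ℂ) (c a) = 1)
    (hb : ∀ a, ∀ r ∈ Ioo (0 : ℝ) 1, F l (T.gam a r) = c a * (starRingEnd ℂ) (F l (T.gam a r))) :
    ∫ x in T.Q, ‖dzb (F l) x‖ ^ 2 = ∫ x in T.Q, ‖dz (F l) x‖ ^ 2 := by
  have n1 : Nice 1 (fun l x => (starRingEnd ℂ) (F l x) * dzb (F l) x) := hF.mono.conj.mul hF.Dzb
  have n2 : Nice 1 (fun l x => (starRingEnd ℂ) (F l x) * dz (F l) x) := hF.mono.conj.mul hF.Dz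
  have g1 := T.nice_green_dz n1 l
  have g2 := T.nice_green_dzb n2 l
  have hd := hF.diff l
  have pt : ∀ x, dz (fun x => (starRingEnd ℂ) (F l x) * dzb (F l) x) x -
      dzb (fun x => (starRingEnd ℂ) (F l x) * dz (F l) x) x =
      ((‖dzb (F l) x‖ ^ 2 - ‖dz (F l) x‖ ^ 2 : ℝ) : ℂ) := by
    intro x
    have hcj := (hF.conj.diff l x)
    rw [dz_mul hcj (hF.Dzb.diff l x), dzb_mul hcj (hF.Dz.diff l x), dz_conj (hd x),
      dzb_conj (hd x), conj_mul_self, conj_mul_self]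
    have s := d12_symm hd (hF.D1.diff l x) (hF.D2.diff l x)
    have e : dz (dzb (F l)) x = dzb (dz (F l)) x := by
      have h1 := hF.D1.diff l x
      have h2 := hF.D2.diff l x
      have h3 : DifferentiableAt ℝ (fun y => Complex.I * d2 (F l) y) x := h2.const_mul _
      have h4 : DifferentiableAt ℝ (fun y => -Complex.I * d2 (F l) y) x := h2.const_mul _
      have a1 : dzb (F l) = fun y => d1 (F l) y + Complex.I * d2 (F l) y := rfl
      have a2 : dz (F l) = fun y => d1 (F l) y + -Complex.I * d2 (F l) y := by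
        funext y; simp [dz]; ring
      rw [a1]
      conv_rhs => rw [a2]
      simp only [dz, dzb]
      rw [d1_add h1 h3, d2_add h1 h3, d1_add h1 h4, d2_add h1 h4, d1_const_mul _ h2,
        d2_const_mul _ h2, d1_const_mul _ h2, d2_const_mul _ h2, s]
      ring
    rw [e]; push_cast; ring
  have i1 := T.N0_integrableOn n1.Dz.n0 l
  have i2 := T.N0_integrableOn n2.Dzb.n0 l
  have e1 := integral_sub i1 i2
  simp only [pt] at e1
  rw [integral_complex_ofReal, g1, g2, ← Finset.sum_sub_distrib] at e1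
  have e2 : ∀ a, Complex.I * (starRingEnd ℂ) (T.w a) *
      (∫ r in (0 : ℝ)..1, (starRingEnd ℂ) (F l (T.gam a r)) * dzb (F l) (T.gam a r)) -
      -Complex.I * T.w a * ∫ r in (0 : ℝ)..1, (starRingEnd ℂ) (F l (T.gam a r)) * dz (F l) (T.gam a r)
      = Complex.I * ∫ r in (0 : ℝ)..1,
        (starRingEnd ℂ) (F l (T.gam a r)) * (2 * fderiv ℝ (F l) (T.gam a r) (T.w a)) := by
    intro a
    have c1 := (((n1.diff l).continuous.comp (T.continuous_gam a)).intervalIntegrable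
      (μ := volume) 0 1).const_mul ((starRingEnd ℂ) (T.w a))
    have c2 := (((n2.diff l).continuous.comp (T.continuous_gam a)).intervalIntegrable
      (μ := volume) 0 1).const_mul (T.w a)
    have c3 := intervalIntegral.integral_add c1 c2
    simp only [intervalIntegral.integral_const_mul, Function.comp] at c3
    simp_rw [fderiv_eq_dz]
    have : (fun r => (starRingEnd ℂ) (F l (T.gam a r)) * (T.w a * dz (F l) (T.gam a r) +
        (starRingEnd ℂ) (T.w a) * dzb (F l) (T.gam a r))) = fun r =>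
        (starRingEnd ℂ) (T.w a) * ((starRingEnd ℂ) (F l (T.gam a r)) * dzb (F l) (T.gam a r)) +
        T.w a * ((starRingEnd ℂ) (F l (T.gam a r)) * dz (F l) (T.gam a r)) := by
      funext r; ring
    rw [this, c3]; ring
  simp only [e2] at e1
  have e3 := congrArg Complex.re e1
  rw [re_sum_zero, integral_sub (T.N0_integrableOn_sq hF.Dzb.n0 l)
    (T.N0_integrableOn_sq hF.Dz.n0 l)] at e3
  · simp only [Complex.ofReal_re] at e3
    linarith
  intro a
  apply im_intervalIntegral_zero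
  intro r hr
  have h1 : HasDerivAt (fun r => F l (T.gam a r)) (fderiv ℝ (F l) (T.gam a r) (T.w a)) r :=
    (hd _).hasFDerivAt.comp_hasDerivAt r (T.hasDerivAt_gam a r)
  have h2 : HasDerivAt (fun r => c a * (starRingEnd ℂ) (F l (T.gam a r)))
      (c a * (starRingEnd ℂ) (fderiv ℝ (F l) (T.gam a r) (T.w a))) r :=
    (Complex.conjCLE.toContinuousLinearMap.hasFDerivAt.comp_hasDerivAt r h1).const_mul _
  have h3 := h1.unique (h2.congr_of_eventuallyEq
    (Filter.eventually_of_mem (isOpen_Ioo.mem_nhds hr) (hb a)))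
  have h4 := hb a r hr
  apply im_zero_of_conj
  generalize fderiv ℝ (F l) (T.gam a r) (T.w a) = u at *
  generalize F l (T.gam a r) = v at *
  have h5 := congrArg (starRingEnd ℂ) h3
  simp only [map_mul, Complex.conj_conj, map_ofNat] at h5 ⊢
  rw [h5]
  linear_combination (2 * (starRingEnd ℂ) (c a) * u) * h4 + (2 * u * (starRingEnd ℂ) v) * hc a

/-- Integration by parts between consecutive Fourier modes. -/
theorem pestov2 {F H : Λ → ℂ → ℂ} (hF : Nice 1 F) (hH : Nice 1 H) (l : Λ) (c : Fin 3 → ℂ)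
    (hc : ∀ a, c a * (starRingEnd ℂ) (c a) = 1)
    (hb : ∀ a, ∀ r ∈ Ioo (0 : ℝ) 1, F l (T.gam a r) =
      c a * (starRingEnd ℂ) (T.s a) ^ 2 * (starRingEnd ℂ) (F l (T.gam a r)))
    (hb' : ∀ a, ∀ r ∈ Ioo (0 : ℝ) 1, H l (T.gam a r) = c a * (starRingEnd ℂ) (H l (T.gam a r))) :
    ((∫ x in T.Q, (starRingEnd ℂ) (dzb (F l) x) * H l x) +
      ∫ x in T.Q, (starRingEnd ℂ) (F l x) * dz (H l) x).re = 0 := by
  have n1 : Nice 1 (fun l x => (starRingEnd ℂ) (F l x) * H l x) := hF.conj.mul hH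
  have g1 := T.nice_green_dz n1 l
  have pt : ∀ x, dz (fun x => (starRingEnd ℂ) (F l x) * H l x) x =
      (starRingEnd ℂ) (dzb (F l) x) * H l x + (starRingEnd ℂ) (F l x) * dz (H l) x := by
    intro x
    rw [dz_mul (hF.conj.diff l x) (hH.diff l x), dz_conj (hF.diff l x)]
  simp only [pt] at g1
  rw [integral_add (T.N0_integrableOn (hF.Dzb.n0.conj.mul hH.n0) l)
    (T.N0_integrableOn (hF.n0.conj.mul hH.Dz.n0) l)] at g1
  rw [g1]
  simp_rw [mul_assoc, ← intervalIntegral.integral_const_mul ((starRingEnd ℂ) (T.w _))]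
  apply re_sum_zero
  intro a
  apply im_intervalIntegral_zero
  intro r hr
  apply im_zero_of_conj
  have h1 := hb a r hr
  have h2 := congrArg (starRingEnd ℂ) (hb' a r hr)
  have h3 := T.s_mul_conj a
  rw [T.w_eq a]
  generalize F l (T.gam a r) = u at *
  generalize H l (T.gam a r) = v at *
  simp only [map_mul, Complex.conj_conj, Complex.conj_ofReal] at h2 ⊢
  rw [h2]
  linear_combination ((‖T.w a‖ : ℝ) * T.s a * (starRingEnd ℂ) (c a) * v) * h1
    + ((‖T.w a‖ : ℝ) * T.s a * (starRingEnd ℂ) (T.s a) ^ 2 * (starRingEnd ℂ) u * v) * hc a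
    + ((‖T.w a‖ : ℝ) * (starRingEnd ℂ) (T.s a) * (starRingEnd ℂ) u * v) * h3

lemma norm_sub_P {x : ℂ} (hx : x ∈ T.K) (c : Fin 3) : ‖x - T.P c‖ ≤ 2 * T.D := by
  have h1 := T.norm_le_D hx
  have h2 : T.P c ∈ T.K := by simpa [gam] using T.gam_mem_K c le_rfl zero_le_one
  have h3 := T.norm_le_D h2
  calc ‖x - T.P c‖ = ‖(T.P 0 - T.P c) - (T.P 0 - x)‖ := by congr 1; ring
    _ ≤ _ := (norm_sub_le _ _).trans (by linarith)

/-- Poincaré inequality for functions that vanish on one side. -/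
theorem poincare_side {G : Λ → ℂ → ℂ} (hG : Nice 1 G) (l : Λ) (a : Fin 3)
    (hb : ∀ r ∈ Ioo (0 : ℝ) 1, G l (T.gam a r) = 0) :
    ∫ x in T.Q, ‖G l x‖ ^ 2 ≤ 2 * T.D ^ 2 * ∫ x in T.Q, (‖dz (G l) x‖ ^ 2 + ‖dzb (G l) x‖ ^ 2) := by
  have nR : Nice 1 (fun l x => (starRingEnd ℂ) (G l x) * G l x) := hG.conj.mul hG
  set R : ℂ → ℂ := fun x => (starRingEnd ℂ) (G l x) * G l x with hR
  have dR : Differentiable ℝ R := nR.diff l
  have du : Differentiable ℝ (fun x : ℂ => x - T.P (a + 2)) := by fun_prop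
  have u1 : ∀ x, d1 (fun x : ℂ => x - T.P (a + 2)) x = 1 := fun x => by
    exact d1_of ((hasFDerivAt_id x).sub_const _)
  have u2 : ∀ x, d2 (fun x : ℂ => x - T.P (a + 2)) x = Complex.I := fun x => by
    exact d2_of ((hasFDerivAt_id x).sub_const _)
  obtain ⟨C0, hC0⟩ := nR.n0.2
  obtain ⟨C1, hC1⟩ := nR.bound
  have hD := T.D_nonneg
  have g := T.green_dz (fun x => (x - T.P (a + 2)) * R x) (du.mul dR) (C := C0 + 2 * T.D * C1) (by
    intro x hx
    have h1 := T.norm_sub_P hx (a + 2)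
    rw [d1_mul (du x) (dR x), d2_mul (du x) (dR x), u1, u2]
    constructor
    · refine (norm_add_le _ _).trans (add_le_add (by rw [one_mul]; exact hC0 l x) ?_)
      rw [norm_mul]
      exact mul_le_mul h1 (hC1 l x).1 (norm_nonneg _) (by positivity)
    · refine (norm_add_le _ _).trans (add_le_add
        (by rw [norm_mul, Complex.norm_I, one_mul]; exact hC0 l x) ?_)
      rw [norm_mul]
      exact mul_le_mul h1 (hC1 l x).2 (norm_nonneg _) (by positivity))
  have pt : ∀ x, dz (fun x => (x - T.P (a + 2)) * R x) x = 2 * R x + (x - T.P (a + 2)) * dz R x := by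
    intro x
    rw [dz_mul (du x) (dR x), dz, u1, u2]
    linear_combination (-R x) * Complex.I_mul_I
  simp only [pt] at g
  have i1 : IntegrableOn R T.Q := T.N0_integrableOn nR.n0 l
  have i2 : IntegrableOn (fun x => (x - T.P (a + 2)) * dz R x) T.Q := by
    refine (T.N0_integrableOn nR.Dz.n0 l).bdd_mul (c := 2 * T.D) (by fun_prop) ?_
    exact (ae_restrict_mem T.measurableSet_Q).mono fun x hx => T.norm_sub_P (T.Q_sub_K hx) _
  have g2 := congrArg Complex.re g
  simp_rw [mul_assoc, ← intervalIntegral.integral_const_mul ((starRingEnd ℂ) (T.w _))] at g2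
  have i5 : IntegrableOn (fun x => 2 * R x + (x - T.P (a + 2)) * dz R x) T.Q :=
    (i1.const_mul 2).add i2
  rw [re_sum_zero, ← RCLike.re_to_complex, ← integral_re i5] at g2
  · have i3 := T.N0_integrableOn_sq hG.n0 l
    have i4 : IntegrableOn (fun x => ‖dz (G l) x‖ ^ 2 + ‖dzb (G l) x‖ ^ 2) T.Q :=
      (T.N0_integrableOn_sq hG.Dz.n0 l).add (T.N0_integrableOn_sq hG.Dzb.n0 l)
    have : ∫ x in T.Q, (‖G l x‖ ^ 2 - 2 * T.D ^ 2 * (‖dz (G l) x‖ ^ 2 + ‖dzb (G l) x‖ ^ 2)) ≤ 0 := by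
      rw [← g2]
      refine setIntegral_mono_on (i3.sub (i4.const_mul _)) i5.re
        T.measurableSet_Q fun x hx => ?_
      have h1 := T.norm_sub_P (T.Q_sub_K hx) (a + 2)
      have h2 : dz R x = (starRingEnd ℂ) (dzb (G l) x) * G l x + (starRingEnd ℂ) (G l x) * dz (G l) x := by
        rw [hR, dz_mul (hG.conj.diff l x) (hG.diff l x), dz_conj (hG.diff l x)]
      have h3 : ‖(x - T.P (a + 2)) * dz R x‖ ≤
          2 * T.D * (‖dzb (G l) x‖ * ‖G l x‖ + ‖G l x‖ * ‖dz (G l) x‖) := by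
        rw [norm_mul, h2]
        refine mul_le_mul h1 ((norm_add_le _ _).trans (le_of_eq ?_)) (norm_nonneg _) (by positivity)
        simp
      have h4 := (abs_le.1 ((Complex.abs_re_le_norm _).trans h3)).1
      simp only [RCLike.re_to_complex, Complex.add_re, hR, conj_mul_self] at h4 ⊢
      have h5 : (2 * ((‖G l x‖ ^ 2 : ℝ) : ℂ)).re = 2 * ‖G l x‖ ^ 2 := by
        rw [show (2 * ((‖G l x‖ ^ 2 : ℝ) : ℂ)) = ((2 * ‖G l x‖ ^ 2 : ℝ) : ℂ) by push_cast; ring,
          Complex.ofReal_re]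
      rw [h5]
      nlinarith [sq_nonneg (‖G l x‖ - T.D * (‖dz (G l) x‖ + ‖dzb (G l) x‖)),
        sq_nonneg (T.D * (‖dz (G l) x‖ - ‖dzb (G l) x‖))]
    rw [integral_sub i3 (i4.const_mul _), integral_const_mul] at this
    linarith
  · intro b
    apply im_intervalIntegral_zero
    intro r hr
    rcases f3 a b with rfl | rfl | rfl
    · simp [hR, hb r hr]
    · have : T.gam (a + 1) r - T.P (a + 2) = ((r - 1 : ℝ) : ℂ) * T.w (a + 1) := by
        simp only [gam, w, f11]; push_cast; ring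
      simp only [hR, this, conj_mul_self]
      rw [show (starRingEnd ℂ) (T.w (a + 1)) * (((r - 1 : ℝ) : ℂ) * T.w (a + 1) *
        ((‖G l (T.gam (a + 1) r)‖ ^ 2 : ℝ) : ℂ)) = ((starRingEnd ℂ) (T.w (a + 1)) * T.w (a + 1)) *
        ((r - 1 : ℝ) : ℂ) * ((‖G l (T.gam (a + 1) r)‖ ^ 2 : ℝ) : ℂ) by ring, conj_mul_self,
        ← Complex.ofReal_mul, ← Complex.ofReal_mul, Complex.ofReal_im]
    · have : T.gam (a + 2) r - T.P (a + 2) = (r : ℂ) * T.w (a + 2) := by
        simp only [gam]; ring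
      simp only [hR, this, conj_mul_self]
      rw [show (starRingEnd ℂ) (T.w (a + 2)) * ((r : ℂ) * T.w (a + 2) *
        ((‖G l (T.gam (a + 2) r)‖ ^ 2 : ℝ) : ℂ)) = ((starRingEnd ℂ) (T.w (a + 2)) * T.w (a + 2)) *
        (r : ℂ) * ((‖G l (T.gam (a + 2) r)‖ ^ 2 : ℝ) : ℂ) by ring, conj_mul_self,
        ← Complex.ofReal_mul, ← Complex.ofReal_mul, Complex.ofReal_im]

/-- Poincaré inequality for functions with values in two different lines on two sides. -/
theorem poincare_two {F : Λ → ℂ → ℂ} (hF : Nice 1 F) (l : Λ) (a b : Fin 3) (ca cb : ℂ)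
    (ha1 : ‖ca‖ = 1) (hb1 : ‖cb‖ = 1)
    (ha : ∀ r ∈ Ioo (0 : ℝ) 1, F l (T.gam a r) = ca * (starRingEnd ℂ) (F l (T.gam a r)))
    (hb : ∀ r ∈ Ioo (0 : ℝ) 1, F l (T.gam b r) = cb * (starRingEnd ℂ) (F l (T.gam b r))) :
    ‖ca - cb‖ ^ 2 * ∫ x in T.Q, ‖F l x‖ ^ 2 ≤
      32 * T.D ^ 2 * ∫ x in T.Q, (‖dz (F l) x‖ ^ 2 + ‖dzb (F l) x‖ ^ 2) := by
  have i4 := (T.N0_integrableOn_sq hF.Dz.n0 l).add (T.N0_integrableOn_sq hF.Dzb.n0 l)
  have nG : ∀ c : ℂ, Nice 1 (fun l x => F l x + -c * (starRingEnd ℂ) (F l x)) := fun c =>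
    hF.add ((Nice.const' 1 (-c)).mul hF.conj)
  have key : ∀ (a : Fin 3) (c : ℂ), ‖c‖ = 1 →
      (∀ r ∈ Ioo (0 : ℝ) 1, F l (T.gam a r) = c * (starRingEnd ℂ) (F l (T.gam a r))) →
      ∫ x in T.Q, ‖F l x + -c * (starRingEnd ℂ) (F l x)‖ ^ 2 ≤
        8 * T.D ^ 2 * ∫ x in T.Q, (‖dz (F l) x‖ ^ 2 + ‖dzb (F l) x‖ ^ 2) := by
    intro a c hc h
    refine (T.poincare_side (nG c) l a fun r hr => by linear_combination h r hr).trans ?_
    rw [show 8 * T.D ^ 2 = 2 * T.D ^ 2 * 4 by ring, mul_assoc _ (4 : ℝ), ← integral_const_mul (4 : ℝ)]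
    apply mul_le_mul_of_nonneg_left _ (by positivity)
    refine integral_mono ((T.N0_integrableOn_sq (nG c).Dz.n0 l).add
      (T.N0_integrableOn_sq (nG c).Dzb.n0 l)) (i4.const_mul _) fun x => ?_
    have h1 := hF.diff l x
    have h2 := hF.conj.diff l x
    have h3 : DifferentiableAt ℝ (fun y => -c * (starRingEnd ℂ) (F l y)) x := h2.const_mul _
    have e1 : dz (fun x => F l x + -c * (starRingEnd ℂ) (F l x)) x =
        dz (F l) x + -c * (starRingEnd ℂ) (dzb (F l) x) := by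
      rw [← dz_conj h1]
      simp only [dz, d1_add h1 h3, d2_add h1 h3, d1_const_mul _ h2, d2_const_mul _ h2]; ring
    have e2 : dzb (fun x => F l x + -c * (starRingEnd ℂ) (F l x)) x =
        dzb (F l) x + -c * (starRingEnd ℂ) (dz (F l) x) := by
      rw [← dzb_conj h1]
      simp only [dzb, d1_add h1 h3, d2_add h1 h3, d1_const_mul _ h2, d2_const_mul _ h2]; ring
    simp only [e1, e2]
    have b1 : ‖dz (F l) x + -c * (starRingEnd ℂ) (dzb (F l) x)‖ ≤ ‖dz (F l) x‖ + ‖dzb (F l) x‖ :=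
      (norm_add_le _ _).trans (by simp [hc])
    have b2 : ‖dzb (F l) x + -c * (starRingEnd ℂ) (dz (F l) x)‖ ≤ ‖dzb (F l) x‖ + ‖dz (F l) x‖ :=
      (norm_add_le _ _).trans (by simp [hc])
    have b3 := pow_le_pow_left₀ (norm_nonneg _) b1 2
    have b4 := pow_le_pow_left₀ (norm_nonneg _) b2 2
    nlinarith [sq_nonneg (‖dz (F l) x‖ - ‖dzb (F l) x‖)]
  have k1 := key a ca ha1 ha
  have k2 := key b cb hb1 hb
  have j1 := T.N0_integrableOn_sq (nG ca).n0 l
  have j2 := T.N0_integrableOn_sq (nG cb).n0 l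
  have : ‖ca - cb‖ ^ 2 * ∫ x in T.Q, ‖F l x‖ ^ 2 ≤
      2 * (∫ x in T.Q, ‖F l x + -ca * (starRingEnd ℂ) (F l x)‖ ^ 2) +
      2 * ∫ x in T.Q, ‖F l x + -cb * (starRingEnd ℂ) (F l x)‖ ^ 2 := by
    rw [← integral_const_mul, ← integral_const_mul, ← integral_const_mul,
      ← integral_add (j1.const_mul _) (j2.const_mul _)]
    refine integral_mono ((T.N0_integrableOn_sq hF.n0 l).const_mul _)
      ((j1.const_mul _).add (j2.const_mul _)) fun x => ?_
    have e : ‖ca - cb‖ * ‖F l x‖ ≤ ‖F l x + -ca * (starRingEnd ℂ) (F l x)‖ +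
        ‖F l x + -cb * (starRingEnd ℂ) (F l x)‖ := by
      refine le_trans (le_of_eq ?_) (norm_sub_le _ _)
      rw [show F l x + -ca * (starRingEnd ℂ) (F l x) - (F l x + -cb * (starRingEnd ℂ) (F l x)) =
        -((ca - cb) * (starRingEnd ℂ) (F l x)) by ring]
      simp
    have e2 := pow_le_pow_left₀ (by positivity) e 2
    simp only
    nlinarith [sq_nonneg (‖F l x + -ca * (starRingEnd ℂ) (F l x)‖ -
        ‖F l x + -cb * (starRingEnd ℂ) (F l x)‖)]
  linarith

end Tri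

end

end Vale.Agent.P099
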