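import Vale.Agent.P099.Modes

/-!
Properties of the smoothing operator: reality, symmetry on the sides, antisymmetry along the
flow and mean square estimates.
-/

open MeasureTheory Set Filter Topology

namespace Vale.Agent.P099

noncomputable section

lemma exists_bump : ∃ c1 : ℝ, 0 ≤ c1 ∧ ∀ κ : ℝ, 0 < κ → ∃ α : ℝ → ℝ, Bump κ α ∧
    (∀ t, α (-t) = α t) ∧ ∫ t, |α t| = 1 ∧ ∫ t, α t = 1 ∧ ∫ t, |Dm α t| = c1 / κ := by
  let φ : ContDiffBump (0 : ℝ) := ⟨1 / 2, 1, by norm_num, by norm_num⟩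
  set p : ℝ → ℝ := φ.normed volume with hp
  have h1 : ContDiff ℝ (⊤ : ℕ∞) p := φ.contDiff_normed
  have h2 : ∀ t, 1 < |t| → p t = 0 := by
    intro t ht
    by_contra hc
    have : t ∈ Function.support p := hc
    rw [hp, φ.support_normed_eq, mem_ball_zero_iff, Real.norm_eq_abs] at this
    exact absurd (ht.trans this) (lt_irrefl _)
  have h3 : ∀ t, p (-t) = p t := φ.normed_neg
  have h4 : ∀ t, 0 ≤ p t := φ.nonneg_normed
  have h5 : ∫ t, p t = 1 := φ.integral_normed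
  refine ⟨∫ t, |deriv p t|, integral_nonneg fun _ => abs_nonneg _, fun κ hκ =>
    ⟨fun t => p (t / κ) / κ, ⟨?_, ?_⟩, ?_, ?_, ?_, ?_⟩⟩
  · exact (h1.comp (contDiff_id.div_const κ)).div_const κ
  · intro t ht
    have : 1 < |t / κ| := by rw [abs_div, abs_of_pos hκ, lt_div_iff₀ hκ]; linarith
    simp only [h2 _ this, zero_div]
  · intro t; simp only [neg_div, h3]
  · have : ∀ t, |p (t / κ) / κ| = p (t / κ) / κ := fun t =>
      abs_of_nonneg (div_nonneg (h4 _) hκ.le)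
    simp only [this]
    rw [integral_div, Measure.integral_comp_div p κ, h5, abs_of_pos hκ]
    simp [hκ.ne']
  · rw [integral_div, Measure.integral_comp_div p κ, h5, abs_of_pos hκ]
    simp [hκ.ne']
  · have : ∀ t, |Dm (fun t => p (t / κ) / κ) t| = |deriv p (t / κ)| / κ ^ 2 := by
      intro t
      have d1 : HasDerivAt p (deriv p (t / κ)) (t / κ) :=
        (h1.differentiable (by simp) _).hasDerivAt
      have d2 := (d1.comp t ((hasDerivAt_id t).div_const κ)).div_const κ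
      have d3 : deriv (fun t => p (t / κ) / κ) t = deriv p (t / κ) * (1 / κ) / κ := d2.deriv
      rw [Dm, abs_neg, d3, abs_div, abs_mul, abs_of_pos hκ, abs_of_pos (by positivity : 0 < 1 / κ)]
      field_simp
    simp only [this]
    rw [integral_div, Measure.integral_comp_div (fun t => |deriv p t|) κ, abs_of_pos hκ,
      smul_eq_mul]
    field_simp

section
variable {Ω : Type*} [MeasurableSpace Ω] {R R' : ℝ} {α β : ℝ → ℝ} {Ψ : Ω → ZZ → ℂ}

omit [MeasurableSpace Ω] in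
lemma MM_real (hr : ∀ ω z, (starRingEnd ℂ) (Ψ ω z) = Ψ ω z) (l : TT × Ω) (x : ℂ) :
    (starRingEnd ℂ) (MM α β Ψ l x) = MM α β Ψ l x := by
  unfold MM
  rw [← integral_conj]
  congr 1; funext a
  rw [map_mul, hr, Complex.conj_ofReal]

omit [MeasurableSpace Ω] in
lemma MM_refl (T : Tri) (hβ : Bump R' β) (he : ∀ t, β (-t) = β t)
    (hΨ : ∀ ω a z, z ∈ T.E a → Ψ ω (T.refl a z) = Ψ ω z) (a : Fin 3) (θ : TT) (ω : Ω) {r : ℝ}
    (hr : r ∈ Ioo (0 : ℝ) 1) (h1 : R' < |T.h a (θ, T.gam a r)|)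
    (h2 : R' < |T.h (a + 1) (θ, T.gam a r)|) :
    MM α β Ψ (T.rt a θ, ω) (T.gam a r) = MM α β Ψ (θ, ω) (T.gam a r) := by
  have hΨ' : ∀ z, z ∈ T.E a ∨ z ∈ T.N a → Ψ ω (T.refl a z) = Ψ ω z := by
    rintro z (hz | hz)
    · exact hΨ ω a z hz
    · have := hΨ ω a _ (T.refl_mem_E hz)
      rw [T.refl_refl] at this
      exact this.symm
  have hz : (T.rt a θ, T.gam a r) = T.refl a (θ, T.gam a r) := by simp [Tri.refl, T.rp_gam]
  have mp : MeasurePreserving (fun q : ℝ × ℝ => (q.1, -q.2)) volume volume :=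
    (MeasurePreserving.id volume).prod (Measure.measurePreserving_neg volume)
  have me : MeasurableEmbedding (fun q : ℝ × ℝ => (q.1, -q.2)) :=
    ((MeasurableEquiv.refl ℝ).prodCongr (MeasurableEquiv.neg ℝ)).measurableEmbedding
  unfold MM
  rw [← mp.integral_comp me]
  congr 1; funext q
  simp only [he]
  by_cases hq : β q.2 = 0
  · simp [hq]
  have hs : |q.2| ≤ R' := by
    by_contra hc
    exact hq (hβ.2 _ (not_le.1 hc))
  congr 1
  rw [hz, ← hΨ' (sh (q.1 + q.2 * Complex.I) (θ, T.gam a r)), T.refl_sh]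
  · congr 2
    simp
  · have hg := T.h_gam a r θ
    simp only [Tri.E, Tri.N, mem_ofPred_eq, T.h_sh, Complex.add_im, Complex.ofReal_im,
      Complex.mul_im, Complex.ofReal_re, Complex.I_im, mul_one, Complex.I_re, mul_zero, add_zero,
      zero_add]
    generalize T.h a (θ, T.gam a r) = u at *
    generalize T.h (a + 1) (θ, T.gam a r) = v at *
    obtain ⟨r0, r1⟩ := hr
    rw [abs_le] at hs
    have hR : 0 ≤ R' := by linarith [hs.1, hs.2]
    rcases lt_abs.1 h1 with h1 | h1 <;> rcases lt_abs.1 h2 with h2 | h2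
    · exfalso; nlinarith
    · right; constructor <;> linarith [hs.1, hs.2]
    · left; constructor <;> linarith [hs.1, hs.2]
    · exfalso; nlinarith

omit [MeasurableSpace Ω] in
lemma MM_zero (hα : Bump R α) (hβ : Bump R' β) (l : TT × Ω) (x : ℂ)
    (h : ∀ t s : ℝ, |t| ≤ R → |s| ≤ R' → Ψ l.2 (sh (t + s * Complex.I) (l.1, x)) = 0) :
    MM α β Ψ l x = 0 := by
  unfold MM
  rw [← integral_zero (ℝ × ℝ) ℂ (μ := volume)]
  congr 1; funext q
  by_cases h1 : R < |q.1|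
  · simp [hα.2 _ h1]
  by_cases h2 : R' < |q.2|
  · simp [hβ.2 _ h2]
  rw [h _ _ (not_lt.1 h1) (not_lt.1 h2), mul_zero]

omit [MeasurableSpace Ω] in
lemma MM_flow {t : ℝ} {ψ : Ω → Ω} (h : ∀ ω z, Ψ ω (sh t z) = Ψ (ψ ω) z) (θ : TT) (ω : Ω) (x : ℂ) :
    MM α β Ψ (θ, ω) (x + ee θ * t) = MM α β Ψ (θ, ψ ω) x := by
  unfold MM
  congr 1; funext q
  rw [← h, sh_add, add_comm (t : ℂ), ← sh_add _ (t : ℂ)]
  rfl

lemma MM_anti (ν : Measure Ω) [IsFiniteMeasure ν] {α' β' : ℝ → ℝ} (hα : Bump R α)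
    (hβ : Bump R' β) (hα' : Bump R α') (hβ' : Bump R' β') (hΨ : B0 Ψ)
    (h3 : ∀ t : ℝ, ∃ ψ : Ω → Ω, MeasurePreserving ψ ν ν ∧ ∀ ω z, Ψ ω (sh t z) = Ψ (ψ ω) z)
    (θ θ' : TT) (x : ℂ) :
    ∫ ω, MM α β Ψ (θ, ω) x * MM (Dm α') β' Ψ (θ', ω) x ∂ν =
      - ∫ ω, MM (Dm α) β Ψ (θ, ω) x * MM α' β' Ψ (θ', ω) x ∂ν := by
  have meas : ∀ {α β α' β' : ℝ → ℝ}, Bump R α → Bump R' β → Bump R α' → Bump R' β' →
      ∀ x x' : ℂ, Measurable (fun ω => MM α β Ψ (θ, ω) x * MM α' β' Ψ (θ', ω) x') := by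
    intro α β α' β' hα hβ hα' hβ' x x'
    exact (((N0_MM hα hβ hΨ).meas' x).comp measurable_prodMk_left).mul
      (((N0_MM hα' hβ' hΨ).meas' x').comp measurable_prodMk_left)
  have bd : ∀ {α β α' β' : ℝ → ℝ}, Bump R α → Bump R' β → Bump R α' → Bump R' β' →
      ∃ C, ∀ (x x' : ℂ) ω, ‖MM α β Ψ (θ, ω) x * MM α' β' Ψ (θ', ω) x'‖ ≤ C := by
    intro α β α' β' hα hβ hα' hβ'
    obtain ⟨C1, h1⟩ := (N0_MM hα hβ hΨ).2
    obtain ⟨C2, h2⟩ := (N0_MM hα' hβ' hΨ).2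
    refine ⟨C1 * C2, fun x x' ω => ?_⟩
    rw [norm_mul]
    exact mul_le_mul (h1 _ _) (h2 _ _) (norm_nonneg _) ((norm_nonneg _).trans (h1 (θ, ω) x))
  have int : ∀ {α β α' β' : ℝ → ℝ}, Bump R α → Bump R' β → Bump R α' → Bump R' β' →
      ∀ x x' : ℂ, Integrable (fun ω => MM α β Ψ (θ, ω) x * MM α' β' Ψ (θ', ω) x') ν := by
    intro α β α' β' hα hβ hα' hβ' x x'
    obtain ⟨C, hC⟩ := bd hα hβ hα' hβ'
    exact Integrable.of_bound (meas hα hβ hα' hβ' x x').aestronglyMeasurable C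
      (Eventually.of_forall (hC x x'))
  obtain ⟨C1, hC1⟩ := bd hα.dm hβ hα' hβ'
  obtain ⟨C2, hC2⟩ := bd hα hβ hα'.dm hβ'
  have key := (hasDerivAt_integral_of_dominated_loc_of_deriv_le (μ := ν) (x₀ := (0 : ℝ))
    (s := univ)
    (F := fun (t : ℝ) ω => MM α β Ψ (θ, ω) (x + ee θ * t) * MM α' β' Ψ (θ', ω) (x + ee θ' * t))
    (F' := fun (t : ℝ) ω =>
      MM (Dm α) β Ψ (θ, ω) (x + ee θ * t) * MM α' β' Ψ (θ', ω) (x + ee θ' * t) +
      MM α β Ψ (θ, ω) (x + ee θ * t) * MM (Dm α') β' Ψ (θ', ω) (x + ee θ' * t))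
    (bound := fun _ => C1 + C2) univ_mem
    (Eventually.of_forall fun t => (meas hα hβ hα' hβ' _ _).aestronglyMeasurable)
    (int hα hβ hα' hβ' _ _)
    ((meas hα.dm hβ hα' hβ' _ _).add (meas hα hβ hα'.dm hβ' _ _)).aestronglyMeasurable
    (Eventually.of_forall fun ω t _ => (norm_add_le _ _).trans (add_le_add (hC1 _ _ _) (hC2 _ _ _)))
    (integrable_const _)
    (Eventually.of_forall fun ω t _ => (MM_hasDerivAt_flow hα hβ hΨ (θ, ω) x t).mul
      (MM_hasDerivAt_flow hα' hβ' hΨ (θ', ω) x t))).2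
  have hc : (fun t : ℝ => ∫ ω, MM α β Ψ (θ, ω) (x + ee θ * t) *
      MM α' β' Ψ (θ', ω) (x + ee θ' * t) ∂ν) =
      fun _ => ∫ ω, MM α β Ψ (θ, ω) x * MM α' β' Ψ (θ', ω) x ∂ν := by
    funext t
    obtain ⟨ψ, hψ, h⟩ := h3 t
    simp only [MM_flow h]
    conv_rhs => rw [← hψ.map_eq]
    rw [integral_map hψ.measurable.aemeasurable (meas hα hβ hα' hβ' x x).aestronglyMeasurable]
  rw [hc] at key
  have := key.unique (hasDerivAt_const _ _)
  simp only [Complex.ofReal_zero, mul_zero, add_zero] at this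
  rw [integral_add (int hα.dm hβ hα' hβ' _ _) (int hα hβ hα'.dm hβ' _ _)] at this
  linear_combination this

lemma B0.meas_sh (hΨ : B0 Ψ) {Y : Type*} [MeasurableSpace Y] {u : Y → Ω} {v : Y → ZZ}
    {b : Y → ℂ} (hu : Measurable u) (hv : Measurable v) (hb : Measurable b) :
    Measurable (fun y => Ψ (u y) (sh (b y) (v y))) :=
  hΨ.1.comp (g := fun q : Ω × ZZ => Ψ q.1 q.2) (f := fun y => (u y, sh (b y) (v y)))
    (hu.prodMk (continuous_sh.measurable.comp (g := fun q : ℂ × ZZ => sh q.1 q.2)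
      (f := fun y => (b y, v y)) (hb.prodMk hv)))

lemma MM_L2 (μ : Measure (Ω × ZZ)) [IsFiniteMeasure μ] (hα : Bump R α) (hβ : Bump R' β)
    (hΨ : B0 Ψ) {Θ : Ω × ZZ → ℝ × ℝ → ℂ}
    (hΘ : Measurable (fun q : (Ω × ZZ) × (ℝ × ℝ) => Θ q.1 q.2)) (hb : ∀ y a, ‖Θ y a‖ ≤ 1)
    {u : Ω × ZZ → ℂ} (hu : ∀ y, ∫ a : ℝ × ℝ, ((α a.1 * β a.2 : ℝ) : ℂ) * Θ y a = u y) {c : ℝ}
    (hc : ∀ t s : ℝ, |t| ≤ R → |s| ≤ R' →
      ∫ y, ‖Ψ y.1 (sh (t + s * Complex.I) y.2) - Θ y (t, s)‖ ^ 2 ∂μ ≤ c) :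
    ∫ y, ‖MM α β Ψ (y.2.1, y.1) y.2.2 - u y‖ ^ 2 ∂μ ≤ ((∫ t, |α t|) * ∫ t, |β t|) ^ 2 * c := by
  have hm : Measurable (fun q : (Ω × ZZ) × (ℝ × ℝ) =>
      Ψ q.1.1 (sh (q.2.1 + q.2.2 * Complex.I) q.1.2)) :=
    hΨ.meas_sh (by fun_prop) (by fun_prop) (by fun_prop)
  have hk := hα.integrable_prod hβ
  have key := L2avg μ (volume : Measure (ℝ × ℝ)) hk
    (Ψ := fun y a => Ψ y.1 (sh (a.1 + a.2 * Complex.I) y.2) - Θ y a) (hm.sub hΘ) (C := 1 + 1)
    (fun y a => (norm_sub_le _ _).trans (add_le_add (hΨ.2 _ _) (hb _ _))) (c := c) (by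
      intro a ha
      refine hc a.1 a.2 ?_ ?_
      · by_contra h; exact ha (by simp [hα.2 _ (not_le.1 h)])
      · by_contra h; exact ha (by simp [hβ.2 _ (not_le.1 h)]))
  have e : ∫ a : ℝ × ℝ, |α a.1 * β a.2| = (∫ t, |α t|) * ∫ t, |β t| := by
    simp only [abs_mul]
    exact integral_prod_mul (fun t => |α t|) (fun t => |β t|)
  rw [e] at key
  refine le_trans (le_of_eq ?_) key
  congr 1; funext y
  congr 2
  rw [← hu, MM, ← integral_sub]
  · simp only [mul_sub]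
  · exact hk.ofReal.mul_bdd (hm.comp measurable_prodMk_left).aestronglyMeasurable
      (Eventually.of_forall fun a => hΨ.2 _ _)
  · exact hk.ofReal.mul_bdd (hΘ.comp measurable_prodMk_left).aestronglyMeasurable
      (Eventually.of_forall fun a => hb _ _)

lemma int_split (F G : ℝ → ℂ) : ∫ a : ℝ × ℝ, ((α a.1 * β a.2 : ℝ) : ℂ) * (F a.1 * G a.2) =
    (∫ t, (α t : ℂ) * F t) * ∫ s, (β s : ℂ) * G s := by
  rw [← integral_prod_mul (fun t => (α t : ℂ) * F t) (fun s => (β s : ℂ) * G s)]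
  congr 1; funext a; push_cast; ring

lemma int_const (u : ℂ) : ∫ a : ℝ × ℝ, ((α a.1 * β a.2 : ℝ) : ℂ) * u =
    ((∫ t, α t : ℝ) : ℂ) * ((∫ t, β t : ℝ) : ℂ) * u := by
  have := int_split (α := α) (β := β) (fun _ => 1) (fun _ => u)
  simp only [one_mul, mul_one, integral_mul_const, integral_complex_ofReal] at this
  rw [integral_mul_const, integral_complex_ofReal, this, mul_assoc]

lemma int_left (h : ∫ t, α t = 0) (G : ℝ → ℂ) :
    ∫ a : ℝ × ℝ, ((α a.1 * β a.2 : ℝ) : ℂ) * G a.2 = 0 := by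
  have := int_split (α := α) (β := β) (fun _ => 1) G
  simp only [one_mul, mul_one, integral_complex_ofReal, h] at this
  simpa using this

lemma int_right (h : ∫ t, β t = 0) (F : ℝ → ℂ) :
    ∫ a : ℝ × ℝ, ((α a.1 * β a.2 : ℝ) : ℂ) * F a.1 = 0 := by
  have := int_split (α := α) (β := β) F (fun _ => 1)
  simp only [mul_one, integral_complex_ofReal, h] at this
  simpa using this

end

end

end Vale.Agent.P099
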