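import Vale.Agent.P099.Smooth

/-!
Continuity of translations in the mean, and functions with small gradient.
-/

open MeasureTheory Set Filter Topology

namespace Vale.Agent.P099

noncomputable section

lemma L1_shift {u : ZZ → ℂ} (hu : Integrable u) :
    Tendsto (fun b : ℂ => ∫ z, ‖u (sh b z) - u z‖) (𝓝 0) (𝓝 0) := by
  let g : C(ℂ, C(ZZ, ZZ)) := ContinuousMap.curry ⟨fun q : ℂ × ZZ => sh q.1 q.2, continuous_sh⟩
  have hg : ∀ b, MeasurePreserving (g b) volume volume := fun b => mp_sh b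
  have hu1 : MemLp u 1 volume := memLp_one_iff_integrable.2 hu
  have key := Filter.Tendsto.compMeasurePreservingLp (p := 1) (l := 𝓝 (0 : ℂ))
    (f := fun _ => hu1.toLp u) tendsto_const_nhds (g.continuous.tendsto 0) hg (hg 0) (by simp)
  rw [tendsto_iff_norm_sub_tendsto_zero] at key
  refine key.congr fun b => ?_
  rw [L1.norm_eq_integral_norm]
  apply integral_congr_ae
  filter_upwards [Lp.coeFn_sub (Lp.compMeasurePreserving (g b) (hg b) (hu1.toLp u))
    (Lp.compMeasurePreserving (g 0) (hg 0) (hu1.toLp u)),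
    Lp.coeFn_compMeasurePreserving (hu1.toLp u) (hg b),
    Lp.coeFn_compMeasurePreserving (hu1.toLp u) (hg 0),
    (hg b).quasiMeasurePreserving.ae hu1.coeFn_toLp,
    (hg 0).quasiMeasurePreserving.ae hu1.coeFn_toLp] with z h1 h2 h3 h4 h5
  rw [h1, Pi.sub_apply, h2, h3, Function.comp_apply, Function.comp_apply, h4, h5]
  show ‖u (sh b z) - u (sh 0 z)‖ = _
  rw [sh_zero]

variable {Ω : Type*} [MeasurableSpace Ω]

namespace Tri

variable (T : Tri) (ν : Measure Ω) [IsFiniteMeasure ν]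

lemma trans_cont {W : Ω → ZZ → ℂ} (hW : B0 W) {τ : ℝ} (hτ : 0 < τ) :
    ∃ ρ > 0, ∀ a b : ℂ, ‖a‖ ≤ 1 → ‖b‖ ≤ ρ →
      ∫ y, ‖W y.1 (sh (a + b) y.2) - W y.1 (sh a y.2)‖ ^ 2 ∂(ν.prod T.nu) ≤ τ := by
  set B1 : Set ZZ := univ ×ˢ Metric.closedBall (T.P 0) (T.D + 2) with hB1
  have mB : MeasurableSet B1 := MeasurableSet.univ.prod measurableSet_closedBall
  have fB : volume B1 < ⊤ := by
    rw [hB1, Measure.volume_eq_prod, Measure.prod_prod]
    exact ENNReal.mul_lt_top (measure_lt_top _ _) measure_closedBall_lt_top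
  set u : Ω → ZZ → ℂ := fun ω => B1.indicator (W ω) with hu
  have um : Measurable (fun q : Ω × ZZ => u q.1 q.2) :=
    hW.1.indicator (measurable_snd mB)
  have ui : ∀ ω, Integrable (u ω) := fun ω => by
    rw [hu, integrable_indicator_iff mB]
    exact Measure.integrableOn_of_bounded fB.ne
      (hW.1.comp measurable_prodMk_left).aestronglyMeasurable
      (Eventually.of_forall fun z => hW.2 ω z)
  have un : ∀ ω, ∫ z, ‖u ω z‖ ≤ volume.real B1 := fun ω => by
    rw [← integral_indicator_one mB]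
    refine integral_mono (ui ω).norm ((integrable_indicator_iff mB).2
      (integrableOn_const fB.ne)) fun z => ?_
    by_cases hz : z ∈ B1
    · simpa [hu, hz] using hW.2 ω z
    · simp [hu, hz]
  have uj : ∀ ω (b : ℂ), Integrable (fun z => ‖u ω (sh b z) - u ω z‖) := fun ω b =>
    (((mp_sh b).integrable_comp_of_integrable (ui ω)).sub (ui ω)).norm
  have Jm : ∀ b : ℂ, Measurable (fun ω => ∫ z, ‖u ω (sh b z) - u ω z‖) := fun b => by
    have : Measurable (fun q : Ω × ZZ => ‖u q.1 (sh b q.2) - u q.1 q.2‖) :=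
      ((um.comp (g := fun q : Ω × ZZ => u q.1 q.2) (f := fun q : Ω × ZZ => (q.1, sh b q.2))
        (measurable_fst.prodMk ((measurable_sh b).comp measurable_snd))).sub um).norm
    exact (this.stronglyMeasurable.integral_prod_right' (ν := volume)).measurable
  have Jb : ∀ (b : ℂ) ω, ‖∫ z, ‖u ω (sh b z) - u ω z‖‖ ≤ volume.real B1 + volume.real B1 := by
    intro b ω
    rw [Real.norm_of_nonneg (integral_nonneg fun _ => norm_nonneg _)]
    have i1 : Integrable (fun z => ‖u ω (sh b z)‖) :=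
      ((mp_sh b).integrable_comp_of_integrable (ui ω)).norm
    refine (integral_mono (uj ω b) (i1.add (ui ω).norm) fun z => norm_sub_le _ _).trans ?_
    rw [integral_add' i1 (ui ω).norm]
    refine add_le_add (le_trans (le_of_eq ?_) (un ω)) (un ω)
    conv_rhs => rw [← (mp_sh b).map_eq]
    exact (integral_map (f := fun z => ‖u ω z‖) (measurable_sh b).aemeasurable
      (um.comp measurable_prodMk_left).norm.aestronglyMeasurable).symm
  have lim := tendsto_integral_filter_of_dominated_convergence (μ := ν) (l := 𝓝 (0 : ℂ))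
    (F := fun b ω => ∫ z, ‖u ω (sh b z) - u ω z‖) (f := fun _ => 0)
    (fun _ => volume.real B1 + volume.real B1)
    (Eventually.of_forall fun b => (Jm b).aestronglyMeasurable)
    (Eventually.of_forall fun b => Eventually.of_forall (Jb b)) (integrable_const _)
    (Eventually.of_forall fun ω => L1_shift (ui ω))
  rw [integral_zero] at lim
  obtain ⟨ρ, hρ, h⟩ := Metric.eventually_nhds_iff.1 (lim.eventually (gt_mem_nhds (half_pos hτ)))
  refine ⟨min (ρ / 2) 1, by positivity, fun a b ha hb => ?_⟩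
  have hb1 : ‖b‖ ≤ 1 := hb.trans (min_le_right _ _)
  have h1 := h (y := b) (by
    rw [dist_zero_right]; linarith [hb.trans (min_le_left _ _)])
  have m1 : Measurable (fun y : Ω × ZZ => W y.1 (sh (a + b) y.2) - W y.1 (sh a y.2)) :=
    (hW.meas_sh measurable_fst measurable_snd measurable_const).sub
      (hW.meas_sh measurable_fst measurable_snd measurable_const)
  have b1 : ∀ y : Ω × ZZ, ‖W y.1 (sh (a + b) y.2) - W y.1 (sh a y.2)‖ ≤ 2 := fun y =>
    (norm_sub_le _ _).trans (by linarith [hW.2 y.1 (sh (a + b) y.2), hW.2 y.1 (sh a y.2)])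
  have i1 := sq_int (ν.prod T.nu) m1 b1
  rw [integral_prod _ i1]
  refine le_trans (integral_mono (g := fun ω => 2 * ∫ z, ‖u ω (sh b z) - u ω z‖)
    i1.integral_prod_left ((Integrable.of_bound (Jm b).aestronglyMeasurable _
      (Eventually.of_forall (Jb b))).const_mul 2) fun ω => ?_) (by
      rw [integral_const_mul]; linarith)
  have i2 : Integrable (fun z => ‖u ω (sh b (sh a z)) - u ω (sh a z)‖) :=
    (mp_sh a).integrable_comp_of_integrable (uj ω b)
  have e2 : ∫ z, ‖u ω (sh b z) - u ω z‖ = ∫ z, ‖u ω (sh b (sh a z)) - u ω (sh a z)‖ := by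
    conv_lhs => rw [← (mp_sh a).map_eq]
    rw [integral_map (measurable_sh a).aemeasurable]
    rw [(mp_sh a).map_eq]
    exact (uj ω b).1
  simp only
  rw [e2, ← integral_const_mul]
  refine le_trans ?_ (setIntegral_le_integral (s := T.Dp) (i2.const_mul 2)
    (Eventually.of_forall fun z => by positivity))
  refine integral_mono_of_nonneg (Eventually.of_forall fun z => sq_nonneg _)
    (i2.const_mul 2).integrableOn ?_
  filter_upwards [ae_restrict_mem T.measurableSet_Dp] with z hz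
  have hK := T.norm_le_D (T.Dp_sub_K hz)
  have mem : ∀ c : ℂ, ‖c‖ ≤ 2 → sh c z ∈ B1 := by
    intro c hc
    refine ⟨mem_univ _, ?_⟩
    rw [mem_closedBall_iff_norm]
    calc ‖(sh c z).2 - T.P 0‖ = ‖ee z.1 * c - (T.P 0 - z.2)‖ := by
          congr 1; simp only [sh]; ring
      _ ≤ ‖ee z.1 * c‖ + ‖T.P 0 - z.2‖ := norm_sub_le _ _
      _ ≤ T.D + 2 := by rw [norm_mul, norm_ee]; linarith
  rw [sh_add, add_comm b a, hu]
  simp only [indicator_of_mem (mem a (by linarith)),
    indicator_of_mem (mem (a + b) ((norm_add_le _ _).trans (by linarith)))]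
  have := b1 (ω, z)
  have := norm_nonneg (W ω (sh (a + b) z) - W ω (sh a z))
  nlinarith

/-- the part of the parameter and position space where a shift stays inside the table -/
def mv (v : ℂ) : Measure (Ω × ℂ) := (T.mm ν).restrict {q | q.2 + v ∈ T.Q}

instance (v : ℂ) : IsFiniteMeasure (T.mv ν v) := by unfold mv; infer_instance

lemma meas_mv (v : ℂ) : MeasurableSet {q : Ω × ℂ | q.2 + v ∈ T.Q} :=
  (measurable_snd.add_const v) T.measurableSet_Q

lemma shift_le {G : Ω → ℂ → ℂ} (hG : N0 G) (v : ℂ) {r : ℝ} (h0 : 0 ≤ r) (h1 : r ≤ 1) :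
    ∫ q, ‖G q.1 (q.2 + r * v)‖ ^ 2 ∂T.mv ν v ≤ T.nrm ν G := by
  have mp : MeasurePreserving (fun q : Ω × ℂ => (q.1, q.2 + r * v)) (ν.prod volume)
      (ν.prod volume) :=
    (MeasurePreserving.id ν).prod (measurePreserving_add_right volume (r * v))
  have me : MeasurableEmbedding (fun q : Ω × ℂ => (q.1, q.2 + r * v)) :=
    ((MeasurableEquiv.refl Ω).prodCongr (MeasurableEquiv.addRight (r * v))).measurableEmbedding
  have e : T.mm ν = (ν.prod volume).restrict (univ ×ˢ T.Q) := by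
    rw [mm, ← Measure.prod_restrict, Measure.restrict_univ]
  have hi := T.N0_sq_int ν hG
  rw [nrm, mv]
  rw [e] at hi ⊢
  rw [Measure.restrict_restrict (T.meas_mv v),
    ← mp.setIntegral_preimage_emb me (fun q : Ω × ℂ => ‖G q.1 q.2‖ ^ 2)]
  refine setIntegral_mono_set ((mp.integrableOn_comp_preimage me).2 hi)
    (Eventually.of_forall fun q => sq_nonneg _) (LE.le.eventuallyLE ?_)
  rintro q ⟨hq1, -, hq2⟩
  refine ⟨mem_univ _, ?_⟩
  have := T.convex_Q hq2 hq1 (sub_nonneg.2 h1) h0 (by ring)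
  convert this using 1
  simp only [Complex.real_smul]
  push_cast; ring

lemma shift_poincare {F : Ω → ℂ → ℂ} (hF : Nice 1 F) (v : ℂ) :
    ∫ q, ‖F q.1 (q.2 + v) - F q.1 q.2‖ ^ 2 ∂T.mv ν v ≤
      ‖v‖ ^ 2 * (T.nrm ν (fun ω => dz (F ω)) + T.nrm ν (fun ω => dzb (F ω))) := by
  set G : Ω → ℂ → ℂ := fun ω x => (v.re : ℂ) * d1 (F ω) x + v.im * d2 (F ω) x with hG
  have nG : N0 G := ((N0.const' _).mul hF.D1.n0).add ((N0.const' _).mul hF.D2.n0)
  obtain ⟨C, hC⟩ := nG.2
  have hm : Measurable (fun p : (Ω × ℂ) × ℝ => G p.1.1 (p.1.2 + p.2 * v)) :=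
    nG.1.comp (g := fun q : Ω × ℂ => G q.1 q.2)
      (f := fun p : (Ω × ℂ) × ℝ => (p.1.1, p.1.2 + p.2 * v)) (by fun_prop)
  have key := L2avg (T.mv ν v) (volume : Measure ℝ) (k := (Ioc (0 : ℝ) 1).indicator 1)
    ((integrable_indicator_iff measurableSet_Ioc).2 (integrableOn_const (by simp)))
    (Ψ := fun q r => G q.1 (q.2 + r * v)) hm (fun q r => hC _ _) (c := T.nrm ν G) (by
      intro r hr
      have : r ∈ Ioc (0 : ℝ) 1 := by
        by_contra hc; exact hr (indicator_of_notMem hc _)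
      exact T.shift_le ν nG v this.1.le this.2)
  have e1 : ∫ r, |(Ioc (0 : ℝ) 1).indicator (1 : ℝ → ℝ) r| = 1 := by
    have : ∀ r, |(Ioc (0 : ℝ) 1).indicator (1 : ℝ → ℝ) r| = (Ioc (0 : ℝ) 1).indicator 1 r :=
      fun r => abs_of_nonneg (indicator_nonneg (fun _ _ => zero_le_one) r)
    simp only [this]
    rw [integral_indicator_one measurableSet_Ioc]; simp
  have e2 : ∀ q : Ω × ℂ, ∫ r : ℝ, (((Ioc (0 : ℝ) 1).indicator (1 : ℝ → ℝ) r : ℝ) : ℂ) *
      G q.1 (q.2 + r * v) = F q.1 (q.2 + v) - F q.1 q.2 := by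
    intro q
    have h1 : ∀ r : ℝ, (((Ioc (0 : ℝ) 1).indicator (1 : ℝ → ℝ) r : ℝ) : ℂ) * G q.1 (q.2 + r * v) =
        (Ioc (0 : ℝ) 1).indicator (fun r : ℝ => G q.1 (q.2 + r * v)) r := by
      intro r
      by_cases hr : r ∈ Ioc (0 : ℝ) 1 <;> simp [hr]
    simp only [h1]
    rw [integral_indicator measurableSet_Ioc, ← intervalIntegral.integral_of_le zero_le_one,
      intervalIntegral.integral_eq_sub_of_hasDerivAt (f := fun r : ℝ => F q.1 (q.2 + r * v))]
    · simp
    · intro r _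
      have h2 : HasDerivAt (fun r : ℝ => q.2 + r * v) v r := by
        simpa using ((Complex.ofRealCLM.hasDerivAt (x := r)).mul_const v).const_add q.2
      have := (hF.diff q.1 (q.2 + r * v)).hasFDerivAt.comp_hasDerivAt r h2
      rw [fderiv_apply_eq] at this
      exact this
    · rw [intervalIntegrable_iff_integrableOn_Ioc_of_le zero_le_one]
      exact Measure.integrableOn_of_bounded (by simp)
        (hm.comp measurable_prodMk_left).aestronglyMeasurable
        (Eventually.of_forall fun r => hC _ _)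
  simp only [e1, e2, one_pow, one_mul] at key
  refine key.trans ?_
  unfold nrm
  rw [← integral_add (T.N0_sq_int ν hF.Dz.n0) (T.N0_sq_int ν hF.Dzb.n0), ← integral_const_mul]
  refine integral_mono (T.N0_sq_int ν nG)
    (((T.N0_sq_int ν hF.Dz.n0).add (T.N0_sq_int ν hF.Dzb.n0)).const_mul _) fun q => ?_
  have h1 := fderiv_eq_dz (F q.1) q.2 v
  rw [fderiv_apply_eq] at h1
  have h2 : 2 * ‖G q.1 q.2‖ ≤ ‖v‖ * (‖dz (F q.1) q.2‖ + ‖dzb (F q.1) q.2‖) := by
    have : 2 * ‖G q.1 q.2‖ = ‖2 * G q.1 q.2‖ := by simp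
    rw [this, hG, h1]
    refine (norm_add_le _ _).trans (le_of_eq ?_)
    simp [mul_add]
  have h3 := pow_le_pow_left₀ (by positivity) h2 2
  simp only
  nlinarith [mul_nonneg (sq_nonneg ‖v‖) (sq_nonneg (‖dz (F q.1) q.2‖ - ‖dzb (F q.1) q.2‖)),
    mul_nonneg (sq_nonneg ‖v‖) (sq_nonneg ‖dz (F q.1) q.2‖),
    mul_nonneg (sq_nonneg ‖v‖) (sq_nonneg ‖dzb (F q.1) q.2‖)]

lemma volume_Q_ne : volume T.Q ≠ 0 := by
  refine (T.isOpen_Q.measure_pos volume ⟨(T.P 0 + T.P 1 + T.P 2) / 3, fun c => ?_⟩).ne'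
  have ho := T.o_pos
  have : T.ell c ((T.P 0 + T.P 1 + T.P 2) / 3) = T.o / 3 := by
    have h1 := fsum c T.P
    rw [Fin.sum_univ_three] at h1
    rw [h1, T.o_eq c]
    simp only [ell, w, cr, Complex.sub_re, Complex.sub_im, Complex.div_ofNat_re,
      Complex.div_ofNat_im, Complex.add_re, Complex.add_im]
    ring
  rw [this]; positivity

lemma const_of_shift {F : Ω → ℂ → ℂ} (hF : N0 F)
    (h : ∀ v, ∫ q, ‖F q.1 (q.2 + v) - F q.1 q.2‖ ^ 2 ∂T.mv ν v = 0) :
    ∀ᵐ q ∂T.mm ν, F q.1 q.2 = (volume.real T.Q : ℂ)⁻¹ * ∫ x in T.Q, F q.1 x := by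
  obtain ⟨C, hC⟩ := hF.2
  have m1 : Measurable (fun p : ℂ × (Ω × ℂ) => F p.2.1 (p.2.2 + p.1)) :=
    hF.1.comp (g := fun q : Ω × ℂ => F q.1 q.2)
      (f := fun p : ℂ × (Ω × ℂ) => (p.2.1, p.2.2 + p.1)) (by fun_prop)
  have m2 : Measurable (fun p : ℂ × (Ω × ℂ) => F p.2.1 p.2.2) := hF.1.comp measurable_snd
  have h1 : ∀ v, ∀ᵐ q ∂T.mm ν, q.2 + v ∈ T.Q → F q.1 (q.2 + v) = F q.1 q.2 := by
    intro v
    have i1 := sq_int (T.mv ν v) ((m1.sub m2).comp (measurable_prodMk_left (x := v))) (C := C + C)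
      fun q => (norm_sub_le _ _).trans (add_le_add (hC _ _) (hC _ _))
    have := (integral_eq_zero_iff_of_nonneg (fun q => sq_nonneg _) i1).1 (h v)
    filter_upwards [(ae_restrict_iff' (T.meas_mv v)).1 this] with q hq hv
    have := hq hv
    simpa [sub_eq_zero] using this
  have h2 : ∀ᵐ q ∂T.mm ν, ∀ᵐ v : ℂ, q.2 + v ∈ T.Q → F q.1 (q.2 + v) = F q.1 q.2 := by
    refine (Measure.ae_ae_comm (μ := (volume : Measure ℂ)) (ν := T.mm ν)
      (p := fun v q => q.2 + v ∈ T.Q → F q.1 (q.2 + v) = F q.1 q.2) ?_).1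
      (Eventually.of_forall h1)
    exact ((measurable_snd.snd.add measurable_fst) T.measurableSet_Q).imp
      (measurableSet_eq_fun m1 m2)
  filter_upwards [h2] with q hq
  have h3 := (measurePreserving_sub_right (volume : Measure ℂ) q.2).quasiMeasurePreserving.ae hq
  simp only [add_sub_cancel] at h3
  rw [setIntegral_congr_ae T.measurableSet_Q h3, setIntegral_const, Complex.real_smul,
    ← mul_assoc, inv_mul_cancel₀, one_mul]
  exact_mod_cast ENNReal.toReal_ne_zero.2 ⟨T.volume_Q_ne, T.volume_Q_lt_top.ne⟩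

end Tri

end

end Vale.Agent.P099
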