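import Vale.Agent.P099.Core

/-!
Weak mixing of the folded flow.
-/

open MeasureTheory Set Filter Topology

namespace Vale.Agent.P099

noncomputable section

lemma ind_congr {X : Type*} {S S' : Set X} {x y : X} (h : x ∈ S ↔ y ∈ S') :
    S.indicator (1 : X → ℂ) x = S'.indicator 1 y := by
  by_cases hy : y ∈ S'
  · simp [hy, h.2 hy]
  · simp [hy, mt h.1 hy]

namespace Tri

variable (T : Tri)

/-- the billiard flow on the phase space of the plane, folded into the fundamental domain -/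
def fl (t : ℝ) (z : ZZ) : ZZ := T.fold (sh t z)

lemma mp_fl (t : ℝ) : MeasurePreserving (T.fl t) T.nu T.nu := T.mp_flow t

lemma ae_Dp : ∀ᵐ z ∂T.nu, z ∈ T.Dp := ae_restrict_mem T.measurableSet_Dp

lemma ae_Dp2 : ∀ᵐ p ∂T.nu.prod T.nu, p.1 ∈ T.Dp ∧ p.2 ∈ T.Dp :=
  (Measure.quasiMeasurePreserving_fst.ae T.ae_Dp).and
    (Measure.quasiMeasurePreserving_snd.ae T.ae_Dp)

lemma fl_fl (t : ℝ) {z : ZZ} (hz : z ∈ T.Dp) : T.fl t (T.fl (-t) z) = z := by
  rw [fl, fl, fold_sh_fold, sh_add]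
  simp [sh_zero, fold_of_mem hz]

def hat (A : Set (ZZ × ZZ)) : Set (ZZ × ZZ) :=
  {p | p.1 ∈ T.G ∧ p.2 ∈ T.G ∧ (T.fold p.1, T.fold p.2) ∈ A}
def hat0 (A : Set (ZZ × ZZ)) : Set (ZZ × ZZ) := {p | ∀ᵐ t : ℝ, (sh t p.1, sh t p.2) ∈ T.hat A}

variable {A : Set (ZZ × ZZ)}

lemma meas_hat (hA : MeasurableSet A) : MeasurableSet (T.hat A) :=
  (measurable_fst T.measurableSet_G).inter ((measurable_snd T.measurableSet_G).inter
    ((T.measurable_fold.prodMap T.measurable_fold) hA))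

lemma meas_sh2 : Measurable (fun q : (ZZ × ZZ) × ℝ => (sh q.2 q.1.1, sh q.2 q.1.2)) := by
  unfold sh; fun_prop

lemma meas_hat0 (hA : MeasurableSet A) : MeasurableSet (T.hat0 A) := by
  have h1 := measurable_measure_prodMk_left (ν := (volume : Measure ℝ))
    (meas_sh2 (T.meas_hat hA)).compl
  exact h1 (measurableSet_singleton 0)

lemma hat0_refl (ω : ZZ) (a : Fin 3) (z : ZZ) (hz : z ∈ T.E a) :
    (ω, T.refl a z) ∈ T.hat0 A ↔ (ω, z) ∈ T.hat0 A := by
  simp only [hat0, mem_ofPred_eq]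
  refine eventually_congr (Eventually.of_forall fun t => ?_)
  have h1 : sh t (T.refl a z) = T.refl a (sh t z) := by rw [refl_sh, Complex.conj_ofReal]
  have h2 := (T.sh_mem_E a t z).2 hz
  simp only [hat, mem_ofPred_eq, h1, refl_mem_G_iff h2]
  refine and_congr_right fun _ => and_congr_right fun hG => ?_
  have := fold_zpow (T := T) 1 (sh t z)
  rw [zpow_one, sig_eq_refl h2 hG] at this
  rw [this]

lemma hat0_sh (t : ℝ) (ω z : ZZ) : (ω, sh t z) ∈ T.hat0 A ↔ (T.fl (-t) ω, z) ∈ T.hat0 A := by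
  have key : ∀ s : ℝ, (sh (s - t : ℝ) ω, sh (s - t : ℝ) (sh t z)) ∈ T.hat A ↔
      (sh s (T.fl (-t) ω), sh s z) ∈ T.hat A := by
    intro s
    have e1 : sh (s - t : ℝ) (sh t z) = sh s z := by rw [sh_add]; congr 1; push_cast; ring
    have e2 : sh (s - t : ℝ) ω = sh s (sh (-t : ℝ) ω) := by rw [sh_add]; congr 1; push_cast; ring
    simp only [hat, mem_ofPred_eq, e1, e2, fl, fold_sh_fold, sh_mem_G, fold_mem_G]
  constructor
  · intro h
    filter_upwards [(measurePreserving_sub_right (volume : Measure ℝ) t).quasiMeasurePreserving.ae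
      h] with s hs
    exact (key s).1 hs
  · intro h
    filter_upwards [(measurePreserving_add_right (volume : Measure ℝ) t).quasiMeasurePreserving.ae
      h] with s hs
    simpa using (key (s + t)).2 hs

lemma hat0_ae (hA : MeasurableSet A)
    (hi : ∀ t : ℝ, 0 ≤ t → ∀ᵐ p ∂T.nu.prod T.nu, (T.fl t p.1, T.fl t p.2) ∈ A ↔ p ∈ A) :
    ∀ᵐ p ∂T.nu.prod T.nu, p ∈ T.hat0 A ↔ p ∈ A := by
  have h1 : ∀ t : ℝ, ∀ᵐ p ∂T.nu.prod T.nu, (T.fl t p.1, T.fl t p.2) ∈ A ↔ p ∈ A := by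
    intro t
    rcases le_total 0 t with ht | ht
    · exact hi t ht
    · filter_upwards [((T.mp_fl t).prod (T.mp_fl t)).quasiMeasurePreserving.ae
        (hi (-t) (by linarith)), T.ae_Dp2] with p hp hD
      have e1 := T.fl_fl (-t) hD.1
      have e2 := T.fl_fl (-t) hD.2
      rw [neg_neg] at e1 e2
      simp only [Prod.map_fst, Prod.map_snd, e1, e2] at hp
      exact hp.symm
  have h2 : ∀ᵐ p ∂T.nu.prod T.nu, ∀ᵐ t : ℝ, (T.fl t p.1, T.fl t p.2) ∈ A ↔ p ∈ A := by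
    refine (Measure.ae_ae_comm (μ := (volume : Measure ℝ)) (ν := T.nu.prod T.nu)
      (p := fun t p => (T.fl t p.1, T.fl t p.2) ∈ A ↔ p ∈ A) ?_).1 (Eventually.of_forall h1)
    have m : Measurable (fun q : ℝ × (ZZ × ZZ) => (T.fl q.1 q.2.1, T.fl q.1 q.2.2)) :=
      (T.measurable_fold.comp (f := fun q : ℝ × (ZZ × ZZ) => sh q.1 q.2.1)
        (by unfold sh; fun_prop)).prodMk
      (T.measurable_fold.comp (f := fun q : ℝ × (ZZ × ZZ) => sh q.1 q.2.2)
        (by unfold sh; fun_prop))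
    exact (m hA).iff (measurable_snd hA)
  filter_upwards [h2, T.ae_Dp2] with p hp hD
  have e : ∀ t : ℝ, (sh t p.1, sh t p.2) ∈ T.hat A ↔ (T.fl t p.1, T.fl t p.2) ∈ A := by
    intro t
    simp only [hat, mem_ofPred_eq, sh_mem_G, hD.1.1, hD.2.1, true_and, fl]
  constructor
  · intro h
    obtain ⟨t, h3, h4⟩ := (hp.and h).exists
    exact h3.1 ((e t).1 h4)
  · intro h
    filter_upwards [hp] with t ht
    exact (e t).2 (ht.2 h)

lemma half (hirr : ∃ a b, ∀ n : ℤ, n ≠ 0 →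
      (fourier n (T.sg a + T.sg a) : ℂ) ≠ fourier n (T.sg b + T.sg b)) (hA : MeasurableSet A)
    (hi : ∀ t : ℝ, 0 ≤ t → ∀ᵐ p ∂T.nu.prod T.nu, (T.fl t p.1, T.fl t p.2) ∈ A ↔ p ∈ A) :
    ∃ V : ZZ → ℂ, ∀ᵐ p ∂T.nu.prod T.nu, A.indicator 1 p = V p.1 := by
  obtain ⟨V, hV⟩ := T.core T.nu (W := fun ω z => (T.hat0 A).indicator 1 (ω, z)) hirr
    ⟨measurable_one.indicator (T.meas_hat0 hA), fun ω z => by
      by_cases h : (ω, z) ∈ T.hat0 A <;> simp [h]⟩
    (fun ω z => by by_cases h : (ω, z) ∈ T.hat0 A <;> simp [h])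
    (fun ω a z hz => ind_congr (T.hat0_refl ω a z hz))
    (fun t => ⟨T.fl (-t), T.mp_fl _, fun ω z => ind_congr (T.hat0_sh t ω z)⟩)
  refine ⟨V, ?_⟩
  filter_upwards [hV, T.hat0_ae hA hi] with p h1 h2
  exact (ind_congr h2).symm.trans h1

theorem wm (hirr : ∃ a b, ∀ n : ℤ, n ≠ 0 →
      (fourier n (T.sg a + T.sg a) : ℂ) ≠ fourier n (T.sg b + T.sg b)) (hA : MeasurableSet A)
    (hi : ∀ t : ℝ, 0 ≤ t → ∀ᵐ p ∂T.nu.prod T.nu, (T.fl t p.1, T.fl t p.2) ∈ A ↔ p ∈ A) :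
    T.nu.prod T.nu A = 0 ∨ T.nu.prod T.nu A = T.nu univ * T.nu univ := by
  have sw := (Measure.measurePreserving_swap (μ := T.nu) (ν := T.nu)).quasiMeasurePreserving
  obtain ⟨V, hV⟩ := T.half hirr hA hi
  obtain ⟨U, hU⟩ := T.half hirr (measurable_swap hA) fun t ht => sw.ae (hi t ht)
  have hU' : ∀ᵐ p ∂T.nu.prod T.nu, A.indicator 1 p = U p.2 := sw.ae hU
  have e0 : ∫ p, A.indicator (1 : ZZ × ZZ → ℂ) p ∂T.nu.prod T.nu =
      ((T.nu.prod T.nu).real A : ℂ) := by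
    rw [integral_indicator hA]; simp
  have e1 : ((T.nu.prod T.nu).real A : ℂ) = (∫ z, V z ∂T.nu) * T.nu.real univ := by
    rw [← e0, integral_congr_ae hV, integral_fun_fst, Complex.real_smul, mul_comm]
  have e2 : ((T.nu.prod T.nu).real A : ℂ) = (∫ z, U z ∂T.nu) * T.nu.real univ := by
    rw [← e0, integral_congr_ae hU', integral_fun_snd, Complex.real_smul, mul_comm]
  have e3 : ((T.nu.prod T.nu).real A : ℂ) = (∫ z, V z ∂T.nu) * ∫ z, U z ∂T.nu := by
    rw [← e0, ← integral_prod_mul]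
    apply integral_congr_ae
    filter_upwards [hV, hU'] with p h1 h2
    rw [← h1, ← h2]
    by_cases h : p ∈ A <;> simp [h]
  have e4 : ((T.nu.prod T.nu).real A : ℂ) *
      ((T.nu.prod T.nu).real A - T.nu.real univ * T.nu.real univ) = 0 := by
    linear_combination ((T.nu.prod T.nu).real A : ℂ) * e1 +
      ((∫ z, V z ∂T.nu) * T.nu.real univ) * e2 - (T.nu.real univ : ℂ) ^ 2 * e3
  rcases mul_eq_zero.1 e4 with h | h
  · left
    have : (T.nu.prod T.nu).real A = 0 := by exact_mod_cast h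
    exact (measureReal_eq_zero_iff (measure_ne_top _ _)).1 this
  · right
    have : (T.nu.prod T.nu).real A = T.nu.real univ * T.nu.real univ := by
      exact_mod_cast sub_eq_zero.1 h
    rw [← ENNReal.toReal_eq_toReal_iff' (measure_ne_top _ _)
      (ENNReal.mul_ne_top (measure_ne_top _ _) (measure_ne_top _ _)), ENNReal.toReal_mul]
    exact this

end Tri

end

end Vale.Agent.P099
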